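import Vale.Agent.P057PC.Mark

/-!
The polynomial counting lemma: regularity of the cube systems gives mass one for all
configurations.
-/

set_option linter.unusedSectionVars false

open Matrix Finset Real
open Vale.Agent.P267.H775 Vale.Agent.P057G

namespace Vale.Agent.P057PC

noncomputable section

variable {ι Δ M V L : Type} [AddCommMonoid M] [Fintype ι] [DecidableEq ι] {T : Tw ι Δ}

theorem bk_smul {L : Type*} (c : ℝ) (G : Matrix L L ℝ) (P : L → Prop) :
    bk (c • G) P = c • bk G P := rfl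

theorem Tw.LF.std {d N : ℕ} {Λ η lam : ℝ} (h : T.LF d N Λ η) (hT : T.Ok) [Fintype V] [Fintype L]
    [DecidableEq L] {C : Cf ι Δ M V L} (hC : C.Ok T) (hN : Fintype.card V ≤ N)
    (hd : ∀ l, T.lv (C.cd l) ≤ d) (h0 : 0 < lam) (h1 : lam ≤ Λ) :
    |ms (lam • C.Gam T) (C.p T) - 1| ≤ η :=
  h M V L C hC hN hd _ ((hC.posDef hT).smul h0) fun v => by
    rw [qq_smul_mat]
    exact mul_le_mul_of_nonneg_right h1 (qq_nonneg (hC.posDef hT).posSemidef v)

theorem qq_Gd_le (hT : T.Ok) [Fintype L] [DecidableEq L] {C : Cf ι Δ M V L} (hC : C.Ok T) (v : V)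
    [DecidablePred fun l => C.Dv v (C.mo l)] {lam : ℝ} (h0 : 0 < lam)
    (x : L ⊕ {l // C.Dv v (C.mo l)} → ℝ) :
    qq (Gd (lam • C.Gam T) fun l => C.Dv v (C.mo l)) x ≤ 3 * lam * qq ((C.dbl v).Gam T) x := by
  refine (qq_Gd ((hC.posDef hT).smul h0) (C.ort_Gam T lam fun l l' h1 h2 => h1 ▸ h2) x).trans ?_
  rw [Cf.Gam_dbl, qq_blocks, qq_blocks, bk_smul, qq_smul_mat, qq_smul_mat]
  exact le_of_eq (by ring)

theorem Tw.LF.dbl {d N : ℕ} {Λ η lam : ℝ} (h : T.LF d N Λ η) (hT : T.Ok) [Fintype V] [Fintype L]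
    [DecidableEq L] {C : Cf ι Δ M V L} (hC : C.Ok T) (hN : Fintype.card V + 1 ≤ N)
    (hd : ∀ l, T.lv (C.cd l) ≤ d) (h0 : 0 < lam) (h1 : 3 * lam ≤ Λ) (v : V)
    [DecidablePred fun l => C.Dv v (C.mo l)] :
    |ms (Gd (lam • C.Gam T) fun l => C.Dv v (C.mo l)) (pd (fun l => C.Dv v (C.mo l)) (C.p T)) - 1|
      ≤ η := by
  rw [← Cf.p_dbl]
  refine h _ _ _ (C.dbl v) (hC.dbl v) (by simpa using hN) (fun l => ?_) _
    (posDef_Gd ((hC.posDef hT).smul h0)) fun x => (qq_Gd_le hT hC v h0 x).trans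
      (mul_le_mul_of_nonneg_right h1 (qq_nonneg ((hC.dbl v).posDef hT).posSemidef x))
  rcases l with l | l <;> exact hd _

/-- deleting a generator changes averages of functions of the remaining labels only a little -/
theorem Tw.LF.push {d N : ℕ} {Λ η lam : ℝ} (h : T.LF d N Λ η) (hT : T.Ok) (hη : η ≤ 1)
    [Fintype V] [Fintype L] [DecidableEq L] {C : Cf ι Δ M V L} (hC : C.Ok T)
    (hN : Fintype.card V + 1 ≤ N) (hd : ∀ l, T.lv (C.cd l) ≤ d) (h0 : 0 < lam) (h1 : 3 * lam ≤ Λ)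
    (v : V) [DecidablePred (C.Dv v)] {f : ({l // ¬ C.Dv v (C.mo l)} → ℤ) → ℂ} {B : ℝ}
    (hf : ∀ y, ‖f y‖ ≤ B) :
    ‖Ex (lam • C.Gam T) (C.p T) (fun z => f (rs _ z)) -
      Ex (lam • (C.sub fun l => ¬ C.Dv v (C.mo l)).Gam T)
        ((C.sub fun l => ¬ C.Dv v (C.mo l)).p T) f‖ ≤ 3 * √η * B :=
  Ex_push (hC.tri hT) ((hC.posDef hT).smul h0) (C.ort_Gam T lam fun l l' h1 h2 => h1 ▸ h2)
    (C.spl_kill T fun _ m h => h.add m) hη
    (h.std hT (hC.kill fun _ m h => h.add m) (by omega) (fun l => hd _) h0 (by linarith))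
    (h.std hT hC (by omega) hd h0 (by linarith)) (h.dbl hT hC hN hd h0 h1 v) hf

variable {d N : ℕ} {lam H δ η : ℝ} {σ : Fin (d + 1) → Δ} {k : ι → ℤ}

theorem chain_end (hT : T.Ok) (hlam : 0 < lam) (hη : η ≤ 1) (hLF : T.LF d N (3 * lam) η)
    (hR : T.Reg (d + 1) lam H δ) (hk : k ≠ 0) (hs : T.Sm (univ.val.map σ) H k) [Fintype V]
    (hN : Fintype.card V + 1 ≤ N) {h : Fin (d + 1) → V} {fl : M → Finset (Fin (d + 1))}
    {κ : ι → M → ℝ} (W : Finset V) :
    ∀ (L : Type) [Fintype L] [DecidableEq L] (C : Cf ι Δ M V L), C.Ok T →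
      C.Mk T σ k univ h fl κ → (∀ l, T.lv (C.cd l) ≤ d) →
      (∀ l v, (∀ i, h i ≠ v) → C.Dv v (C.mo l) → v ∈ W) →
      ‖Ex (lam • C.Gam T) (C.p T) fun z => ee (C.ph T κ (toR z))‖ ≤ δ + W.card * (3 * √η) := by
  classical
  induction W using Finset.induction_on with
  | empty =>
    intro L _ _ C hC hm hd hW
    obtain ⟨c, hc⟩ := hm.Ex_cube hC hT (fun l => Nat.lt_succ_of_le (hd l))
      (fun l v h1 h2 => by simpa using hW l v h1 h2) lam
    rw [hc]
    simpa using hR σ c k hk hs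
  | insert v W hv ih =>
    intro L _ _ C hC hm hd hW
    rw [card_insert_of_notMem hv, Nat.cast_succ, add_mul, one_mul, ← add_assoc]
    by_cases h1 : ∀ i, h i ≠ v
    · have h2 := ih _ (C.sub fun l => ¬ C.Dv v (C.mo l)) (hC.kill fun _ m h => h.add m)
        (hm.kill hC h1) (fun l => hd _) fun l w h3 h4 =>
          (mem_insert.1 (hW l w h3 h4)).resolve_left fun h5 => l.2 (h5 ▸ h4)
      have h3 := hLF.push hT hη hC hN hd hlam le_rfl v (B := 1)
        (f := fun y => ee ((C.sub fun l => ¬ C.Dv v (C.mo l)).ph T κ (toR y)))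
        fun y => (norm_ee _).le
      have h4 : (fun z => ee (C.ph T κ (toR z))) = fun z =>
          ee ((C.sub fun l => ¬ C.Dv v (C.mo l)).ph T κ (toR (rs _ z))) :=
        funext fun z => by rw [hm.ph_kill hC h1]; rfl
      rw [h4]
      exact (norm_le_insert' _ _).trans (add_le_add h2 (by simpa using h3))
    · refine (ih _ C hC hm hd fun l w h3 h4 => (mem_insert.1 (hW l w h3 h4)).resolve_left
        fun h5 => h1 (h5 ▸ h3)).trans (le_add_of_nonneg_right (by positivity))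

theorem chain (hT : T.Ok) (hlam : 0 < lam) (hη : η ≤ 1) (hLF : T.LF d N (3 * lam) η)
    (hR : T.Reg (d + 1) lam H δ) (hk : k ≠ 0) (hs : T.Sm (univ.val.map σ) H k) (r : ℕ) :
    ∀ (M V L : Type) [AddCommMonoid M] [Fintype V] [Fintype L] [DecidableEq L]
      (C : Cf ι Δ M V L) (S : Finset (Fin (d + 1))) (h : Fin (d + 1) → V)
      (fl : M → Finset (Fin (d + 1))) (κ : ι → M → ℝ) (A : Matrix L L ℝ) (Λ γ : ℝ), C.Ok T →
      C.Mk T σ k S h fl κ → (∀ l, T.lv (C.cd l) ≤ d) → S.card + r = d + 1 →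
      Fintype.card V + r + 1 ≤ N → A.PosDef → 0 < Λ → (∀ v, qq A v ≤ Λ * qq (C.Gam T) v) →
      2 * 6 ^ r * Λ ≤ lam → 0 ≤ γ → δ + N * (3 * √η) ≤ γ ^ 2 ^ r →
      ‖Ex A (C.p T) fun z => ee (C.ph T κ (toR z))‖ ≤ 2 * γ := by
  classical
  induction r with
  | zero =>
    intro M V L _ _ _ _ C S h fl κ A Λ γ hC hm hd hS hN hA hΛ hAΛ hl hγ hβ
    obtain rfl : S = univ := eq_univ_of_card S (by simpa using hS)
    have hG := hC.posDef hT
    have h1 : (lam • C.Gam T - A).PosDef := by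
      have := posDef_gap hA (hG.smul (half_pos hlam)) fun v => (hAΛ v).trans (by
        rw [qq_smul_mat]
        exact mul_le_mul_of_nonneg_right (by linarith) (qq_nonneg hG.posSemidef v))
      rwa [smul_smul, mul_div_cancel₀ _ two_ne_zero] at this
    rw [← sub_zero (Ex _ _ _)]
    refine Ex_mix (hC.tri hT) hA h1 (fun z => (norm_ee _).le) fun c => ?_
    rw [sub_zero, ← Cf.p_cen]
    refine (chain_end hT hlam hη hLF hR hk hs (by omega) univ L (C.cen c) (hC.cen c) (hm.cen c) hd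
      fun _ _ _ _ => mem_univ _).trans ?_
    have h2 : ((univ : Finset V).card : ℝ) ≤ N := by
      rw [card_univ]; exact_mod_cast (by omega)
    have h3 := mul_le_mul_of_nonneg_right h2 (by positivity : 0 ≤ 3 * √η)
    simp only [pow_zero, pow_one] at hβ
    linarith
  | succ r ih =>
    intro M V L _ _ _ _ C S h fl κ A Λ γ hC hm hd hS hN hA hΛ hAΛ hl hγ hβ
    obtain ⟨j, hj⟩ : ∃ j, j ∉ S := by
      by_contra h1
      have : S = univ := eq_univ_iff_forall.2 fun j => by simpa using not_exists.1 h1 j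
      simp [this] at hS
    have hG := hC.posDef hT
    have h1 : ((2 * Λ) • C.Gam T - A).PosDef := by
      have := posDef_gap hA (hG.smul hΛ) fun v => by rw [qq_smul_mat]; exact hAΛ v
      rwa [smul_smul] at this
    have h6 : (1 : ℝ) ≤ 6 ^ r := one_le_pow₀ (by norm_num)
    have hl2 : 2 * Λ ≤ 3 * lam := by rw [pow_succ] at hl; nlinarith
    rw [← sub_zero (Ex _ _ _)]
    refine Ex_mix (hC.tri hT) hA h1 (fun z => (norm_ee _).le) fun c => ?_
    rw [sub_zero, ← Cf.p_cen]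
    have hC' := hC.cen c
    have h2 := Ex_cs (hC'.tri hT) (hG.smul (by linarith : 0 < 2 * Λ))
      ((C.cen c).ort_Gam T _ (P := fun l => (C.cen c).Dv (h j) ((C.cen c).mo l))
        fun l l' h1 h2 => h1 ▸ h2)
      ((C.cen c).spl_kill T fun _ m h => h.add m)
      (f := fun z => ee ((C.cen c).ph T κ (toR z))) fun z => (norm_ee _).le
    have h3 := hLF.std hT (hC'.kill (I := (C.cen c).Dv (h j)) fun _ m h => h.add m) (by omega)
      (fun l => hd _) (by linarith : 0 < 2 * Λ) hl2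
    have h4 := ih _ _ _ ((C.cen c).dbl (h j)) _ _ _ _ _ (6 * Λ) (γ ^ 2) (hC'.dbl _)
      ((hm.cen c).dbl hC' hj) (fun l => by rcases l with l | l <;> exact hd _)
      (by rw [card_insert_of_notMem hj]; omega) (by simp only [Fintype.card_option]; omega)
      (posDef_Gd (hG.smul (by linarith : 0 < 2 * Λ))) (by linarith)
      (fun x => (qq_Gd_le hT hC' (h j) (by linarith : 0 < 2 * Λ) x).trans (le_of_eq (by ring)))
      (by rw [pow_succ] at hl; linarith) (by positivity) (by rwa [← pow_mul, ← pow_succ'])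
    simp only [Cf.ph_dbl, Cf.p_dbl, sub_eq_neg_add, ee_add, ee_neg] at h4
    refine abs_le_of_sq_le_sq' (h2.trans ?_) (by positivity) |>.2
    refine (mul_le_mul (b := 2) ?_ h4 (norm_nonneg _) (by norm_num)).trans (le_of_eq (by ring))
    exact (sub_le_iff_le_add.1 (abs_le.1 h3).2).trans (by linarith)

omit [Fintype ι] [DecidableEq ι] in
theorem exists_map_univ {D : ℕ} (s : Multiset V) (h : Multiset.card s = D) :
    ∃ g : Fin D → V, univ.val.map g = s := by
  induction s using Quotient.inductionOn with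
  | h l =>
    subst h
    exact ⟨l.get, (Fin.univ_val_map l.get).trans (congrArg _ (List.ofFn_get l))⟩

theorem card_mo_le (hT : T.Ok) [Fintype V] [Fintype L] [DecidableEq M] {C : Cf ι Δ M V L}
    (hC : C.Ok T) (D : ℕ) [DecidablePred fun l => T.lv (C.cd l) = D] :
    (univ.image fun l : {l // T.lv (C.cd l) = D} => C.mo l).card ≤ Fintype.card V ^ D := by
  classical
  have h1 : (univ.image fun l : {l // T.lv (C.cd l) = D} => C.mo l) ⊆
      univ.image fun g : Fin D → V => C.ys (univ.val.map g) := fun m hm => by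
    obtain ⟨l, -, rfl⟩ := mem_image.1 hm
    obtain ⟨s, hs⟩ := hC.gen l
    have h2 : Multiset.card s = D := by rw [← hC.dg_ys, ← hs, hC.dg_mo hT, l.2]
    obtain ⟨g, hg⟩ := exists_map_univ s h2
    exact mem_image.2 ⟨g, mem_univ _, by rw [hg, hs]⟩
  exact (card_le_card h1).trans (card_image_le.trans (by simp))

/-- the labels at one monomial are the allowed coordinates -/
theorem ms_block (hT : T.Ok) [Fintype L] [DecidableEq L] [DecidableEq M] {C : Cf ι Δ M V L}
    (hC : C.Ok T) {D : ℕ} {Λ B : ℝ} (hB : T.Th D Λ B) (l : {l // T.lv (C.cd l) = D}) :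
    ms (bk (Λ • bk (C.Gam T) fun l => T.lv (C.cd l) = D) fun l' => C.mo l' = C.mo l)
      (fun _ => 0) ≤ B := by
  classical
  obtain ⟨s, hs⟩ := hC.gen l
  have h2 : Multiset.card s = D := by rw [← hC.dg_ys, ← hs, hC.dg_mo hT, l.2]
  refine le_trans (le_of_eq ?_) (hB (s.map C.cl) (by simpa using h2))
  let g : {l' : {l // T.lv (C.cd l) = D} // C.mo l' = C.mo l} → {a // T.al a (s.map C.cl)} :=
    fun l' => ⟨C.cd l', hC.lab1 _ _ (l'.2.trans hs)⟩
  have hg : Function.Bijective g := by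
    refine ⟨fun x y hxy => Subtype.ext (Subtype.ext (hC.inj _ _ (congrArg Subtype.val hxy)
      (x.2.trans y.2.symm))), fun a => ?_⟩
    obtain ⟨l', h3, h4⟩ := hC.lab2 l s 0 a (by rw [add_zero, hs]) a.2
    exact ⟨⟨⟨l', by rw [h3, ← hT.alc _ _ a.2, Multiset.card_map, h2]⟩, h4.trans hs.symm⟩,
      Subtype.ext h3⟩
  refine ms_equiv (Equiv.ofBijective g hg) (fun x y => ?_) fun _ _ => rfl
  exact congrArg (Λ * ·) (C.Gam_eq T (x.2.trans y.2.symm))

theorem pa_sum [Fintype L] [DecidableEq M] (mo : L → M) (P : L → Prop) [DecidablePred P]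
    (k : L → ℝ) (u : Alg M) :
    pa (fun m => ∑ l, if P l ∧ mo l = m then k l else 0) u =
      ∑ l, if P l then k l * u.coeff (mo l) else 0 := by
  induction u using AddMonoidAlgebra.induction_linear with
  | zero => simp
  | add u v hu hv =>
    rw [map_add, hu, hv, ← sum_add_distrib]
    refine sum_congr rfl fun l _ => ?_
    split_ifs <;> simp [mul_add]
  | single m r =>
    rw [pa_single, mul_sum]
    refine sum_congr rfl fun l _ => ?_
    rw [AddMonoidAlgebra.coeff_single, Finsupp.single_apply]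
    by_cases h1 : P l <;> by_cases h2 : mo l = m <;> simp [h1, h2, eq_comm (a := m), mul_comm]

/-- a short frequency on the top labels is not biased -/
theorem top_small (hT : T.Ok) (hlam : 0 < lam) (hη : η ≤ 1) (hLF : T.LF d N (3 * lam) η)
    (hR : T.Reg (d + 1) lam H δ) [Fintype V] [Fintype L] [DecidableEq L] {C : Cf ι Δ M V L}
    (hC : C.Ok T) (hd : ∀ l, T.lv (C.cd l) ≤ d + 1) (hN : Fintype.card V + (d + 1) + 1 ≤ N)
    {Λ γ : ℝ} (hΛ : 0 < Λ) (hl : 2 * 6 ^ (d + 1) * Λ ≤ lam) (hγ : 0 ≤ γ)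
    (hβ : δ + N * (3 * √η) ≤ γ ^ 2 ^ (d + 1)) (k : {l // T.lv (C.cd l) = d + 1} → ℤ) (hk : k ≠ 0)
    (hH : qq (bk (Λ • C.Gam T) fun l => T.lv (C.cd l) = d + 1)⁻¹ (toR k) ≤ H / Λ) :
    ‖Ex (Λ • (C.sub fun l => ¬ T.lv (C.cd l) = d + 1).Gam T)
      ((C.sub fun l => ¬ T.lv (C.cd l) = d + 1).p T) fun y => 1 * ee (toR k ⬝ᵥ fun l =>
        ((C.sub fun l => ¬ T.lv (C.cd l) = d + 1).val T (toR y) (C.cd l)).coeff (C.mo l) +
          C.ce l)‖ ≤ 2 * γ := by
  classical
  obtain ⟨l0, hl0⟩ := Function.ne_iff.1 hk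
  obtain ⟨s, hs⟩ := hC.gen l0
  have h2 : Multiset.card s = d + 1 := by rw [← hC.dg_ys, ← hs, hC.dg_mo hT, l0.2]
  obtain ⟨h, rfl⟩ := exists_map_univ s h2
  have hG := hC.posDef hT
  let κz : ι → M → ℤ := fun a m => ∑ l : {l // T.lv (C.cd l) = d + 1},
    if C.cd l = a ∧ C.mo l = m then k l else 0
  have hκ : ∀ a m, (κz a m : ℝ) = ∑ l : {l // T.lv (C.cd l) = d + 1},
      if C.cd l = a ∧ C.mo l = m then (k l : ℝ) else 0 := fun a m => by
    simp only [κz]; push_cast; rfl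
  have hκ0 : ∀ a m, κz a m ≠ 0 → ∃ l : {l // T.lv (C.cd l) = d + 1}, C.cd l = a ∧ C.mo l = m :=
    fun a m h1 => by
      obtain ⟨l, -, hl⟩ := exists_ne_zero_of_sum_ne_zero h1
      exact ⟨l, by by_contra h3; exact hl (if_neg h3)⟩
  have hκ1 : ∀ l : {l // T.lv (C.cd l) = d + 1}, κz (C.cd l) (C.mo l) = k l := fun l => by
    refine (sum_eq_single l (fun l' _ h1 => if_neg fun h3 => h1 ?_) (by simp)).trans (by simp)
    exact Subtype.ext (hC.inj _ _ h3.1 h3.2)
  have hC' := hC.low hT hd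
  have hm : (C.sub fun l => ¬ T.lv (C.cd l) = d + 1).Mk T (C.cl ∘ h)
      (fun a => κz a (C.mo l0)) ∅ h (fun _ => ∅) fun a m => κz a m := by
    refine ⟨rfl, by simp, by simp, by simp, by simp, by simp, fun a m h1 => ?_,
      fun a => by rw [hs]; rfl, fun _ => rfl, fun F a hF ha => ?_⟩
    · obtain ⟨l, -, rfl⟩ := hκ0 a m (by exact_mod_cast h1)
      exact ⟨empty_subset _, (hC.dg_mo hT l).trans l.2, hC.gen l⟩
    · obtain ⟨l, h3, h4⟩ := hC.lab2 l0 (F.val.map h) (C.ys (Fᶜ.val.map h)) a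
        (by rw [hs, ← Cf.ys_add, ← Multiset.map_add, ← disjUnion_val _ _ disjoint_compl_right,
          disjUnion_eq_union, union_compl]) (by rwa [Multiset.map_map])
      refine ⟨⟨l, fun h5 => hF (eq_univ_of_card F ?_)⟩, h3, h4⟩
      have := hT.alc _ _ ha
      rw [← h3, h5] at this
      simpa using this
  have hs' : T.Sm (univ.val.map (C.cl ∘ h)) H fun a => κz a (C.mo l0) := by
    refine ⟨fun a h1 => ?_, fun x hx => ?_⟩
    · obtain ⟨l, rfl, h3⟩ := hκ0 a _ h1
      simpa only [Multiset.map_map] using hC.lab1 l _ (h3.trans hs)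
    · let v : {l // T.lv (C.cd l) = d + 1} → ℝ := fun l =>
        if C.mo l = C.mo l0 then x (C.cd l) else 0
      have h3 : toR (fun a => κz a (C.mo l0)) ⬝ᵥ x = v ⬝ᵥ toR k := by
        simp only [dotProduct, toR_apply, hκ, sum_mul]
        rw [sum_comm]
        refine sum_congr rfl fun l _ => ?_
        by_cases h4 : C.mo l = C.mo l0 <;> simp [v, h4, mul_comm]
      have h4 : qq (bk (C.Gam T) fun l => T.lv (C.cd l) = d + 1) v = qq T.G x := by
        rw [← Cf.Gam_sub, Cf.qq_Gam, sum_eq_single (C.mo l0)]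
        · congr 1
          funext a
          rw [Cf.coeff_pt]
          by_cases h5 : x a = 0
          · refine (sum_eq_zero fun l _ => ?_).trans h5.symm
            split_ifs with h6
            · have h7 : C.cd l = a := h6.1
              simp [v, h7, h5]
            · rfl
          · obtain ⟨l, h6, h7⟩ := hC.lab2 l0 _ 0 a (by rw [add_zero, hs])
              (by simpa only [Multiset.map_map] using hx a h5)
            have h8 : T.lv (C.cd l) = d + 1 := by
              rw [← hC.dg_mo hT, h7, ← hs, hC.dg_mo hT, l0.2]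
            refine (sum_eq_single ⟨l, h8⟩ (fun l' _ h1 => if_neg fun h3 => h1 ?_) (by simp)).trans ?_
            · exact Subtype.ext (hC.inj _ _ (h3.1.trans h6.symm) (h3.2.trans (hs.trans h7.symm)))
            · rw [if_pos ⟨h6, h7.trans hs.symm⟩]
              simp [v, h6, h7, hs]
        · intro m _ h5
          have : (fun a => ((C.sub fun l => T.lv (C.cd l) = d + 1).pt v a).coeff m) = 0 := by
            funext a
            rw [Cf.coeff_pt]
            refine sum_eq_zero fun l _ => ?_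
            split_ifs with h6
            · exact if_neg fun h7 => h5 (h6.2.symm.trans h7)
            · rfl
          rw [this]; simp [qq]
        · exact fun h5 => (h5 (mem_image.2 ⟨l0, mem_univ _, rfl⟩)).elim
      rw [h3]
      refine (dot_sq_le (posDef_bk (hG.smul hΛ) _) _ _).trans ?_
      rw [bk_smul, qq_smul_mat, h4, ← bk_smul]
      refine (mul_le_mul_of_nonneg_left hH
        (mul_nonneg hΛ.le (qq_nonneg hT.pd.posSemidef x))).trans (le_of_eq ?_)
      field_simp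
  have h5 := chain hT hlam hη hLF hR (fun h1 => hl0 ((hκ1 l0).symm.trans (congrFun h1 _))) hs'
    (d + 1) M V _ _ ∅ h _ _ _ Λ γ hC' hm
    (fun l => Nat.le_of_lt_succ (lt_of_le_of_ne (hd l) l.2)) (by simp) hN
    ((hC'.posDef hT).smul hΛ) hΛ (fun v => (qq_smul_mat _ _ _).le) hl hγ hβ
  have h6 : ∀ y, 1 * ee (toR k ⬝ᵥ fun l =>
      ((C.sub fun l => ¬ T.lv (C.cd l) = d + 1).val T (toR y) (C.cd l)).coeff (C.mo l) + C.ce l) =
      ee (toR k ⬝ᵥ fun l => C.ce l) *
        ee ((C.sub fun l => ¬ T.lv (C.cd l) = d + 1).ph T (fun a m => κz a m) (toR y)) := by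
    intro y
    rw [one_mul, ← ee_add]
    congr 1
    simp only [Cf.ph, hκ, pa_sum, dotProduct, mul_add, sum_add_distrib, toR_apply]
    rw [sum_comm, add_comm]
    simp
  simp only [h6, Ex_mul_const, norm_mul, norm_ee, one_mul]
  exact h5

/-- one more level -/
theorem Tw.LF.step (hT : T.Ok) (hlam : 0 < lam) (hη : η ≤ 1) {N' : ℕ}
    (hLF : T.LF d N' (3 * lam) η) (hR : T.Reg (d + 1) lam H δ) {Λ B γ : ℝ} (hΛ : 0 < Λ)
    (hB : T.Th (d + 1) (4 * Λ) B) (hB1 : 1 ≤ B) (hN : N + (d + 1) + 1 ≤ N')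
    (hl : 4 * 6 ^ (d + 1) * Λ ≤ lam) (hγ : 0 ≤ γ) (hβ : δ + N' * (3 * √η) ≤ γ ^ 2 ^ (d + 1)) :
    T.LF (d + 1) N Λ (η + B ^ N ^ (d + 1) * (2 * γ + 2 * exp (-(π * (H / (2 * Λ)) / 2)))) := by
  classical
  intro M V L _ _ _ _ C hC hV hd A hA hAΛ
  have hG := hC.posDef hT
  have h1 : ((2 * Λ) • C.Gam T - A).PosDef := by
    have := posDef_gap hA (hG.smul hΛ) fun v => by rw [qq_smul_mat]; exact hAΛ v
    rwa [smul_smul] at this
  refine ms_mix (hC.tri hT) hA h1 fun c => ?_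
  rw [← Cf.p_cen, ← C.Gam_cen T c]
  have hd' : ∀ l, T.lv ((C.cen c).cd l) ≤ d + 1 := hd
  have hC' := hC.cen c
  generalize C.cen c = C' at hd' hC'
  have hΛ2 : 0 < 2 * Λ := by linarith
  have hG' := (hC'.posDef hT).smul hΛ2
  have h6 : (1 : ℝ) ≤ 6 ^ (d + 1) := one_le_pow₀ (by norm_num)
  have h2 := hLF.std hT (hC'.low hT hd') (by omega)
    (fun l => Nat.le_of_lt_succ (lt_of_le_of_ne (hd' l) l.2)) hΛ2 (by nlinarith)
  have h3 : ms ((2 : ℝ) • bk ((2 * Λ) • C'.Gam T) fun l => T.lv (C'.cd l) = d + 1) (fun _ => 0) ≤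
      B ^ N ^ (d + 1) := by
    rw [bk_smul, smul_smul, show 2 * (2 * Λ) = 4 * Λ by ring]
    refine (ms_zero_le (B := B) (univ.image fun l : {l // T.lv (C'.cd l) = d + 1} => C'.mo l) _
      (fun l => C'.mo l.1) _ ((posDef_bk (hC'.posDef hT) _).smul (by linarith : 0 < 4 * Λ))
      (fun l l' h => ?_) (fun l => mem_image_of_mem _ (mem_univ l)) fun m hm => ?_).trans
      (pow_le_pow_right₀ hB1 ((card_mo_le hT hC' _).trans (Nat.pow_le_pow_left ?_ _)))
    · exact (congrArg (4 * Λ * ·) (C'.Gam_ne T h)).trans (mul_zero _)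
    · obtain ⟨l, -, rfl⟩ := mem_image.1 hm
      exact ms_block hT hC' hB l
    · exact hV
  have h4 := top_le (hC'.tri hT) hG' (C'.ort_Gam T _ (P := fun l => T.lv (C'.cd l) = d + 1)
    fun l l' h1 h2 => by rw [← hC'.dg_mo hT, ← h1, hC'.dg_mo hT, h2]) (hC'.spl_low hT hd')
    (pt := fun y l => ((C'.sub fun l => ¬ T.lv (C'.cd l) = d + 1).val T (toR y) (C'.cd l)).coeff
      (C'.mo l) + C'.ce l)
    (fun z l => by rw [Cf.p, Cf.pr, hC'.val_low hT (d + 1) _ (hd' l)]; rfl)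
    (f := fun _ => 1) (C := 1) (by simp) (H := H / (2 * Λ)) (by positivity : 0 ≤ 2 * γ) h3
    fun k hk hH => top_small hT hlam hη hLF hR hC' hd' (by omega) hΛ2 (by linarith) hγ hβ k hk hH
  rw [Ex_one, Ex_one, ← Complex.ofReal_sub, Complex.norm_real, Real.norm_eq_abs, one_mul] at h4
  refine (abs_sub_le _ _ _).trans ((add_le_add h4 h2).trans ?_)
  rw [add_comm η]
  gcongr
  exact (sub_le_iff_le_add.1 (abs_le.1 h2).2).trans (by linarith)

/-- no labels at level zero -/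
theorem Tw.LF.zero (hT : T.Ok) (N : ℕ) (Λ : ℝ) : T.LF 0 N Λ 0 := by
  intro M V L _ _ _ _ C _ _ hd A _ _
  have : IsEmpty L := ⟨fun l => (hT.pos _).not_ge (hd l)⟩
  simp [ms_empty]

theorem Tw.LF.mono {d' N' : ℕ} {Λ Λ' η' : ℝ} (h : T.LF d N Λ η) (hT : T.Ok) (hd : d' ≤ d)
    (hN : N' ≤ N) (hΛ : Λ' ≤ Λ) (hη : η ≤ η') : T.LF d' N' Λ' η' :=
  fun M V L _ _ _ _ C hC hV hl A hA hAΛ => (h M V L C hC (hV.trans hN) (fun l => (hl l).trans hd) A hA
    fun v => (hAΛ v).trans (mul_le_mul_of_nonneg_right hΛ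
      (qq_nonneg (hC.posDef hT).posSemidef v))).trans hη

end

end Vale.Agent.P057PC
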