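import Vale.Agent.P057PC.CM
import Vale.Agent.P057GH.Pb

/-!
The counting lemma for cube systems.
-/

set_option linter.unusedSectionVars false

open Matrix Finset MvPolynomial
open Vale.Agent.P267.H775 Vale.Agent.P057G Vale.Agent.P057ST Vale.Agent.P057TP Vale.Agent.P057GH

namespace Vale.Agent.P057PC

noncomputable section

theorem Sup.ind {M : Type} [AddCommMonoid M] {P : M → Prop} {u : Alg M} (hu : Sup P u)
    {Q : Alg M → Prop} (h0 : Q 0) (ha : ∀ a b, Q a → Q b → Q (a + b))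
    (hs : ∀ m r, P m → Q (AddMonoidAlgebra.single m r)) : Q u := by
  rw [← u.sum_coeff_single, Finsupp.sum]
  exact sum_induction _ Q ha h0 fun m hm => hs m _ (hu m (Finsupp.mem_support_iff.1 hm))

theorem qq_face {ι L Φ : Type} [Fintype ι] [DecidableEq ι] [Fintype L] [Fintype Φ] [DecidableEq Φ]
    (G : Matrix ι ι ℝ) (cd : L → ι) (f : L → Φ) {Γ : Matrix L L ℝ}
    (h : ∀ l l', Γ l l' = if f l = f l' then G (cd l) (cd l') else 0) (x : L → ℝ) :
    qq Γ x = ∑ φ, qq G fun a => ∑ l, if cd l = a ∧ f l = φ then x l else 0 := by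
  let E : Φ → Matrix ι L ℝ := fun φ => Matrix.of fun a l => if cd l = a ∧ f l = φ then 1 else 0
  have h2 : Γ = ∑ φ, (E φ)ᵀ * G * E φ := by
    ext l l'
    simp only [Matrix.sum_apply, mul_apply, E, transpose_apply, of_apply, ite_and, ite_mul,
      mul_ite, one_mul, mul_one, zero_mul, mul_zero, sum_ite_eq, mem_univ, if_true, h]
  have h3 : ∀ φ, (fun a => ∑ l, if cd l = a ∧ f l = φ then x l else 0) = E φ *ᵥ x := fun φ => by
    funext a; simp [E, mulVec, dotProduct]
  simp only [h3, ← qq_conj]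
  simp only [h2, qq, sum_mulVec, dotProduct_sum]

theorem Tw.LF.nonneg {ι Δ : Type} [Fintype ι] [DecidableEq ι] {T : Tw ι Δ} {d n : ℕ} {Λ η : ℝ}
    (h : T.LF d n Λ η) : 0 ≤ η := by
  refine (abs_nonneg _).trans (h ℕ Empty Empty
    ⟨AddMonoidHom.id ℕ, Empty.elim, Empty.elim, Empty.elim, Empty.elim, fun _ => 0, 0⟩
    ⟨fun v => v.elim, fun _ v => v.elim, fun l => l.elim, fun l => l.elim, fun l => l.elim,
      fun l => l.elim, by simp, by simp⟩ (by simp) (fun l => l.elim) 1 PosDef.one fun v => ?_)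
  simp [qq, dotProduct]

variable {C W S : Type} [Fintype W] [DecidableEq W] [Fintype S] [DecidableEq S] {T : Tow}
  {s : ℕ} {N : ℝ}

theorem ok_tw (hT : T.Ok s N) : T.tw.Ok := ⟨hT.pos, hT.low, hT.pd, fun _ _ h => h⟩

/-- vertex variables as generators, the base variable as the base point or a special vertex -/
def thb (o : Option S) : Lam ℝ W →ₐ[ℝ] Alg (CM (W ⊕ S)) :=
  aeval fun x => AddMonoidAlgebra.single
    (x.elim (o.elim CM.base fun t => CM.gen (Sum.inr t)) fun w => CM.gen (Sum.inl w)) 1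

/-- labels: nonempty faces -/
abbrev CL (T : Tow) (X : Type) (d : ℕ) : Type :=
  {x : T.ι × Finset X // x.2.Nonempty ∧ x.2.card ≤ T.lv x.1 ∧ T.lv x.1 ≤ d}

/-- the polynomials of the family over the cube monoid -/
def fR (Z : Sys T W S) (a : T.ι) : MvPolynomial T.ι (Alg (CM (W ⊕ S))) :=
  MvPolynomial.map (thb none).toRingHom (Z.fam.fn none a) +
    ∑ t, MvPolynomial.map (thb (some t)).toRingHom (Z.fam.fn (some t) a - Z.fam.fn none a)

/-- the configuration of a cube system -/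
def cc (Z : Sys T W S) (d : ℕ) : Cf T.ι Unit (CM (W ⊕ S)) (W ⊕ S) (CL T (W ⊕ S) d) where
  dg := CM.dg _
  y := CM.gen
  cl _ := ()
  cd l := l.1.1
  mo l := ⟨T.lv l.1.1, l.1.2, l.2.2.1⟩
  R a := fR Z a - MvPolynomial.map (algebraMap ℝ _) (T.q a)
  ce := 0

theorem sup_gen (o : Option S) (x : Option W) : Sup (fun m => CM.dg (W ⊕ S) m = 1)
    (AddMonoidAlgebra.single
      (x.elim (o.elim CM.base fun t => CM.gen (Sum.inr t)) fun w => CM.gen (Sum.inl w)) 1) :=
  Sup.single (P := fun m => CM.dg (W ⊕ S) m = 1) (by cases x <;> cases o <;> rfl) 1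

variable {Z : Sys T W S} {d : ℕ}

theorem ok_cc (hT : T.Ok s N) (hZ : Z.Ok) (d : ℕ) : (cc Z d).Ok T.tw := by
  refine ⟨fun _ => rfl, fun m v => ?_, fun l l' h1 h2 => ?_, fun l => ?_, fun l t h => ?_,
    fun l t m a h1 h2 => ?_, fun a j hj => ?_, fun a β => ?_⟩
  · refine ⟨m.F.val + Multiset.replicate (m.d - m.F.card) v, CM.ext ?_ ?_⟩
    · simp only [CM.add_d, Cf.ys, cc, (CM.sum_gen _).1, Multiset.card_add, card_val,
        Multiset.card_replicate, Nat.add_sub_cancel' m.h]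
    · ext x
      simp only [CM.add_F, Cf.ys, cc, (CM.sum_gen _).2, mem_union, CM.gen, mem_singleton,
        Multiset.mem_toFinset, Multiset.mem_add, mem_val, Multiset.mem_replicate]
      tauto
  · exact Subtype.ext (Prod.ext h1 (congrArg CM.F h2))
  · obtain ⟨x, hx⟩ := l.2.1
    exact ⟨_, CM.eq_sum_gen _ (Or.inl hx)⟩
  · exact (Multiset.card_map _ _).trans ((CM.sum_gen t).1.symm.trans (congrArg CM.d h).symm)
  · have h3 : Multiset.card t = T.lv a := (Multiset.card_map _ _).symm.trans h2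
    have h4 : T.lv l.1.1 = Multiset.card t + m.d :=
      (congrArg CM.d h1).trans (congrArg (· + m.d) (CM.sum_gen t).1)
    refine ⟨⟨(a, t.toFinset), Multiset.toFinset_nonempty.2 fun h5 => ?_,
      h3 ▸ Multiset.toFinset_card_le t, by have := l.2.2.2; change T.lv a ≤ d; omega⟩, rfl,
      CM.ext (h3.symm.trans (CM.sum_gen t).1.symm) (CM.sum_gen t).2.symm⟩
    have := hT.pos a
    simp [h5] at h3
    omega
  · rcases mem_union.1 (vars_sub_subset _ hj) with h | h
    · rcases mem_union.1 (vars_add_subset _ _ h) with h | h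
      · exact vars_low hT hZ _ _ _ (vars_map _ _ h)
      · obtain ⟨t, -, h⟩ := mem_biUnion.1 (vars_sum_subset _ _ h)
        rcases mem_union.1 (vars_sub_subset _ (vars_map _ _ h)) with h | h
        exacts [vars_low hT hZ _ _ _ h, vars_low hT hZ _ _ _ h]
    · exact hT.low _ _ (vars_map _ _ h)
  · have h1 : ∀ o, constantCoeff ((Z.fam.fn o a).coeff β) = (T.q a).coeff β := fun o => by
      rw [← hZ.top, ← top_eq hZ.fam o, coeff_map]
    have h2 : Sup (fun m => 0 < CM.dg (W ⊕ S) m) (((cc Z d).R a).coeff β) := by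
      simp only [cc, fR, coeff_sub, coeff_add, coeff_sum, coeff_map]
      rw [add_sub_right_comm, ← h1 none]
      refine (Sup.aeval_pos _ (sup_gen none) _).add (Sup.sum _ fun t _ => ?_)
      have := Sup.aeval_pos _ (sup_gen (some t))
        ((Z.fam.fn (some t) a).coeff β - (Z.fam.fn none a).coeff β)
      rwa [map_sub constantCoeff, h1, h1, sub_self, map_zero, sub_zero] at this
    exact h2

theorem val_cc (x : CL T (W ⊕ S) d → ℝ) (a : T.ι) :
    (cc Z d).val T.tw x a = eval ((cc Z d).pt x) (fR Z a) := by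
  rw [Cf.val_eq]
  exact congrArg _ (add_sub_cancel _ _)

theorem hom_val (hZ : Z.Ok) (x : CL T (W ⊕ S) d → ℝ) (a : T.ι) :
    Sup (fun m => CM.dg (W ⊕ S) m = T.lv a) ((cc Z d).val T.tw x a) := by
  rw [val_cc]
  refine Sup.eval_hom _ (w := T.lv) (fun b => ?_) fun β => ?_
  · refine Sup.sum _ fun l _ => ?_
    split_ifs with h
    · exact Sup.single (P := fun m => CM.dg (W ⊕ S) m = T.lv b) (congrArg T.lv h) _
    · exact Sup.zero _
  · have h1 : ∀ o o', Sup (fun m => CM.dg (W ⊕ S) m + Finsupp.weight T.lv β = T.lv a)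
        (thb o ((Z.fam.fn o' a).coeff β)) := fun o o' =>
      Sup.aeval_hom _ (sup_gen o) (P := fun n => n + Finsupp.weight T.lv β = T.lv a)
        fun μ hμ => (add_comm _ _).trans (hZ.fam.hom o' a β μ hμ)
    simp only [fR, coeff_add, coeff_sum, coeff_map, coeff_sub, map_sub]
    exact (h1 _ _).add (Sup.sum _ fun t _ => (h1 _ _).sub (h1 _ _))

/-- the point of the face `B` over the base `o` -/
def pnt (B : Finset W) (o : Option S) : Finset (W ⊕ S) := B.disjSum o.toFinset

theorem ev_thb (B : Finset W) (o o' : Option S) :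
    (CM.ev (pnt B o)).toRingHom.comp (thb o').toRingHom =
      if o' = none ∨ o' = o then evA B else (evA B).comp kt := by
  refine MvPolynomial.ringHom_ext (fun r => ?_) fun x => ?_
  · have h1 : (CM.ev (pnt B o)) (thb o' (MvPolynomial.C r : Lam ℝ W)) = r := by
      rw [thb, aeval_C, AlgHom.commutes]; rfl
    refine h1.trans ?_
    split_ifs <;> simp [evA, P057GH.kt_C]
  · have h1 : (CM.ev (pnt B o)) (thb o' (X x : Lam ℝ W)) = if (x.elim (o'.elim CM.base
        fun t => CM.gen (Sum.inr t)) fun w => CM.gen (Sum.inl w)).F ⊆ pnt B o then 1 else 0 := by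
      rw [thb, aeval_X, CM.ev_single]
    refine h1.trans ?_
    rcases x with _ | w
    · rcases o' with _ | t
      · simp [CM.base, evA]
      · by_cases h : some t = o
        · simp [CM.gen, pnt, ← h, evA]
        · simp [CM.gen, pnt, h, Ne.symm h, P057GH.kt_none]
    · split_ifs <;> simp_all [CM.gen, pnt, evA, P057GH.kt_some]

theorem ev_val (hZ : Z.Ok) (B : Finset W) (o : Option S) (x : CL T (W ⊕ S) d → ℝ) (a : T.ι) :
    CM.ev (pnt B o) ((cc Z d).val T.tw x a) =
      eval (fun b => CM.ev (pnt B o) ((cc Z d).pt x b)) (Z.fam.at' o B a) := by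
  have h1 := MvPolynomial.map_eval (CM.ev (pnt B o)).toRingHom ((cc Z d).pt x) (fR Z a)
  rw [val_cc]
  refine h1.trans (congrArg _ ?_)
  simp only [fR, map_add, map_sum, MvPolynomial.map_map, ev_thb, true_or, if_true, reduceCtorEq, false_or]
  have h2 : ∀ t, MvPolynomial.map ((evA B).comp kt) (Z.fam.fn (some t) a - Z.fam.fn none a) = 0 :=
    fun t => by
      rw [← MvPolynomial.map_map, map_sub (MvPolynomial.map kt), hZ.fam.pure, sub_self, map_zero]
  rcases o with _ | t
  · simp [h2, Fam.at']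
  · rw [sum_eq_single t (fun t' _ h => by rw [if_neg (by simpa using h), h2]) (by simp)]
    simp [Fam.at']

variable {cl : W → C} {m : ℕ}

/-- a label from its data -/
def mkL (a : T.ι) (A : Finset W) (o : Option S) (h : T.lv a < m ∧ Set.InjOn cl A ∧
    o.elim (A.card = T.lv a) fun _ => A.card < T.lv a) : Lb T cl S m := ⟨(a, A, o), h⟩

/-- the labels of the cube system as sums of labels of the configuration -/
def cS (T : Tow) (cl : W → C) (S : Type) [DecidableEq S] (m d : ℕ) :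
    Matrix (Lb T cl S m) (CL T (W ⊕ S) d) ℤ :=
  Matrix.of fun k l => if l.1.1 = k.cd ∧ l.1.2.toLeft = k.fc ∧ l.1.2.toRight ⊆ k.bs.toFinset
    then 1 else 0

theorem cS_mulVec (x : CL T (W ⊕ S) d → ℝ) (k : Lb T cl S m) : (mR (cS T cl S m d) *ᵥ x) k =
    ∑ l, if l.1.1 = k.cd ∧ l.1.2.toLeft = k.fc ∧ l.1.2.toRight ⊆ k.bs.toFinset then x l else 0 := by
  simp [mR, cS, mulVec, dotProduct]

theorem alt_ev (k : Lb T cl S m) (hk : T.lv k.cd ≤ d) {u : Alg (CM (W ⊕ S))}
    (hu : Sup (fun m => CM.dg (W ⊕ S) m = T.lv k.cd) u) :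
    ∑ B ∈ k.fc.powerset, (-1) ^ (k.fc.card - B.card) * CM.ev (pnt B k.bs) u =
      (mR (cS T cl S m d) *ᵥ fun l => u.coeff ((cc Z d).mo l)) k +
        if k.fc = ∅ then u.coeff ⟨T.lv k.cd, ∅, Nat.zero_le _⟩ else 0 := by
  classical
  rw [cS_mulVec]
  refine hu.ind (Q := fun u => ∑ B ∈ k.fc.powerset, (-1) ^ (k.fc.card - B.card) *
    CM.ev (pnt B k.bs) u = (∑ l : CL T (W ⊕ S) d, if l.1.1 = k.cd ∧ l.1.2.toLeft = k.fc ∧
      l.1.2.toRight ⊆ k.bs.toFinset then u.coeff ((cc Z d).mo l) else 0) +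
        if k.fc = ∅ then u.coeff ⟨T.lv k.cd, ∅, Nat.zero_le _⟩ else 0) (by simp)
    (fun a b ha hb => ?_) fun μ r hμ => ?_
  · simp only [map_add, mul_add, sum_add_distrib, ha, hb, AddMonoidAlgebra.coeff_add,
      Finsupp.add_apply, ite_add_zero]
    ring
  · have h1 : ∑ B ∈ k.fc.powerset, (-1) ^ (k.fc.card - B.card) *
        CM.ev (pnt B k.bs) (AddMonoidAlgebra.single μ r) =
        if μ.F.toLeft = k.fc ∧ μ.F.toRight ⊆ k.bs.toFinset then r else 0 := by
      simp only [CM.ev_single, pnt, subset_disjSum]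
      by_cases h : μ.F.toRight ⊆ k.bs.toFinset
      · have := congrArg (· * r) (sum_alt k.fc μ.F.toLeft)
        simpa [h, sum_mul] using this
      · simp [h]
    obtain ⟨e, F, hF⟩ := μ
    obtain rfl : e = T.lv k.cd := hμ
    rw [h1]
    simp only [AddMonoidAlgebra.coeff_single, Finsupp.single_apply, CM.ext_iff, true_and]
    rcases F.eq_empty_or_nonempty with rfl | h2
    · rw [sum_eq_zero fun l _ => ite_eq_right_iff.2 fun _ => if_neg fun h => l.2.1.ne_empty h.2.symm]
      have e1 : (∅ : Finset (W ⊕ S)).toLeft = ∅ := by ext; simp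
      have e2 : (∅ : Finset (W ⊕ S)).toRight = ∅ := by ext; simp
      simp only [e1, e2, empty_subset, and_true, zero_add, if_true, eq_comm]
    · rw [sum_eq_single (⟨(k.cd, F), h2, hF, hk⟩ : CL T (W ⊕ S) d) (fun l _ h3 =>
        ite_eq_right_iff.2 fun h4 => if_neg fun h5 => h3 (Subtype.ext (Prod.ext h4.1 h5.2.symm)))
        (by simp)]
      simp [cc, h2.ne_empty]

theorem pt_cS (x : CL T (W ⊕ S) d → ℝ) (o : Option S) {B : Finset W} (hB : Set.InjOn cl B)
    {b : T.ι} (hb : T.lv b < m) :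
    pt (mR (cS T cl S m d) *ᵥ x) o B b = CM.ev (pnt B o) ((cc Z d).pt
      (fun l => if o = none ∧ l.1.2.card < T.lv l.1.1 then 0 else x l) b) := by
  classical
  simp only [pt, Cf.pt, cS_mulVec, map_sum, ite_sum_zero]
  rw [sum_comm]
  refine sum_congr rfl fun l _ => ?_
  rw [apply_ite (CM.ev _), map_zero, CM.ev_single]
  have hc := l.1.2.card_toLeft_add_card_toRight
  have hl := l.2.2.1
  by_cases h : l.1.1 = b ∧ l.1.2 ⊆ pnt B o ∧ ¬ (o = none ∧ l.1.2.card < T.lv l.1.1)
  · obtain ⟨rfl, h2, h3⟩ := h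
    have h4 := subset_disjSum.1 h2
    have h5 : Set.InjOn cl l.1.2.toLeft := hB.mono h4.1
    by_cases h6 : l.1.2.toLeft.card = T.lv l.1.1
    · have h7 : l.1.2.toRight = ∅ := card_eq_zero.1 (by omega)
      rw [sum_eq_single (mkL l.1.1 l.1.2.toLeft none ⟨hb, h5, h6⟩)
        (fun k _ hk => ite_eq_right_iff.2 fun _ => if_neg fun h8 => hk ?_) (by simp)]
      · simp [cc, mkL, Lb.cd, Lb.fc, Lb.bs, h2, h3, h4.1, h7]
      · refine lb_ext h8.1.symm h8.2.1.symm ?_
        obtain ⟨⟨a, A, _ | t⟩, h9⟩ := k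
        · rfl
        · have : A.card < T.lv a := h9.2.2
          have e1 : l.1.1 = a := h8.1
          have e2 : l.1.2.toLeft = A := h8.2.1
          rw [← e1, ← e2] at this
          omega
    · obtain ⟨t, rfl⟩ : ∃ t, o = some t := by
        rcases o with _ | t
        · have h7 : l.1.2.toRight = ∅ := by simpa using h4.2
          rw [h7] at hc
          simp at h3 hc
          omega
        · exact ⟨t, rfl⟩
      rw [sum_eq_single (mkL l.1.1 l.1.2.toLeft (some t) ⟨hb, h5,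
          (by omega : l.1.2.toLeft.card < T.lv l.1.1)⟩)
        (fun k _ hk => ite_eq_right_iff.2 fun h7 => if_neg fun h8 => hk ?_) (by simp)]
      · have := h4.2
        simp_all [cc, mkL, Lb.cd, Lb.fc, Lb.bs]
      · refine lb_ext h8.1.symm h8.2.1.symm (h7.2.2.resolve_left fun h9 => h6 ?_)
        have := k.2.2.2
        rw [show k.1.2.2 = none from h9] at this
        rw [h8.1, h8.2.1]; exact this
  · rw [sum_eq_zero fun k _ => ite_eq_right_iff.2 fun h7 => if_neg fun h8 => h ?_]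
    · symm
      refine ite_eq_right_iff.2 fun h1 => ite_eq_right_iff.2 fun h2 => if_pos ?_
      by_contra h3
      exact h ⟨h1, h2, h3⟩
    · refine ⟨h8.1.trans h7.1, subset_disjSum.2 ⟨h8.2.1 ▸ h7.2.1, h8.2.2.trans ?_⟩, fun h9 => ?_⟩
      · rcases h7.2.2 with h | h <;> simp [h]
      · have := k.2.2.2
        rw [show k.1.2.2 = none from h7.2.2.elim id fun h => h.trans h9.1] at this
        have e1 : k.fc.card = T.lv k.cd := this
        rw [← h8.1, ← h8.2.1] at e1
        omega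

theorem pr_cS (hT : T.Ok s N) (hZ : Z.Ok) (x : CL T (W ⊕ S) d → ℝ) (k : Lb T cl S m)
    (hk : T.lv k.cd ≤ d) : Z.pr cl m (mR (cS T cl S m d) *ᵥ x) k =
      (mR (cS T cl S m d) *ᵥ (cc Z d).pr T.tw x) k + if k.fc = ∅ then
        ((cc Z d).val T.tw 0 k.cd).coeff ⟨T.lv k.cd, ∅, Nat.zero_le _⟩ else 0 := by
  have h1 := alt_ev (Z := Z) k hk (hom_val (d := d) hZ
    (fun l => if k.bs = none ∧ l.1.2.card < T.lv l.1.1 then 0 else x l) k.cd)
  refine Eq.trans (sum_congr rfl fun B hB => ?_) (h1.trans ?_)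
  · rw [ev_val hZ]
    exact congrArg _ (eval_low hT hZ _ _ _ fun j hj =>
      pt_cS x _ (k.2.2.1.mono (mem_powerset.1 hB)) (hj.trans k.2.1))
  · congr 1
    · rw [cS_mulVec, cS_mulVec]
      refine sum_congr rfl fun l _ => if_ctx_congr Iff.rfl (fun h => ?_) fun _ => rfl
      rw [Cf.pr, show (cc Z d).ce l = 0 from rfl, add_zero, show (cc Z d).cd l = k.cd from h.1]
      by_cases h2 : k.bs = none
      · refine (cc Z d).val_ideal T.tw (I := fun m => m.F.card < m.d) (fun a b h3 => ?_)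
          (fun l h3 => if_neg fun h4 => h3 h4.2) _ (not_lt.2 ?_)
        · exact (card_union_le _ _).trans_lt (add_lt_add_of_lt_of_le h3 b.h)
        · have := k.2.2.2
          rw [show k.1.2.2 = none from h2] at this
          have e1 : k.fc.card = T.lv k.cd := this
          rw [← h.1, ← h.2.1] at e1
          exact e1.ge.trans card_toLeft_le
      · simp only [h2, false_and, if_false]
    · refine if_ctx_congr Iff.rfl (fun _ => ?_) fun _ => rfl
      exact (cc Z d).val_ideal T.tw (I := fun m => m.F.Nonempty)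
        (fun a b h3 => h3.mono subset_union_left) (fun l h3 => (h3 l.2.1).elim) _ not_nonempty_empty

theorem qq_cS (hT : T.Ok s N) (v : CL T (W ⊕ S) d → ℝ) :
    qq (Gam T cl S m) (mR (cS T cl S m d) *ᵥ v) ≤
      (2 * Fintype.card S + 1) * qq ((cc Z d).Gam T.tw) v := by
  classical
  let vt : Finset (W ⊕ S) → T.ι → ℝ := fun F a => ∑ l, if l.1.1 = a ∧ l.1.2 = F then v l else 0
  have hG := hT.pd.posSemidef
  have h1 : qq ((cc Z d).Gam T.tw) v = ∑ F, qq T.G (vt F) := by
    refine qq_face T.G (fun l : CL T (W ⊕ S) d => l.1.1) (fun l : CL T (W ⊕ S) d => l.1.2)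
      (fun l l' => ?_) v
    rw [Cf.Gam_apply]
    by_cases h : T.lv l.1.1 = T.lv l'.1.1
    · exact if_congr (by simp [cc, h]) rfl rfl
    · rw [hT.blk _ _ h, ite_self]
      exact if_neg fun h2 => h (congrArg CM.d h2)
  have h2 : ∀ A o, qq T.G (fun a => ∑ k : Lb T cl S m, if k.cd = a ∧ (k.fc, k.bs) = (A, o) then
      (mR (cS T cl S m d) *ᵥ v) k else 0) ≤
        2 ^ o.toFinset.card * ∑ R ∈ o.toFinset.powerset, qq T.G (vt (A.disjSum R)) := fun A o => by
    let r : Finset T.ι := univ.filter fun a => T.lv a < m ∧ Set.InjOn cl A ∧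
      o.elim (A.card = T.lv a) fun _ => A.card < T.lv a
    have hr : Sat T.G r := fun i j hi hj => hT.blk _ _ fun h =>
      hj (mem_filter.2 ⟨mem_univ _, h ▸ (mem_filter.1 hi).2⟩)
    have h3 : (fun a => ∑ k : Lb T cl S m, if k.cd = a ∧ (k.fc, k.bs) = (A, o) then
        (mR (cS T cl S m d) *ᵥ v) k else 0) =
        msk (univ ∩ r) (∑ R ∈ o.toFinset.powerset, vt (A.disjSum R)) := by
      funext a
      rw [univ_inter]
      by_cases ha : a ∈ r
      · rw [msk_pos _ ha, sum_eq_single (mkL a A o (mem_filter.1 ha).2)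
          (fun k _ hk => if_neg fun h => hk (Subtype.ext (Prod.ext h.1 h.2))) (by simp),
          if_pos ⟨rfl, rfl⟩, cS_mulVec, Finset.sum_apply, sum_comm]
        refine sum_congr rfl fun l _ => ?_
        simp only [mkL, Lb.cd, Lb.fc, Lb.bs, eq_disjSum_iff, ite_and]
        by_cases h4 : l.1.1 = a <;> by_cases h5 : l.1.2.toLeft = A <;> simp [h4, h5]
      · rw [msk_neg _ ha]
        refine sum_eq_zero fun k _ => if_neg fun h => ha (mem_filter.2 ⟨mem_univ _, ?_⟩)
        obtain ⟨rfl, h⟩ := h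
        obtain ⟨rfl, rfl⟩ := Prod.mk.inj h
        exact k.2
    have h4 := qq_msk_split hT.pd.1 hr univ (∑ R ∈ o.toFinset.powerset, vt (A.disjSum R))
    rw [show msk univ _ = _ from funext fun i => msk_pos _ (mem_univ i)] at h4
    have h5 := qq_sum_le hG o.toFinset.powerset fun R => vt (A.disjSum R)
    rw [card_powerset, Nat.cast_pow, Nat.cast_ofNat] at h5
    rw [h3]
    linarith [qq_nonneg hG (msk (univ \ r) (∑ R ∈ o.toFinset.powerset, vt (A.disjSum R)))]
  have h3 : ∑ A : Finset W, ∑ o : Option S, qq T.G (vt (pnt A o)) ≤ ∑ F, qq T.G (vt F) := by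
    rw [← Fintype.sum_prod_type', ← sum_image (f := fun F => qq T.G (vt F))
      (g := fun x : Finset W × Option S => pnt x.1 x.2) fun x _ y _ h => ?_]
    · exact sum_le_sum_of_subset_of_nonneg (subset_univ _) fun _ _ _ => qq_nonneg hG _
    · obtain ⟨h4, h5⟩ := disjSum_inj.1 h
      refine Prod.ext h4 (Option.ext fun t => ?_)
      rw [← Option.mem_def, ← Option.mem_def, ← Option.mem_toFinset, h5, Option.mem_toFinset]
  rw [qq_face T.G Lb.cd (fun k => (k.fc, k.bs)) (fun l l' => by simp [Gam]), h1,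
    Fintype.sum_prod_type]
  refine le_trans ?_ (mul_le_mul_of_nonneg_left h3 (by positivity))
  rw [mul_sum]
  refine sum_le_sum fun A _ => (sum_le_sum fun o _ => h2 A o).trans ?_
  rw [Fintype.sum_option, Fintype.sum_option, mul_add, mul_sum]
  have h4 : ∀ t : S, 2 ^ (some t).toFinset.card * ∑ R ∈ (some t).toFinset.powerset,
      qq T.G (vt (A.disjSum R)) ≤ 2 * qq T.G (vt (pnt A none)) +
        (2 * Fintype.card S + 1) * qq T.G (vt (pnt A (some t))) := fun t => by
    have h5 : (1 : ℝ) ≤ Fintype.card S := by exact_mod_cast Fintype.card_pos_iff.2 ⟨t⟩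
    have h6 := qq_nonneg hG (vt (pnt A (some t)))
    rw [Option.toFinset_some, card_singleton, pow_one, ← insert_empty_eq,
      sum_powerset_insert (notMem_empty t), powerset_empty, sum_singleton, sum_singleton]
    simp only [pnt, Option.toFinset_none, Option.toFinset_some, insert_empty_eq] at h6 ⊢
    nlinarith
  refine (add_le_add_right (sum_le_sum fun t _ => h4 t) _).trans (le_of_eq ?_)
  simp only [sum_add_distrib, sum_const, card_univ, nsmul_eq_mul, Option.toFinset_none,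
    card_empty, pow_zero, powerset_empty, sum_singleton, pnt, ← mul_sum]
  ring

/-- the section -/
def cE (hT : T.Ok s N) (k : Lb T cl S m) (hd : T.lv k.cd ≤ d) : CL T (W ⊕ S) d :=
  ⟨(k.cd, pnt k.fc k.bs), by
    obtain ⟨⟨a, A, _ | t⟩, h1, h2, h3⟩ := k
    · refine ⟨card_pos.1 ?_, ?_, hd⟩ <;> simp only [pnt, card_disjSum, Lb.fc, Lb.bs, Lb.cd]
      · exact Nat.add_pos_left (h3 ▸ hT.pos a) _
      · exact le_of_eq h3
    · refine ⟨card_pos.1 ?_, ?_, hd⟩ <;> simp only [pnt, card_disjSum, Lb.fc, Lb.bs, Lb.cd]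
      · exact Nat.succ_pos _
      · exact h3⟩

theorem cS_cE (hT : T.Ok s N) (k k' : Lb T cl S m) (hd : T.lv k'.cd ≤ d) :
    cS T cl S m d k (cE hT k' hd) = if k = k' then 1 else 0 := by
  simp only [cS, cE, pnt, of_apply, toLeft_disjSum, toRight_disjSum]
  refine if_congr ⟨fun h => lb_ext h.1.symm h.2.1.symm ?_, fun h => by simp [h]⟩ rfl rfl
  obtain ⟨⟨a, A, o⟩, h1⟩ := k
  obtain ⟨⟨a', A', o'⟩, h2⟩ := k'
  obtain ⟨rfl, rfl, h3⟩ : a' = a ∧ A' = A ∧ o'.toFinset ⊆ o.toFinset := h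
  rcases o with _ | t <;> rcases o' with _ | t'
  · rfl
  · simp at h3
  · exact absurd h2.2.2 (ne_of_lt h1.2.2)
  · simpa [Lb.bs, eq_comm] using h3

/-- the counting lemma for closed families of labels, quotient form -/
theorem cub_emb (hT : T.Ok s N) (hZ : Z.Ok) {K : Type} [Fintype K] [DecidableEq K]
    {i : K → Lb T cl S m} (hi : i.Injective) (hd : ∀ k, T.lv (i k).cd ≤ d)
    {p : (K → ℤ) → K → ℝ} (hp : ∀ z k, p (z ∘ i) k = Z.pr cl m (toR z) (i k)) {n : ℕ} {Λ η : ℝ}
    (hLF : T.tw.LF d n Λ η) (hn : Fintype.card W + Fintype.card S ≤ n) (hΛ : 0 < Λ)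
    {Γ : Matrix K K ℝ}
    (hΓ : ∀ v, (2 * Fintype.card S + 2) * qq Γ (v ∘ i) ≤ Λ * qq (Gam T cl S m) v) :
    Fine Γ p η := by
  have hC := ok_cc hT hZ d
  have h0 : (0 : ℝ) < 2 * Fintype.card S + 1 := by positivity
  let c : K → ℝ := fun k => if (i k).fc = ∅ then
    ((cc Z d).val T.tw 0 (i k).cd).coeff ⟨T.lv (i k).cd, ∅, Nat.zero_le _⟩ else 0
  have h1 := ((hLF.fine hC (by simpa using hn) fun l => l.2.2.2).transfer' (hC.tri (ok_tw hT))
    ((hC.posDef (ok_tw hT)).smul hΛ) (fun k => cE hT (i k) (hd k))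
    ((cS T cl S m d).submatrix i id)
    (fun k k' => by rw [submatrix_apply, id, cS_cE, one_apply]; simp only [hi.eq_iff])
    (fun k l h => ?_) (p' := fun z => p z - c) (fun z => ?_) (Γ' := Γ)
    (θ := (2 * Fintype.card S + 2) / (2 * Fintype.card S + 1))
    (by rw [one_lt_div h0]; linarith) fun v => ?_).add c
  · simpa only [sub_add_cancel] using h1
  · have : l.1.1 = (i k).cd := by
      by_contra h2
      exact h (if_neg fun h3 => h2 h3.1)
    exact (congrArg T.lv this).le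
  · funext k
    have := hp (cS T cl S m d *ᵥ z) k
    rw [toR_mulVec, pr_cS hT hZ _ _ (hd k)] at this
    exact sub_eq_of_eq_add this
  · rw [div_mul_eq_mul_div, div_le_iff₀' h0, qq_smul_mat, mul_left_comm]
    exact (hΓ (mR (cS T cl S m d) *ᵥ v)).trans (mul_le_mul_of_nonneg_left (qq_cS hT v) hΛ.le)

/-- all labels -/
theorem cub_all (hT : T.Ok s N) (hZ : Z.Ok) (hd : m ≤ d + 1) {n : ℕ} {Λ η : ℝ}
    (hLF : T.tw.LF d n Λ η) (hn : Fintype.card W + Fintype.card S ≤ n) (hΛ : 0 < Λ) :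
    Fine ((Λ / (2 * Fintype.card S + 2)) • Gam T cl S m) (fun z => Z.pr cl m (toR z)) η :=
  cub_emb hT hZ Function.injective_id (fun k => Nat.le_of_lt_succ (k.2.1.trans_le hd))
    (fun _ _ => rfl) hLF hn hΛ fun v => by
      rw [qq_smul_mat, ← mul_assoc, mul_div_cancel₀ _ (by positivity)]; rfl

theorem pq_rs (hT : T.Ok s N) (hZ : Z.Ok) {Q : Lb T cl S m → Prop} [Fintype {l // Q l}]
    (hQ : Clo Q) (z : Lb T cl S m → ℤ) (k : {l // Q l}) :
    Z.pq cl m Q 0 (z ∘ Subtype.val) k = Z.pr cl m (toR z) k :=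
  (add_zero _).trans (pr_congr hT hZ fun l' h1 h2 h3 => dif_pos (hQ _ l' k.2 h1 h2 h3))

/-- closed sets of labels, quotient form -/
theorem cub_fine (hT : T.Ok s N) (hZ : Z.Ok) {Q : Lb T cl S m → Prop} [Fintype {l // Q l}]
    (hQ : Clo Q) (hd : ∀ l, Q l → T.lv l.cd ≤ d) {n : ℕ} {Λ η : ℝ} (hLF : T.tw.LF d n Λ η)
    (hn : Fintype.card W + Fintype.card S ≤ n) (hΛ : 0 < Λ) {Γ : Matrix {l // Q l} {l // Q l} ℝ}
    (hΓ : ∀ v, (2 * Fintype.card S + 2) * qq Γ (rs Q v) ≤ Λ * qq (Gam T cl S m) v) :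
    Fine Γ (Z.pq cl m Q 0) η :=
  cub_emb hT hZ Subtype.val_injective (fun k => hd _ k.2) (pq_rs hT hZ hQ) hLF hn hΛ hΓ

theorem cub : CUB := by
  intro T s N C W S _ _ _ cl m Z Q c d n Λ η A hT hZ hQ hs hd hLF hn hA hle
  classical
  rcases isEmpty_or_nonempty {l // Q l} with h | ⟨⟨l⟩⟩
  · simpa [ms_empty] using hLF.nonneg
  have hG := pd_Gam hT.pd cl S m
  have hs1 : (2 : ℝ) ≤ (s + 1) ^ s := by
    have h1 : 1 ≤ s := (hT.pos l.1.cd).trans_le (hT.le _)
    have h2 : (1 : ℝ) ≤ s := by exact_mod_cast h1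
    exact le_trans (by linarith) (le_self_pow₀ (by linarith) (by omega))
  have hp : (0 : ℝ) < (n + 1) * (s + 1) ^ s := by positivity
  have hΛ : 0 < Λ := by
    have h1 : 0 < qq A fun _ => 1 := hA.dotProduct_mulVec_pos fun h => one_ne_zero (congrFun h l)
    have h2 := pos_of_mul_pos_left (h1.trans_le (hle _)) (qq_nonneg (posDef_bk hG Q).posSemidef _)
    exact (div_pos_iff_of_pos_right hp).1 h2
  have hn' : (Fintype.card S : ℝ) ≤ n := by exact_mod_cast (by omega)
  have h1 := cub_fine hT hZ hQ hd hLF hn hΛ (Γ := A) (fun v => ?_) A c hA fun _ => le_rfl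
  · rwa [show (fun z => Z.pq cl m Q 0 z + c) = Z.pq cl m Q c from
      funext fun z => funext fun l => by simp [Sys.pq]] at h1
  · have h2 := qq_split hG.1 (P := Q) (fun i j hi hj => by
      simp only [Gam, of_apply, ite_eq_right_iff]
      exact fun h => hT.blk _ _ fun h3 => hj (hs i j hi h.1.symm h.2.symm h3.symm)) v
    have h3 := qq_nonneg (posDef_bk hG Q).posSemidef (rs Q v)
    have h4 := qq_nonneg (posDef_bk hG fun l => ¬ Q l).posSemidef (rs _ v)
    refine (mul_le_mul_of_nonneg_left (hle _) (by positivity)).trans ?_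
    rw [← mul_assoc, h2]
    refine mul_le_mul ?_ (le_add_of_nonneg_right h4) h3 hΛ.le
    rw [← mul_div_assoc, div_le_iff₀ hp, mul_comm]
    exact mul_le_mul_of_nonneg_left (by nlinarith) hΛ.le

end

end Vale.Agent.P057PC
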