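import Vale.Agent.P057PC.Chain
import Vale.Agent.P057ST.Cmp

/-!
Transfer of weighted sums along integer maps with a section: the labels outside the section get a
very large width and are deleted.
-/

set_option linter.unusedSectionVars false

open Matrix Finset Real
open Vale.Agent.P267.H775 Vale.Agent.P057G Vale.Agent.P057ST

namespace Vale.Agent.P057PC

noncomputable section

theorem ms_const {L : Type*} [Fintype L] [DecidableEq L] {G : Matrix L L ℝ} (hG : G.PosDef)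
    (c : L → ℝ) : |ms G (fun _ => c) - 1| ≤ th G⁻¹ 0 - 1 := by
  have h1 := abs_th_sub_vol hG c
  have h2 := vol_pos hG
  have h3 : ms G (fun _ => c) = th G c / vol G := by
    unfold ms ng; rw [tsum_div_const]; rfl
  rw [h3, div_sub_one h2.ne', abs_div, abs_of_pos h2, div_le_iff₀' h2]
  exact h1

/-- very wide triangular systems have mass close to one, uniformly -/
theorem exists_fine_tri (n : ℕ) : ∀ (L : Type) [Fintype L] [DecidableEq L] (lv : L → ℕ),
    (∀ l, lv l < n) → ∀ ε : ℝ, 0 < ε → ∃ δ0 : ℝ, 0 < δ0 ∧ ∀ δ, 0 < δ → δ ≤ δ0 →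
      ∀ p, Tri lv p → |ms (δ • (1 : Matrix L L ℝ)) p - 1| ≤ ε := by
  induction n with
  | zero =>
    intro L _ _ lv h ε hε
    have : IsEmpty L := ⟨fun l => Nat.not_lt_zero _ (h l)⟩
    exact ⟨1, one_pos, fun δ _ _ p _ => by simp [ms_empty, hε.le]⟩
  | succ n ih =>
    intro L _ _ lv h ε hε
    have he : 0 < min (ε / 3) 1 := by positivity
    obtain ⟨δ1, h1, h2⟩ := ih {l // ¬ lv l = n} (fun l => lv l)
      (fun l => lt_of_le_of_ne (Nat.le_of_lt_succ (h l)) l.2) _ he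
    obtain ⟨δ2, h3, h4⟩ := exists_fine {l // lv l = n} he
    refine ⟨min δ1 δ2, lt_min h1 h3, fun δ h0 hδ p hp => ?_⟩
    have hG : (δ • (1 : Matrix L L ℝ)).PosDef := PosDef.one.smul h0
    have hb : ∀ P : L → Prop, bk (δ • (1 : Matrix L L ℝ)) P = δ • 1 := fun P => by
      ext i j; simp [bk, one_apply, Subtype.ext_iff]
    have hs : Spl (fun l => lv l = n) p fun y => rs _ (p (glue (fun l => lv l = n) 0 y)) :=
      fun z l => hp l _ _ fun j hj => by
        rw [glue_neg (X := fun _ => ℤ) _ _ (by have := h l; omega)]; rfl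
    have h5 := Ex_del hp hG (fun i j hi hj => by
        rw [Matrix.smul_apply, one_apply_ne (fun h : i = j => hj (h ▸ hi)), smul_zero]) hs
      (ε := min (ε / 3) 1) (f := fun _ => 1) (C := 1) (fun y => ?_) (by simp)
    · have h6 := h2 δ h0 (hδ.trans (min_le_left _ _)) _ (hs.tri hp)
      rw [Ex_one, Ex_one, ← Complex.ofReal_sub, Complex.norm_real, Real.norm_eq_abs, hb] at h5
      refine (abs_sub_le _ _ _).trans ((add_le_add h5 h6).trans ?_)
      have h7 := (abs_le.1 h6).2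
      have h8 := min_le_left (ε / 3) 1
      have h9 := min_le_right (ε / 3) 1
      nlinarith
    · have : pf (fun l => lv l = n) p y = fun _ => pf (fun l => lv l = n) p y 0 := by
        funext x l
        exact tri_pf hp _ y l _ _ fun j hj => by
          exact absurd (j.2.trans l.2.symm) hj.ne
      rw [this, hb]
      exact (ms_const (PosDef.one.smul h0) _).trans
        (by linarith [h4 δ h0 (hδ.trans (min_le_right _ _))])

variable {L K : Type} [Fintype L] [DecidableEq L] [Fintype K] [DecidableEq K]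

theorem exists_one_le {G : Matrix L L ℝ} (hG : G.PosDef) :
    ∃ c : ℝ, 0 < c ∧ ∀ v, c * qq 1 v ≤ qq G v := by
  have h0 : 0 ≤ ∑ i, qq G⁻¹ (Pi.single i 1) := sum_nonneg fun i _ => qq_nonneg hG.inv.posSemidef _
  refine ⟨(1 + ∑ i, qq G⁻¹ (Pi.single i 1))⁻¹, by positivity, fun v => ?_⟩
  rw [inv_mul_le_iff₀ (by positivity), add_mul, sum_mul, qq, one_mulVec]
  refine le_add_of_nonneg_of_le (by rw [one_mul]; exact qq_nonneg hG.posSemidef v)
    (sum_le_sum fun i _ => ?_)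
  have := dot_sq_le hG v (Pi.single i 1)
  rw [dotProduct_single, mul_one] at this
  nlinarith

theorem Ex_transfer_aux {lv : L → ℕ} {p : (L → ℤ) → L → ℝ} (hp : Tri lv p) {Γ : Matrix L L ℝ}
    (hΓ : Γ.PosDef) (P : L → Prop) [DecidablePred P] (S : Matrix {l // ¬ P l} L ℤ)
    (hS : ∀ k k' : {l // ¬ P l}, S k k' = (1 : Matrix _ _ ℤ) k k')
    (hlv : ∀ k l, S k l ≠ 0 → lv l ≤ lv k) {p' : ({l // ¬ P l} → ℤ) → {l // ¬ P l} → ℝ}
    (hp' : ∀ z, p' (S *ᵥ z) = mR S *ᵥ p z) {A : Matrix {l // ¬ P l} {l // ¬ P l} ℝ} (hA : A.PosDef)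
    {θ : ℝ} (hθ : 1 < θ) (hAΓ : ∀ v, θ * qq A (mR S *ᵥ v) ≤ qq Γ v)
    {f : ({l // ¬ P l} → ℤ) → ℂ} {C : ℝ}
    (hf : ∀ y, ‖f y‖ ≤ C) {a : ℂ} {η : ℝ}
    (H : ∀ B : Matrix L L ℝ, B.PosDef → (∀ v, qq B v ≤ qq Γ v) →
      ‖Ex B p (fun z => f (S *ᵥ z)) - a‖ ≤ η) : ‖Ex A p' f - a‖ ≤ η := by
  let N : Matrix L L ℤ := Matrix.of fun l l' => if h : ¬ P l then if P l' then S ⟨l, h⟩ l' else 0
    else 0
  have hN : N * N = 0 := by
    ext i j
    refine sum_eq_zero fun k _ => ?_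
    by_cases hk : P k <;> simp [N, hk]
  have hU : (1 + N) * (1 - N) = 1 := by
    rw [add_mul, mul_sub, mul_sub, hN]; simp
  have hU' : (1 - N) * (1 + N) = 1 := mul_eq_one_comm.1 hU
  have h1 : ∀ (k : {l // ¬ P l}) l, (1 + N) k l = S k l := fun k l => by
    by_cases hl : P l
    · rw [Matrix.add_apply, one_apply_ne fun h : k.1 = l => k.2 (h ▸ hl)]; simp [N, k.2, hl]
    · rw [Matrix.add_apply, hS k ⟨l, hl⟩]; simp [N, hl, one_apply, Subtype.ext_iff]
  have h2 : ∀ z : L → ℤ, rs (fun l => ¬ P l) ((1 + N) *ᵥ z) = S *ᵥ z := fun z => by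
    funext k; simp only [rs, mulVec, dotProduct, h1]
  have h3 : ∀ z : L → ℝ, rs (fun l => ¬ P l) (mR (1 + N) *ᵥ z) = mR S *ᵥ z := fun z => by
    funext k; simp only [rs, mulVec, dotProduct, mR, map_apply, h1]
  have h4 : ∀ z : L → ℝ, rs P (mR (1 + N) *ᵥ z) = rs P z := fun z => by
    funext k; simp [rs, mulVec, dotProduct, mR, N, k.2, one_apply]
  have hNl : ∀ i j, N i j ≠ 0 → lv j ≤ lv i := fun i j h => by
    by_cases hi : P i
    · simp [N, hi] at h
    · exact hlv ⟨i, hi⟩ j fun h5 => h (by simp [N, hi, h5])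
  let q : (L → ℤ) → L → ℝ := fun w => mR (1 + N) *ᵥ p ((1 - N) *ᵥ w)
  have hq : Tri lv q := fun i w w' h => by
    refine sum_congr rfl fun j _ => ?_
    by_cases h5 : (1 + N) i j = 0
    · simp [mR, h5]
    · have h6 : lv j ≤ lv i := by
        by_cases h7 : i = j
        · rw [h7]
        · exact hNl i j (by rwa [Matrix.add_apply, one_apply_ne h7, zero_add] at h5)
      congr 1
      refine hp j _ _ fun k hk => ?_
      rw [sub_mulVec, sub_mulVec, one_mulVec, one_mulVec, Pi.sub_apply, Pi.sub_apply,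
        h k (by omega)]
      congr 1
      refine sum_congr rfl fun k' _ => ?_
      by_cases h8 : N k k' = 0
      · simp [h8]
      · rw [h k' (by have := hNl k k' h8; omega)]
  have hs : Spl P q p' := fun w l => by
    have h5 := congrFun (hp' ((1 - N) *ᵥ w)) l
    rw [← h2, ← h3, mulVec_mulVec, hU, one_mulVec] at h5
    exact h5.symm
  have hC : 0 ≤ C := (norm_nonneg _).trans (hf 0)
  have hm := ms_nonneg A p'
  refine le_of_forall_pos_le_add fun ε hε => ?_
  obtain ⟨c, hc, hc1⟩ := exists_one_le hΓ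
  obtain ⟨δ0, h0, hδ⟩ := exists_fine_tri (univ.sup lv + 1) {l // P l} (fun l => lv l)
    (fun l => Nat.lt_succ_of_le (le_sup (f := lv) (mem_univ _))) (ε / (C * ms A p' + 1))
    (by positivity)
  set δ := min δ0 (c * ((θ - 1) / θ))
  have hθ0 : 0 < θ := by linarith
  have hθ1 : 0 < (θ - 1) / θ := div_pos (by linarith) hθ0
  have hδ0 : 0 < δ := by positivity
  let B : Matrix L L ℝ := Matrix.of fun l l' =>
    if h : ¬ P l ∧ ¬ P l' then A ⟨l, h.1⟩ ⟨l', h.2⟩ else if l = l' then δ else 0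
  have b1 : bk B (fun l => ¬ P l) = A := by
    ext i j; simp [bk, B, i.2, j.2]
  have b2 : bk B P = δ • 1 := by
    ext i j; simp [bk, B, i.2, one_apply, Subtype.ext_iff]
  have b3 : Ort B P := fun i j hi hj => by
    have : i ≠ j := fun h => hj (h ▸ hi)
    simp [B, hi, this]
  have b4 : B.IsHermitian := by
    ext i j
    by_cases h : ¬ P i ∧ ¬ P j
    · have := hA.1.apply ⟨i, h.1⟩ ⟨j, h.2⟩
      simpa [B, h.1, h.2] using this
    · simp only [B, conjTranspose_apply, of_apply, star_trivial, dif_neg h,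
        dif_neg fun h' : ¬ P j ∧ ¬ P i => h h'.symm, eq_comm]
  have b5 : ∀ v, qq B v = δ * qq 1 (rs P v) + qq A (rs _ v) := fun v => by
    rw [qq_split b4 b3, b1, b2, qq_smul_mat]
  have b6 : B.PosDef := PosDef.of_dotProduct_mulVec_pos b4 fun v hv => by
    change 0 < qq B v
    rw [b5]
    have a1 := qq_nonneg (PosDef.one (n := {l // P l}) (R := ℝ)).posSemidef (rs P v)
    by_cases h5 : rs P v = 0
    · refine add_pos_of_nonneg_of_pos (by positivity) (hA.dotProduct_mulVec_pos fun h6 => hv ?_)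
      funext l
      by_cases hl : P l
      exacts [congrFun h5 ⟨l, hl⟩, congrFun h6 ⟨l, hl⟩]
    · exact add_pos_of_pos_of_nonneg (mul_pos hδ0 (PosDef.one.dotProduct_mulVec_pos h5))
        (qq_nonneg hA.posSemidef _)
  have e1 := Ex_unimod hU B (p := p) (p' := q)
    (fun z => by simp only [q, mulVec_mulVec, hU', one_mulVec]) fun w => f (rs _ w)
  have e2 := H _ (posDef_conj b6 (mR (1 + N)) fun v w h => by
      have := congrArg (mR (1 - N) *ᵥ ·) h
      simpa only [mulVec_mulVec, ← mR_mul, hU', mR_one, one_mulVec] using this)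
    fun v => by
      rw [qq_conj, b5, h3, h4]
      have a1 := hAΓ v
      have a2 := hc1 v
      have a3 : qq 1 (rs P v) ≤ qq 1 v := by
        rw [qq_split isHermitian_one (P := P) fun i j hi hj => one_apply_ne fun h => hj (h ▸ hi)]
        refine le_add_of_le_of_nonneg (le_of_eq ?_) (qq_nonneg (posDef_bk PosDef.one _).posSemidef _)
        congr 1
        ext i j; simp [bk, one_apply, Subtype.ext_iff]
      have a4 := qq_nonneg (PosDef.one (n := {l // P l}) (R := ℝ)).posSemidef (rs P v)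
      have a5 : δ ≤ c * ((θ - 1) / θ) := min_le_right _ _
      have a6 : δ * qq 1 (rs P v) ≤ (θ - 1) / θ * qq Γ v :=
        (mul_le_mul a5 a3 a4 (by positivity)).trans
          (by rw [mul_comm c, mul_assoc]; exact mul_le_mul_of_nonneg_left a2 hθ1.le)
      rw [← le_div_iff₀' hθ0] at a1
      refine (add_le_add a6 a1).trans (le_of_eq ?_)
      field_simp
      ring
  have e3 := Ex_del hq b6 b3 hs (fun y => by
    rw [b2]; exact hδ δ hδ0 (min_le_left _ _) _ (tri_pf hq P y)) hf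
  simp only [h2] at e1
  rw [e1] at e2
  rw [b1] at e3
  refine (norm_sub_le_norm_sub_add_norm_sub _ (Ex B q fun z => f (rs _ z)) _).trans ?_
  rw [norm_sub_rev, add_comm]
  refine add_le_add e2 (e3.trans ?_)
  rw [mul_assoc, div_mul_eq_mul_div, div_le_iff₀ (by positivity)]
  nlinarith

/-- transfer along an integer map `S` with a section `e` -/
theorem Ex_transfer' {lv : L → ℕ} {p : (L → ℤ) → L → ℝ} (hp : Tri lv p) {Γ : Matrix L L ℝ}
    (hΓ : Γ.PosDef) (e : K → L) (S : Matrix K L ℤ)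
    (hS : ∀ k k', S k (e k') = (1 : Matrix K K ℤ) k k')
    (hlv : ∀ k l, S k l ≠ 0 → lv l ≤ lv (e k)) {p' : (K → ℤ) → K → ℝ}
    (hp' : ∀ z, p' (S *ᵥ z) = mR S *ᵥ p z) {A : Matrix K K ℝ} (hA : A.PosDef) {θ : ℝ} (hθ : 1 < θ)
    (hAΓ : ∀ v, θ * qq A (mR S *ᵥ v) ≤ qq Γ v) {f : (K → ℤ) → ℂ} {C : ℝ}
    (hf : ∀ y, ‖f y‖ ≤ C) {a : ℂ} {η : ℝ}
    (H : ∀ B : Matrix L L ℝ, B.PosDef → (∀ v, qq B v ≤ qq Γ v) →
      ‖Ex B p (fun z => f (S *ᵥ z)) - a‖ ≤ η) : ‖Ex A p' f - a‖ ≤ η := by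
  classical
  have he : Function.Injective e := fun k k' h => by
    by_contra h1
    have := hS k k'
    rw [← h, hS, one_apply_eq, one_apply_ne h1] at this
    exact one_ne_zero this
  let E : K ≃ {l // ¬ ¬ l ∈ Set.range e} :=
    (Equiv.ofInjective e he).trans (Equiv.subtypeEquivRight fun _ => not_not.symm)
  have hE : ∀ k, e (E.symm k) = k := fun k => congrArg Subtype.val (E.apply_symm_apply k)
  have h1 := Ex_transfer_aux hp hΓ (fun l => ¬ l ∈ Set.range e) (S.submatrix E.symm id)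
    (fun k k' => by
      rw [submatrix_apply, id, ← hE k', hS]; simp [one_apply])
    (fun k l h => hE k ▸ hlv _ _ h) (p' := fun y k => p' (y ∘ E) (E.symm k))
    (fun z => by
      funext k
      have : (S.submatrix E.symm id *ᵥ z) ∘ E = S *ᵥ z := by
        funext k; simp [mulVec]
      rw [this, hp']; rfl)
    (hA.submatrix E.symm.injective) hθ (fun v => by
      have := qq_submatrix A E.symm (mR S *ᵥ v)
      exact le_trans (le_of_eq (congrArg (θ * ·) this)) (hAΓ v))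
    (f := fun y => f (y ∘ E)) (fun y => hf _) (a := a) (η := η) fun B hB hle => by
      have : ∀ z, (S.submatrix E.symm id *ᵥ z) ∘ E = S *ᵥ z := fun z => by
        funext k; simp [mulVec]
      simp only [this]
      exact H B hB hle
  rwa [Ex_equiv E.symm (G := A) (G' := A.submatrix E.symm E.symm) (p := p') (f := f)
    (p' := fun y k => p' (y ∘ E) (E.symm k)) (f' := fun y => f (y ∘ E)) (fun _ _ => rfl)
    (fun z i => by simp [Function.comp_assoc]) fun z => by simp [Function.comp_assoc]] at h1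

theorem Ex_transfer {lv : L → ℕ} {p : (L → ℤ) → L → ℝ} (hp : Tri lv p) {Γ : Matrix L L ℝ}
    (hΓ : Γ.PosDef) (e : K → L) (S : Matrix K L ℤ)
    (hS : ∀ k k', S k (e k') = (1 : Matrix K K ℤ) k k')
    (hlv : ∀ k l, S k l ≠ 0 → lv l ≤ lv (e k)) {p' : (K → ℤ) → K → ℝ}
    (hp' : ∀ z, p' (S *ᵥ z) = mR S *ᵥ p z) {A : Matrix K K ℝ} (hA : A.PosDef)
    (hAΓ : ∀ v, 2 * qq A (mR S *ᵥ v) ≤ qq Γ v) {f : (K → ℤ) → ℂ} {C : ℝ}
    (hf : ∀ y, ‖f y‖ ≤ C) {a : ℂ} {η : ℝ}
    (H : ∀ B : Matrix L L ℝ, B.PosDef → (∀ v, qq B v ≤ qq Γ v) →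
      ‖Ex B p (fun z => f (S *ᵥ z)) - a‖ ≤ η) : ‖Ex A p' f - a‖ ≤ η :=
  Ex_transfer' hp hΓ e S hS hlv hp' hA one_lt_two hAΓ hf H

theorem ms_transfer {lv : L → ℕ} {p : (L → ℤ) → L → ℝ} (hp : Tri lv p) {Γ : Matrix L L ℝ}
    (hΓ : Γ.PosDef) (e : K → L) (S : Matrix K L ℤ)
    (hS : ∀ k k', S k (e k') = (1 : Matrix K K ℤ) k k')
    (hlv : ∀ k l, S k l ≠ 0 → lv l ≤ lv (e k)) {p' : (K → ℤ) → K → ℝ}
    (hp' : ∀ z, p' (S *ᵥ z) = mR S *ᵥ p z) {A : Matrix K K ℝ} (hA : A.PosDef) {θ : ℝ} (hθ : 1 < θ)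
    (hAΓ : ∀ v, θ * qq A (mR S *ᵥ v) ≤ qq Γ v) {η : ℝ}
    (H : ∀ B : Matrix L L ℝ, B.PosDef → (∀ v, qq B v ≤ qq Γ v) → |ms B p - 1| ≤ η) :
    |ms A p' - 1| ≤ η := by
  have := Ex_transfer' hp hΓ e S hS hlv hp' hA hθ hAΓ (f := fun _ => 1) (C := 1) (by simp) (a := 1)
    (η := η) fun B hB hle => by
      rw [Ex_one, ← Complex.ofReal_one, ← Complex.ofReal_sub, Complex.norm_real]
      exact H B hB hle
  rwa [Ex_one, ← Complex.ofReal_one, ← Complex.ofReal_sub, Complex.norm_real] at this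

end

end Vale.Agent.P057PC
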