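import Vale.Agent.P057PC.Split
import Mathlib.Analysis.Normed.Group.Tannery

/-!
Poisson summation in a top block; dual theta values of block matrices; labels of infinite width.
-/

open Matrix Finset Filter
open scoped Real Topology
open Vale.Agent.P267.H775 Vale.Agent.P057G

namespace Vale.Agent.P057PC

noncomputable section

variable {L : Type*} [Fintype L] [DecidableEq L]
  {lv : L → ℕ} {p : (L → ℤ) → L → ℝ} {G : Matrix L L ℝ} {P : L → Prop} [DecidablePred P]
  {pb : ({l // ¬ P l} → ℤ) → {l // ¬ P l} → ℝ} {pt : ({l // ¬ P l} → ℤ) → {l // P l} → ℝ}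

/-- Poisson summation in a block on which nothing depends -/
theorem hasSum_top (hp : Tri lv p) (hG : G.PosDef) (ho : Ort G P) (hs : Spl P p pb)
    (ht : ∀ z (l : {l // P l}), p z l = pt (rs _ z) l) {f : ({l // ¬ P l} → ℤ) → ℂ} {C : ℝ}
    (hf : ∀ y, ‖f y‖ ≤ C) :
    HasSum (fun k : {l // P l} → ℤ => (gs (bk G P)⁻¹ (toR k) : ℂ) *
        Ex (bk G fun l => ¬ P l) pb fun y => f y * ee (toR k ⬝ᵥ pt y))
      (Ex G p fun z => f (rs _ z)) := by
  have hB := posDef_bk hG P
  have hv : (vol (bk G P) : ℂ) ≠ 0 := by exact_mod_cast (vol_pos hB).ne'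
  have h1 := (hasSum_fib (summable_ng (hs.tri hp) (posDef_bk hG fun l => ¬ P l))
    (fun _ => ng_nonneg _ _) hf hB pt).mul_left (vol (bk G P) : ℂ)⁻¹
  have e1 : Fx G P p (fun z => f (rs _ z)) =
      fun y => (vol (bk G P) : ℂ)⁻¹ * (f y * th (bk G P) (pt y)) := by
    funext y
    have h2 := Fx_base (p := p) G (fun _ => 1) f y
    simp only [one_mul] at h2
    rw [h2, Fx_one, ms]
    have h3 : pf P p y = fun _ => pt y := by
      funext x l
      rw [pf, ht, rs_glue_neg]
    simp only [h3, ng, tsum_div_const, th]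
    push_cast
    field_simp
  rw [Ex_split hp hG ho hs fun z => hf _, e1, Ex_mul_const]
  refine h1.congr_fun fun k => ?_
  rw [← mul_assoc]
  congr 1
  push_cast
  field_simp

/-- removing a top block costs the biases of the short frequencies and a tail -/
theorem top_le (hp : Tri lv p) (hG : G.PosDef) (ho : Ort G P) (hs : Spl P p pb)
    (ht : ∀ z (l : {l // P l}), p z l = pt (rs _ z) l) {f : ({l // ¬ P l} → ℤ) → ℂ} {C : ℝ}
    (hf : ∀ y, ‖f y‖ ≤ C) {H β Θ : ℝ} (hβ : 0 ≤ β)
    (hΘ : ms ((2 : ℝ) • bk G P) (fun _ => 0) ≤ Θ)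
    (hk : ∀ k : {l // P l} → ℤ, k ≠ 0 → qq (bk G P)⁻¹ (toR k) ≤ H →
      ‖Ex (bk G fun l => ¬ P l) pb fun y => f y * ee (toR k ⬝ᵥ pt y)‖ ≤ β) :
    ‖Ex G p (fun z => f (rs _ z)) - Ex (bk G fun l => ¬ P l) pb f‖ ≤
      Θ * (β + C * ms (bk G fun l => ¬ P l) pb * Real.exp (-(π * H / 2))) := by
  have hB := posDef_bk hG P
  have h2B : ((2 : ℝ) • bk G P).PosDef := hB.smul two_pos
  have hC : 0 ≤ C := (norm_nonneg _).trans (hf 0)
  have h1 := (hasSum_top hp hG ho hs ht hf).sub
    (hasSum_ite_eq (0 : {l // P l} → ℤ) (Ex (bk G fun l => ¬ P l) pb f))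
  set γ := β + C * ms (bk G fun l => ¬ P l) pb * Real.exp (-(π * H / 2))
  have hm := mul_nonneg hC (ms_nonneg (bk G fun l => ¬ P l) pb)
  have hγ : 0 ≤ γ := add_nonneg hβ (mul_nonneg hm (Real.exp_pos _).le)
  have h2 := (hasSum_th h2B.inv 0).mul_right γ
  rw [ms_zero h2B] at hΘ
  refine (h1.norm_le_of_bounded h2 fun k => ?_).trans (mul_le_mul_of_nonneg_right hΘ hγ)
  have hq : qq ((2 : ℝ) • bk G P)⁻¹ (toR k) = qq (bk G P)⁻¹ (toR k) / 2 := by
    rw [inv_smul_mat two_ne_zero hB, qq_smul_mat]; ring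
  have hq0 := qq_nonneg hB.inv.posSemidef (toR k)
  split_ifs with h0
  · subst h0
    simp only [toR_zero, gs_zero, zero_dotProduct, ee_zero, mul_one, Complex.ofReal_one, one_mul,
      sub_self, norm_zero]
    exact hγ
  rw [sub_zero, sub_zero, norm_mul, Complex.norm_real, Real.norm_of_nonneg (gs_pos _ _).le]
  by_cases hH : qq (bk G P)⁻¹ (toR k) ≤ H
  · refine mul_le_mul (gs_mono (by rw [hq]; linarith)) ((hk k h0 hH).trans ?_) (norm_nonneg _)
      (gs_pos _ _).le
    exact le_add_of_nonneg_right (mul_nonneg hm (Real.exp_pos _).le)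
  · have h3 : ‖Ex (bk G fun l => ¬ P l) pb fun y => f y * ee (toR k ⬝ᵥ pt y)‖ ≤
        C * ms (bk G fun l => ¬ P l) pb :=
      norm_Ex_le (hs.tri hp) (posDef_bk hG _) fun y => by rw [norm_mul, norm_ee, mul_one]; exact hf y
    have h4 : gs (bk G P)⁻¹ (toR k) ≤
        gs ((2 : ℝ) • bk G P)⁻¹ (toR k) * Real.exp (-(π * H / 2)) := by
      unfold gs
      rw [← Real.exp_add, hq]
      refine Real.exp_le_exp.2 ?_
      have := Real.pi_pos
      nlinarith
    refine (mul_le_mul h4 h3 (norm_nonneg _) (mul_pos (gs_pos _ _) (Real.exp_pos _)).le).trans ?_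
    rw [mul_assoc]
    refine mul_le_mul_of_nonneg_left ?_ (gs_pos _ _).le
    rw [mul_comm]
    exact le_add_of_nonneg_left hβ

theorem ms_zero_split (hG : G.PosDef) (ho : Ort G P) :
    ms G (fun _ => 0) = ms (bk G P) (fun _ => 0) * ms (bk G fun l => ¬ P l) (fun _ => 0) := by
  have h := Ex_split (lv := fun _ => 0) (p := fun _ => 0) (pb := fun _ => 0)
    (fun _ _ _ _ => rfl) hG ho (fun _ _ => rfl) (f := fun _ => 1) (C := 1) (by simp)
  have h2 : Fx G P (fun _ => 0) (fun _ => 1) = fun _ => (ms (bk G P) (fun _ => 0) : ℂ) * 1 := by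
    funext y; rw [Fx_one, mul_one]; rfl
  rw [h2, Ex_mul_const, Ex_one, Ex_one] at h
  exact_mod_cast h

/-- the dual theta value of a block diagonal matrix -/
theorem ms_zero_le {M : Type*} [DecidableEq M] (S : Finset M) {B : ℝ} :
    ∀ (L : Type) [Fintype L] [DecidableEq L] (mo : L → M) (G : Matrix L L ℝ), G.PosDef →
      (∀ l l', mo l ≠ mo l' → G l l' = 0) → (∀ l, mo l ∈ S) →
      (∀ m ∈ S, ms (bk G fun l => mo l = m) (fun _ => 0) ≤ B) → ms G (fun _ => 0) ≤ B ^ S.card := by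
  induction S using Finset.induction_on with
  | empty =>
    intro L _ _ mo G _ _ hS _
    have : IsEmpty L := ⟨fun l => notMem_empty _ (hS l)⟩
    rw [ms_empty, card_empty, pow_zero]
  | insert m0 S hm0 ih =>
    intro L _ _ mo G hG ho hS hB
    rw [ms_zero_split (P := fun l => mo l = m0) hG fun i j hi hj =>
      ho i j (by rw [hi]; exact fun h => hj h.symm), card_insert_of_notMem hm0, pow_succ']
    have h0 := hB m0 (mem_insert_self _ _)
    refine mul_le_mul h0 ?_ (ms_nonneg _ _) ((ms_nonneg _ _).trans h0)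
    refine ih _ (fun l => mo l.1) _ (posDef_bk hG _) (fun l l' h => ho _ _ h)
      (fun l => (mem_insert.1 (hS l)).resolve_left l.2) fun m hm => ?_
    refine le_trans (le_of_eq ?_) (hB m (mem_insert_of_mem hm))
    exact ms_equiv (Equiv.subtypeSubtypeEquivSubtype (p := fun l => ¬ mo l = m0)
      (q := fun l => mo l = m) fun {x} hx h => hm0 (by rw [← h, hx]; exact hm))
      (fun _ _ => rfl) fun _ _ => rfl

theorem exists_fine (K : Type*) [Fintype K] [DecidableEq K] {ε : ℝ} (hε : 0 < ε) :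
    ∃ δ0 : ℝ, 0 < δ0 ∧ ∀ δ, 0 < δ → δ ≤ δ0 → th (δ • (1 : Matrix K K ℝ))⁻¹ 0 ≤ 1 + ε := by
  have h1 : (1 : Matrix K K ℝ).PosDef := PosDef.one
  have hs := summable_gs h1 0
  have ht : Tendsto (fun n : ℕ => ∑' k : K → ℤ, gs (((n : ℝ) + 1) • (1 : Matrix K K ℝ)) (toR k - 0))
      atTop (𝓝 (∑' k : K → ℤ, if k = 0 then (1 : ℝ) else 0)) := by
    refine tendsto_tsum_of_dominated_convergence hs (fun k => ?_) (Eventually.of_forall fun n k => ?_)
    · split_ifs with hk
      · subst hk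
        simp only [toR_zero, sub_zero, gs_zero]
        exact tendsto_const_nhds
      · have hq : 0 < qq (1 : Matrix K K ℝ) (toR k - 0) := by
          refine h1.dotProduct_mulVec_pos fun h => hk ?_
          funext i
          have := congrFun h i
          simpa using this
        simp only [gs, qq_smul_mat]
        refine Real.tendsto_exp_atBot.comp (tendsto_neg_atTop_atBot.comp ?_)
        refine Tendsto.const_mul_atTop Real.pi_pos (Tendsto.atTop_mul_const hq ?_)
        exact tendsto_atTop_add_const_right _ _ tendsto_natCast_atTop_atTop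
    · rw [Real.norm_of_nonneg (gs_pos _ _).le]
      refine gs_mono ?_
      rw [qq_smul_mat]
      have := qq_nonneg h1.posSemidef (toR k - 0)
      have h2 : (0 : ℝ) ≤ n := Nat.cast_nonneg n
      nlinarith
  rw [tsum_ite_eq] at ht
  obtain ⟨n, hn⟩ := (ht.eventually (ge_mem_nhds (by linarith : (1 : ℝ) < 1 + ε))).exists
  have hn0 : (0 : ℝ) < n + 1 := by positivity
  refine ⟨((n : ℝ) + 1)⁻¹, by positivity, fun δ h0 hδ => le_trans ?_ hn⟩
  refine th_mono (h1.smul hn0) (h1.smul h0).inv (fun x => ?_) 0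
  rw [inv_smul_mat h0.ne' h1, inv_one, qq_smul_mat, qq_smul_mat]
  exact mul_le_mul_of_nonneg_right (by rwa [le_inv_comm₀ hn0 h0]) (qq_nonneg h1.posSemidef x)

/-- labels of very large width on which nothing else depends can be deleted: if the fibre masses
are within `ε` of one then so is the ratio of the weighted sums -/
theorem Ex_del (hp : Tri lv p) (hG : G.PosDef) (ho : Ort G P) (hs : Spl P p pb) {ε : ℝ}
    (hε : ∀ y, |ms (bk G P) (pf P p y) - 1| ≤ ε) {f : ({l // ¬ P l} → ℤ) → ℂ} {C : ℝ}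
    (hf : ∀ y, ‖f y‖ ≤ C) :
    ‖Ex G p (fun z => f (rs _ z)) - Ex (bk G fun l => ¬ P l) pb f‖ ≤
      ε * C * ms (bk G fun l => ¬ P l) pb := by
  have hC : 0 ≤ C := (norm_nonneg _).trans (hf 0)
  have e1 : Fx G P p (fun z => f (rs _ z)) = fun y => (ms (bk G P) (pf P p y) : ℂ) * f y := by
    funext y
    rw [← Fx_one, ← Fx_base]; simp only [one_mul]
  have hb : ∀ y, ‖(ms (bk G P) (pf P p y) : ℂ) * f y‖ ≤ (1 + ε) * C := fun y => by
    rw [norm_mul, Complex.norm_real, Real.norm_of_nonneg (ms_nonneg _ _)]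
    have := abs_le.1 (hε y)
    have := ms_nonneg (bk G P) (pf P p y)
    exact mul_le_mul (by linarith) (hf y) (norm_nonneg _) (by linarith)
  rw [Ex_split hp hG ho hs fun z => hf _, e1,
    ← Ex_sub (hs.tri hp) (posDef_bk hG fun l => ¬ P l) hb hf]
  refine norm_Ex_le (hs.tri hp) (posDef_bk hG _) fun y => ?_
  rw [← sub_one_mul, norm_mul, ← Complex.ofReal_one, ← Complex.ofReal_sub, Complex.norm_real]
  exact mul_le_mul (hε y) (hf y) (norm_nonneg _) ((abs_nonneg _).trans (hε y))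

end

end Vale.Agent.P057PC
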