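import Vale.Agent.P057PC.Del

/-!
Blowing up a configuration: every generator gets copies.
-/

set_option linter.unusedSectionVars false

open Matrix Finset Real
open Vale.Agent.P267.H775 Vale.Agent.P057G Vale.Agent.P057ST

namespace Vale.Agent.P057PC

noncomputable section

theorem qq_sum_le {L J : Type*} [Fintype L] {G : Matrix L L ℝ} (hG : G.PosSemidef) (s : Finset J)
    (v : J → L → ℝ) : qq G (∑ j ∈ s, v j) ≤ s.card * ∑ j ∈ s, qq G (v j) := by
  have h1 : qq G (∑ j ∈ s, v j) = ∑ i ∈ s, ∑ j ∈ s, bb G (v i) (v j) := by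
    simp only [qq, bb, mulVec_sum, dotProduct_sum, sum_dotProduct]
    exact sum_comm
  have h2 : ∑ i ∈ s, ∑ j ∈ s, (qq G (v i) + qq G (v j)) / 2 = s.card * ∑ j ∈ s, qq G (v j) := by
    simp only [← sum_div, sum_add_distrib, sum_const, nsmul_eq_mul, ← mul_sum]; ring
  rw [h1, ← h2]
  refine sum_le_sum fun i _ => sum_le_sum fun j _ => ?_
  have := qq_nonneg hG (v i - v j)
  rw [qq_sub hG.1] at this
  linarith

variable {ι Δ M V L X : Type} [AddCommMonoid M] [DecidableEq X]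

/-- monomials with a set of flags -/
@[ext] structure BM (y : X → M) where
  m : M
  f : Finset X
  h : ∃ m', m = ∑ x ∈ f, y x + m'

namespace BM

variable {y : X → M}

instance : Zero (BM y) := ⟨⟨0, ∅, 0, by simp⟩⟩

instance : Add (BM y) := ⟨fun a b => ⟨a.m + b.m, a.f ∪ b.f, by
  obtain ⟨c, hc⟩ := a.h
  obtain ⟨d, hd⟩ := b.h
  exact ⟨∑ x ∈ a.f ∩ b.f, y x + (c + d), by
    rw [← add_assoc, sum_union_inter, hc, hd, add_add_add_comm]⟩⟩⟩

@[simp] theorem add_m (a b : BM y) : (a + b).m = a.m + b.m := rfl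
@[simp] theorem add_f (a b : BM y) : (a + b).f = a.f ∪ b.f := rfl
@[simp] theorem zero_m : (0 : BM y).m = 0 := rfl
@[simp] theorem zero_f : (0 : BM y).f = ∅ := rfl

instance : AddCommMonoid (BM y) where
  add_assoc a b c := BM.ext (add_assoc _ _ _) (union_assoc _ _ _)
  zero_add a := BM.ext (zero_add _) (empty_union _)
  add_zero a := BM.ext (add_zero _) (union_empty _)
  add_comm a b := BM.ext (add_comm _ _) (union_comm _ _)
  nsmul := nsmulRec

/-- monomials without flags -/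
def diag (y : X → M) : M →+ BM y where
  toFun m := ⟨m, ∅, m, by simp⟩
  map_zero' := rfl
  map_add' _ _ := BM.ext rfl (by simp)

/-- the underlying monomial -/
def fst (y : X → M) : BM y →+ M where
  toFun := BM.m
  map_zero' := rfl
  map_add' _ _ := rfl

/-- the projection that keeps the flags in `F` -/
def pj (y : X → M) (F : Finset X) : Alg (BM y) →ₐ[ℝ] Alg M :=
  AddMonoidAlgebra.lift ℝ (Alg M) (BM y)
    { toFun a := if a.toAdd.f ⊆ F then AddMonoidAlgebra.single a.toAdd.m 1 else 0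
      map_one' := if_pos (empty_subset F)
      map_mul' a b := by
        simp only [toAdd_mul, add_f, add_m, union_subset_iff]
        by_cases h1 : a.toAdd.f ⊆ F <;> by_cases h2 : b.toAdd.f ⊆ F <;>
          simp [h1, h2, AddMonoidAlgebra.single_mul_single] }

/-- the diagonal embedding -/
def dg (y : X → M) : Alg M →ₐ[ℝ] Alg (BM y) := AddMonoidAlgebra.mapDomainAlgHom ℝ ℝ (diag y)

theorem pj_single (F : Finset X) (a : BM y) (r : ℝ) : pj y F (AddMonoidAlgebra.single a r) =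
    if a.f ⊆ F then AddMonoidAlgebra.single a.m r else 0 := by
  rw [pj, AddMonoidAlgebra.lift_single]
  change r • (if a.f ⊆ F then AddMonoidAlgebra.single a.m 1 else 0 : Alg M) = _
  split_ifs <;> simp

theorem dg_single (m : M) (r : ℝ) :
    dg y (AddMonoidAlgebra.single m r) = AddMonoidAlgebra.single (diag y m) r := by
  simp [dg]

theorem pj_dg (F : Finset X) (w : Alg M) : pj y F (dg y w) = w := by
  induction w using AddMonoidAlgebra.induction_linear with
  | zero => simp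
  | add a b ha hb => rw [map_add, map_add, ha, hb]
  | single m r => rw [dg_single, pj_single]; exact if_pos (empty_subset F)

theorem sup_dg {P : M → Prop} {w : Alg M} (hw : Sup P w) : Sup (fun a : BM y => P a.m) (dg y w) := by
  rw [← w.sum_coeff_single, Finsupp.sum, map_sum]
  refine Sup.sum _ fun m hm => ?_
  rw [dg_single]
  exact Sup.single (P := fun a : BM y => P a.m) (hw m (Finsupp.mem_support_iff.1 hm)) _

end BM

namespace Cf

variable {T : Tw ι Δ} {C : Cf ι Δ M V L}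

/-- labels of the blown up configuration -/
abbrev BL (C : Cf ι Δ M V L) (ρ : X → V) : Type :=
  {x : L × Finset X // ∃ m', C.mo x.1 = ∑ v ∈ x.2, C.y (ρ v) + m'}

instance (C : Cf ι Δ M V L) (ρ : X → V) [Fintype L] [Fintype X] : Fintype (C.BL ρ) :=
  Fintype.ofFinite _

/-- the blown up configuration: `x` is the difference of a new copy of `ρ x` and the old one -/
def blow (C : Cf ι Δ M V L) (ρ : X → V) :
    Cf ι Δ (BM fun x => C.y (ρ x)) (V ⊕ X) (C.BL ρ) where
  dg := C.dg.comp (BM.fst _)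
  y := Sum.elim (fun v => BM.diag _ (C.y v)) fun x => ⟨C.y (ρ x), {x}, 0, by simp⟩
  cl w := C.cl (Sum.elim id ρ w)
  cd l := C.cd l.1.1
  mo l := ⟨C.mo l.1.1, l.1.2, l.2⟩
  R a := MvPolynomial.map (BM.dg _).toRingHom (C.R a)
  ce l := if l.1.2 = ∅ then C.ce l.1.1 else 0

theorem blow_y_m (ρ : X → V) (w : V ⊕ X) : ((C.blow ρ).y w).m = C.y (Sum.elim id ρ w) := by
  cases w <;> rfl

theorem blow_ys_m (ρ : X → V) (s : Multiset (V ⊕ X)) :
    ((C.blow ρ).ys s).m = C.ys (s.map (Sum.elim id ρ)) := by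
  induction s using Multiset.induction_on with
  | empty => rfl
  | cons w s ih => rw [ys_cons, BM.add_m, ih, Multiset.map_cons, ys_cons, blow_y_m]

theorem blow_ys_f (ρ : X → V) (s : Multiset (V ⊕ X)) (x : X) :
    x ∈ ((C.blow ρ).ys s).f ↔ Sum.inr x ∈ s := by
  induction s using Multiset.induction_on with
  | empty => simp [ys]
  | cons w s ih =>
    rw [ys_cons, BM.add_f, mem_union, ih, Multiset.mem_cons]
    cases w <;> simp [blow, BM.diag]

theorem blow_ys (ρ : X → V) (F : Finset X) (s : Multiset V) :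
    ((C.blow ρ).ys (F.val.map Sum.inr + s.map Sum.inl)).m = ∑ x ∈ F, C.y (ρ x) + C.ys s ∧
      ((C.blow ρ).ys (F.val.map Sum.inr + s.map Sum.inl)).f = F := by
  refine ⟨?_, by ext x; simp [blow_ys_f]⟩
  rw [blow_ys_m, Multiset.map_add, ys_add, Multiset.map_map, Multiset.map_map]
  simp only [Sum.elim_comp_inl, Sum.elim_comp_inr, Multiset.map_id]
  rw [ys, Multiset.map_map]; rfl

theorem Ok.blow (h : C.Ok T) (ρ : X → V) : (C.blow ρ).Ok T := by
  have hcl : ∀ s : Multiset (V ⊕ X), s.map (C.blow ρ).cl = (s.map (Sum.elim id ρ)).map C.cl :=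
    fun s => by rw [Multiset.map_map]; rfl
  refine ⟨fun w => ?_, fun m w => ?_, fun l l' h1 h2 => ?_, fun l => ?_, fun l s hs => ?_,
    fun l s m a hs ha => ?_, fun a j hj => h.Rlow a j (MvPolynomial.vars_map _ _ hj),
    fun a β m hm => ?_⟩
  · change C.dg ((C.blow ρ).y w).m = 1
    rw [blow_y_m, h.dy]
  · obtain ⟨m, F, m', rfl⟩ := m
    obtain ⟨s, hs⟩ := h.abs m' (Sum.elim id ρ w)
    refine ⟨F.val.map Sum.inr + s.map Sum.inl, BM.ext ?_ ?_⟩
    · rw [BM.add_m, BM.add_m, (blow_ys ρ F s).1, blow_y_m, add_left_comm, hs, add_left_comm]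
    · rw [BM.add_f, BM.add_f, (blow_ys ρ F s).2]
  · exact Subtype.ext (Prod.ext (h.inj _ _ h1 (congrArg BM.m h2)) (congrArg BM.f h2))
  · obtain ⟨⟨l, F⟩, m', hm⟩ := l
    obtain ⟨s, hs⟩ : ∃ s, C.mo l = ∑ x ∈ F, C.y (ρ x) + C.ys s := by
      rcases F.eq_empty_or_nonempty with rfl | ⟨x, hx⟩
      · simpa using h.gen l
      · obtain ⟨s, hs⟩ := h.abs m' (ρ x)
        refine ⟨s, hm.trans ?_⟩
        rw [← sum_erase_add _ _ hx, add_assoc, hs, ← add_assoc]
    exact ⟨F.val.map Sum.inr + s.map Sum.inl,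
      BM.ext (hs.trans (blow_ys ρ F s).1.symm) (blow_ys ρ F s).2.symm⟩
  · rw [hcl]
    exact h.lab1 l.1.1 _ ((congrArg BM.m hs).trans (blow_ys_m ρ s))
  · have h1 := congrArg BM.m hs
    rw [BM.add_m, blow_ys_m] at h1
    obtain ⟨l', h3, h4⟩ := h.lab2 l.1.1 _ _ a h1 (hcl s ▸ ha)
    rw [← blow_ys_m] at h4
    exact ⟨⟨(l', ((C.blow ρ).ys s).f), h4 ▸ ((C.blow ρ).ys s).h⟩, h3, BM.ext h4 rfl⟩
  · change ((MvPolynomial.map (BM.dg fun x => C.y (ρ x)).toRingHom (C.R a)).coeff β).coeff m ≠ 0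
      at hm
    rw [MvPolynomial.coeff_map] at hm
    exact BM.sup_dg (h.Rpos a β) m hm

variable [Fintype L] [DecidableEq L] [Fintype X]

/-- the labels seen from the copies in `F` -/
def vw (C : Cf ι Δ M V L) (ρ : X → V) (F : Finset X) : Matrix L (C.BL ρ) ℤ :=
  Matrix.of fun l l' => if l'.1.1 = l ∧ l'.1.2 ⊆ F then 1 else 0

theorem vw_mulVec (ρ : X → V) (F : Finset X) (x : C.BL ρ → ℝ) (l : L) :
    (mR (C.vw ρ F) *ᵥ x) l = ∑ l' : C.BL ρ, if l'.1.1 = l ∧ l'.1.2 ⊆ F then x l' else 0 := by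
  simp [mR, vw, mulVec, dotProduct]

theorem pj_pt (ρ : X → V) (F : Finset X) (x : C.BL ρ → ℝ) (a : ι) :
    BM.pj _ F ((C.blow ρ).pt x a) = C.pt (mR (C.vw ρ F) *ᵥ x) a := by
  classical
  unfold pt
  have h0 : ∀ (m : M) (f : C.BL ρ → ℝ), AddMonoidAlgebra.single m (∑ l, f l) =
      ∑ l, AddMonoidAlgebra.single m (f l) := fun m f =>
    map_sum (AddMonoidAlgebra.singleAddHom m) _ _
  simp only [map_sum, vw_mulVec, h0, ite_sum_zero]
  rw [sum_comm]
  refine sum_congr rfl fun l' _ => ?_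
  rw [apply_ite (BM.pj _ F), map_zero, BM.pj_single, sum_eq_single l'.1.1
    (fun l _ h => by simp [h.symm]) (by simp)]
  by_cases h : l'.1.2 ⊆ F <;> simp [blow, h]

theorem pj_val (T : Tw ι Δ) (ρ : X → V) (F : Finset X) (x : C.BL ρ → ℝ) (a : ι) :
    BM.pj _ F ((C.blow ρ).val T x a) = C.val T (mR (C.vw ρ F) *ᵥ x) a := by
  unfold val
  have h := hom_eval (BM.pj (fun x => C.y (ρ x)) F) (BM.dg _).toRingHom (BM.pj_dg F)
    ((C.blow ρ).pt x) (C.R a)
  rw [funext (pj_pt ρ F x)] at h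
  rw [map_add, MvPolynomial.comp_aeval_apply, funext (pj_pt ρ F x), ← h]
  rfl

theorem coeff_pj (ρ : X → V) (F : Finset X) (w : Alg (BM fun x => C.y (ρ x))) (l : L) :
    (BM.pj _ F w).coeff (C.mo l) =
      ∑ l' : C.BL ρ, if l'.1.1 = l ∧ l'.1.2 ⊆ F then w.coeff ((C.blow ρ).mo l') else 0 := by
  classical
  induction w using AddMonoidAlgebra.induction_linear with
  | zero => simp
  | add a b ha hb =>
    simp only [map_add, AddMonoidAlgebra.coeff_add, Finsupp.add_apply, ha, hb, ← sum_add_distrib]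
    refine sum_congr rfl fun l' _ => ?_
    split_ifs <;> simp
  | single a r =>
    rw [BM.pj_single]
    by_cases h1 : a.m = C.mo l
    · rw [sum_eq_single (⟨(l, a.f), h1 ▸ a.h⟩ : C.BL ρ) (fun l' _ h2 => ?_) (by simp)]
      · have : (C.blow ρ).mo ⟨(l, a.f), h1 ▸ a.h⟩ = a := BM.ext h1.symm rfl
        rw [this]
        by_cases h3 : a.f ⊆ F <;> simp [h1, h3]
      · split_ifs with h3
        · refine Finsupp.single_eq_of_ne fun h4 => h2 (Subtype.ext (Prod.ext h3.1 ?_))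
          exact congrArg BM.f h4
        · rfl
    · rw [sum_eq_zero fun l' _ => ?_]
      · split_ifs <;> simp [h1]
      · split_ifs with h3
        · exact Finsupp.single_eq_of_ne fun h4 => h1 (h3.1 ▸ (congrArg BM.m h4).symm)
        · rfl

theorem vw_pr (T : Tw ι Δ) (ρ : X → V) (F : Finset X) (x : C.BL ρ → ℝ) :
    mR (C.vw ρ F) *ᵥ (C.blow ρ).pr T x = C.pr T (mR (C.vw ρ F) *ᵥ x) := by
  funext l
  have h0 : ∃ m', C.mo l = ∑ v ∈ (∅ : Finset X), C.y (ρ v) + m' := ⟨C.mo l, by simp⟩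
  have h1 : C.ce l = ∑ l' : C.BL ρ, if l'.1.1 = l ∧ l'.1.2 ⊆ F then (C.blow ρ).ce l' else 0 := by
    rw [sum_eq_single (⟨(l, ∅), h0⟩ : C.BL ρ) (fun l' _ h2 => ?_) (by simp)]
    · simp [blow]
    · split_ifs with h3
      · exact if_neg fun h4 => h2 (Subtype.ext (Prod.ext h3.1 h4))
      · rfl
  rw [vw_mulVec, pr, ← pj_val, coeff_pj, h1, ← sum_add_distrib]
  refine sum_congr rfl fun l' _ => ?_
  split_ifs with h2
  · rw [← h2.1]; rfl
  · simp

theorem vw_p (T : Tw ι Δ) (ρ : X → V) (F : Finset X) (z : C.BL ρ → ℤ) :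
    mR (C.vw ρ F) *ᵥ (C.blow ρ).p T z = C.p T (C.vw ρ F *ᵥ z) := by
  rw [p, p, vw_pr, toR_mulVec]

theorem qq_vw [Fintype ι] (h : C.Ok T) (hT : T.Ok) (ρ : X → V) (F : Finset X) (x : C.BL ρ → ℝ) :
    qq (C.Gam T) (mR (C.vw ρ F) *ᵥ x) ≤ 2 ^ F.card * qq ((C.blow ρ).Gam T) x := by
  classical
  let E : Finset X → Matrix L (C.BL ρ) ℝ := fun f =>
    Matrix.of fun l l' => if l'.1.1 = l ∧ l'.1.2 = f then 1 else 0
  have h1 : mR (C.vw ρ F) *ᵥ x = ∑ f ∈ F.powerset, E f *ᵥ x := by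
    rw [← sum_mulVec]
    congr 1
    ext l l'
    by_cases h2 : l'.1.1 = l <;> simp [mR, vw, E, Matrix.sum_apply, h2]
  have h2 : (C.blow ρ).Gam T = ∑ f, (E f)ᵀ * C.Gam T * E f := by
    ext l l'
    simp only [Matrix.sum_apply, mul_apply, E, transpose_apply, of_apply, ite_and, ite_mul,
      mul_ite, one_mul, mul_one, zero_mul, mul_zero, sum_ite_eq, mem_univ, if_true]
    simp only [Gam_apply, BM.ext_iff]
    by_cases h3 : l.1.2 = l'.1.2 <;> by_cases h4 : C.mo l.1.1 = C.mo l'.1.1 <;>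
      simp [blow, h3, h4]
  have h3 : qq ((C.blow ρ).Gam T) x = ∑ f, qq (C.Gam T) (E f *ᵥ x) := by
    rw [h2]
    simp only [← qq_conj]
    simp only [qq, sum_mulVec, dotProduct_sum]
  have hG := (h.posDef hT).posSemidef
  rw [h1, h3]
  refine (qq_sum_le hG _ _).trans ?_
  rw [card_powerset]
  push_cast
  exact mul_le_mul_of_nonneg_left
    (sum_le_sum_of_subset_of_nonneg (subset_univ _) fun f _ _ => qq_nonneg hG _) (by positivity)

end Cf

end

end Vale.Agent.P057PC
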