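import Vale.Agent.P057G.Fib

/-!
Expectations over triangular Gaussian systems; change of the index type; Gaussian mixtures.
-/

open MeasureTheory Matrix Finset Filter
open scoped Real Topology
open Vale.Agent.P267.H775 Vale.Agent.P057G

namespace Vale.Agent.P057PC

noncomputable section

variable {L K : Type*} [Fintype L] [DecidableEq L] [Fintype K] [DecidableEq K]

/-- the normalised Gaussian -/
def ng (G : Matrix L L ℝ) (x : L → ℝ) : ℝ := gs G x / vol G

/-- the weighted sum of `f` over the system with Gram matrix `G` and centres `p` -/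
def Ex (G : Matrix L L ℝ) (p : (L → ℤ) → L → ℝ) (f : (L → ℤ) → ℂ) : ℂ :=
  ∑' z, (ng G (toR z - p z) : ℂ) * f z

/-- the normalised mass -/
def ms (G : Matrix L L ℝ) (p : (L → ℤ) → L → ℝ) : ℝ := ∑' z, ng G (toR z - p z)

theorem ng_pos {G : Matrix L L ℝ} (hG : G.PosDef) (x : L → ℝ) : 0 < ng G x :=
  div_pos (gs_pos _ _) (vol_pos hG)

theorem ng_nonneg (G : Matrix L L ℝ) (x : L → ℝ) : 0 ≤ ng G x :=
  div_nonneg (gs_pos _ _).le (inv_nonneg.2 (Real.sqrt_nonneg _))

theorem ms_nonneg (G : Matrix L L ℝ) (p : (L → ℤ) → L → ℝ) : 0 ≤ ms G p :=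
  tsum_nonneg fun _ => ng_nonneg _ _

theorem Ex_one (G : Matrix L L ℝ) (p : (L → ℤ) → L → ℝ) : Ex G p (fun _ => 1) = ms G p := by
  simp only [Ex, ms, mul_one, Complex.ofReal_tsum]

theorem Ex_real (G : Matrix L L ℝ) (p : (L → ℤ) → L → ℝ) (f : (L → ℤ) → ℝ) :
    Ex G p (fun z => f z) = ((∑' z, ng G (toR z - p z) * f z : ℝ) : ℂ) := by
  simp only [Ex, Complex.ofReal_tsum, Complex.ofReal_mul]

omit [Fintype L] [DecidableEq L] in
theorem tri_add {lv : L → ℕ} {p : (L → ℤ) → L → ℝ} (hp : Tri lv p) (c : L → ℝ) :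
    Tri lv fun z => p z + c := fun i z z' h => by
  simp only [Pi.add_apply, hp i z z' h]

theorem summable_ng {lv : L → ℕ} {p : (L → ℤ) → L → ℝ} (hp : Tri lv p) {G : Matrix L L ℝ}
    (hG : G.PosDef) : Summable fun z : L → ℤ => ng G (toR z - p z) :=
  (hp.summable hG).div_const _

/-- a uniform bound for the masses of all triangular systems with one Gram matrix -/
theorem ms_bdd {G : Matrix L L ℝ} (hG : G.PosDef) :
    ∃ B : ℝ, ∀ (lv : L → ℕ) (p : (L → ℤ) → L → ℝ), Tri lv p → ms G p ≤ B := by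
  obtain ⟨u, hu, hle⟩ := summable_near hG (1 / 2)
  have hu0 : ∀ n, 0 ≤ u n := fun n => (gs_pos _ _).le.trans (hle n 0 fun _ => by norm_num)
  refine ⟨(∑' n, u n) / vol G, fun lv p hp => ?_⟩
  unfold ms ng
  rw [tsum_div_const]
  refine div_le_div_of_nonneg_right ?_ (vol_pos hG).le
  refine Summable.tsum_le_tsum_of_inj _ hp.inj (fun c _ => hu0 c) (fun z => ?_) (hp.summable hG) hu
  have h := hle (fun i => z i - round (p z i)) (fun i => round (p z i) - p z i)
    fun i => by rw [abs_sub_comm]; exact abs_sub_round _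
  refine le_trans (le_of_eq ?_) h
  congr 1
  funext i
  simp only [Pi.sub_apply, Pi.add_apply, toR_apply]
  push_cast; ring

theorem summable_Ex {lv : L → ℕ} {p : (L → ℤ) → L → ℝ} (hp : Tri lv p) {G : Matrix L L ℝ}
    (hG : G.PosDef) {f : (L → ℤ) → ℂ} {C : ℝ} (hf : ∀ z, ‖f z‖ ≤ C) :
    Summable fun z : L → ℤ => (ng G (toR z - p z) : ℂ) * f z :=
  summable_mul_cx (summable_ng hp hG) (fun _ => ng_nonneg _ _) hf

theorem norm_Ex_le {lv : L → ℕ} {p : (L → ℤ) → L → ℝ} (hp : Tri lv p) {G : Matrix L L ℝ}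
    (hG : G.PosDef) {f : (L → ℤ) → ℂ} {C : ℝ} (hf : ∀ z, ‖f z‖ ≤ C) :
    ‖Ex G p f‖ ≤ C * ms G p := by
  refine tsum_of_norm_bounded ((summable_ng hp hG).hasSum.mul_left C) fun z => ?_
  rw [norm_mul, Complex.norm_real, Real.norm_of_nonneg (ng_nonneg _ _), mul_comm]
  exact mul_le_mul_of_nonneg_right (hf z) (ng_nonneg _ _)

theorem Ex_sub {lv : L → ℕ} {p : (L → ℤ) → L → ℝ} (hp : Tri lv p) {G : Matrix L L ℝ}
    (hG : G.PosDef) {f g : (L → ℤ) → ℂ} {C D : ℝ} (hf : ∀ z, ‖f z‖ ≤ C) (hg : ∀ z, ‖g z‖ ≤ D) :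
    Ex G p (fun z => f z - g z) = Ex G p f - Ex G p g := by
  simp only [Ex, mul_sub]
  exact (summable_Ex hp hG hf).tsum_sub (summable_Ex hp hG hg)

theorem Ex_add {lv : L → ℕ} {p : (L → ℤ) → L → ℝ} (hp : Tri lv p) {G : Matrix L L ℝ}
    (hG : G.PosDef) {f g : (L → ℤ) → ℂ} {C D : ℝ} (hf : ∀ z, ‖f z‖ ≤ C) (hg : ∀ z, ‖g z‖ ≤ D) :
    Ex G p (fun z => f z + g z) = Ex G p f + Ex G p g := by
  simp only [Ex, mul_add]
  exact (summable_Ex hp hG hf).tsum_add (summable_Ex hp hG hg)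

theorem Ex_mul_const (G : Matrix L L ℝ) (p : (L → ℤ) → L → ℝ) (f : (L → ℤ) → ℂ) (c : ℂ) :
    Ex G p (fun z => c * f z) = c * Ex G p f := by
  simp only [Ex, ← tsum_mul_left, mul_left_comm]

omit [DecidableEq L] [DecidableEq K] in
theorem qq_submatrix (G : Matrix L L ℝ) (e : K ≃ L) (x : L → ℝ) :
    qq (G.submatrix e e) (x ∘ e) = qq G x := by
  unfold qq
  rw [submatrix_mulVec_equiv, Function.comp_assoc, e.self_comp_symm, Function.comp_id,
    ← comp_equiv_dotProduct_comp_equiv x _ e]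

theorem ng_submatrix (G : Matrix L L ℝ) (e : K ≃ L) (x : L → ℝ) :
    ng (G.submatrix e e) (x ∘ e) = ng G x := by
  unfold ng gs vol
  rw [qq_submatrix, det_submatrix_equiv_self]

/-- change of the index type -/
theorem Ex_equiv (e : K ≃ L) {G : Matrix L L ℝ} {G' : Matrix K K ℝ} {p : (L → ℤ) → L → ℝ}
    {p' : (K → ℤ) → K → ℝ} {f : (L → ℤ) → ℂ} {f' : (K → ℤ) → ℂ}
    (hG : ∀ i j, G' i j = G (e i) (e j)) (hp : ∀ z i, p' (z ∘ e) i = p z (e i))
    (hf : ∀ z, f' (z ∘ e) = f z) : Ex G' p' f' = Ex G p f := by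
  have h1 : G' = G.submatrix e e := by ext i j; exact hG i j
  unfold Ex
  rw [← (Equiv.arrowCongr e.symm (Equiv.refl ℤ)).tsum_eq]
  refine tsum_congr fun z => ?_
  have h2 : (Equiv.arrowCongr e.symm (Equiv.refl ℤ)) z = z ∘ e := rfl
  rw [h2, hf, h1, ← ng_submatrix G e]
  congr 3
  funext i
  simp only [Pi.sub_apply, toR_apply, Function.comp, ← hp]

theorem ms_equiv (e : K ≃ L) {G : Matrix L L ℝ} {G' : Matrix K K ℝ} {p : (L → ℤ) → L → ℝ}
    {p' : (K → ℤ) → K → ℝ} (hG : ∀ i j, G' i j = G (e i) (e j))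
    (hp : ∀ z i, p' (z ∘ e) i = p z (e i)) : ms G' p' = ms G p := by
  have := Ex_equiv e hG hp (f := fun _ => 1) (f' := fun _ => 1) fun _ => rfl
  rw [Ex_one, Ex_one] at this
  exact_mod_cast this

theorem ms_empty [IsEmpty L] (G : Matrix L L ℝ) (p : (L → ℤ) → L → ℝ) : ms G p = 1 := by
  unfold ms
  rw [tsum_fintype, Fintype.sum_unique]
  simp [ng, gs, qq, vol, dotProduct]

theorem ms_zero {G : Matrix L L ℝ} (hG : G.PosDef) : ms G (fun _ => 0) = th G⁻¹ 0 := by
  unfold ms ng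
  rw [tsum_div_const, div_eq_iff (vol_pos hG).ne', mul_comm, ← th_zero_eq hG]
  rfl

/-- a wide Gaussian is a mixture of translates of a narrow one -/
theorem ng_mix {G H : Matrix L L ℝ} (hG : G.PosDef) (hR : (H - G).PosDef) :
    ∃ ν : (L → ℝ) → ℝ, (∀ c, 0 ≤ ν c) ∧ Continuous ν ∧ Integrable ν ∧ ∫ c, ν c = 1 ∧
      ∀ v, Integrable (fun c => ν c * ng H (v - c)) ∧ ∫ c, ν c * ng H (v - c) = ng G v := by
  set R := H - G with hRdef
  have hHR : H = R + G := by rw [hRdef]; abel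
  have hH : H.PosDef := hHR ▸ hR.add hG
  have uR : IsUnit R.det := (isUnit_iff_isUnit_det _).1 hR.isUnit
  have uH : IsUnit H.det := (isUnit_iff_isUnit_det _).1 hH.isUnit
  have tG : Gᵀ = G := by simpa using hG.1.eq
  have tH : Hᵀ = H := by simpa using hH.1.eq
  set B := G + Gᵀ * R⁻¹ * G with hB
  have hBp : B.PosDef := posDef_addform hG hR.inv.posSemidef G
  have hB1 : B = H * R⁻¹ * G := by
    rw [hB, tG, hHR, add_mul, add_mul, mul_nonsing_inv _ uR, one_mul]
  set T := H + B with hT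
  have hTp : T.PosDef := hH.add hBp
  have hT1 : T = H * R⁻¹ * H := by
    rw [hT, hB1]
    conv_rhs => rw [hHR, mul_add, ← hHR, mul_assoc, nonsing_inv_mul _ uR, mul_one]
  have hTi : T⁻¹ = H⁻¹ * R * H⁻¹ := by
    refine inv_eq_left_inv ?_
    rw [hT1]
    calc H⁻¹ * R * H⁻¹ * (H * R⁻¹ * H) = H⁻¹ * (R * ((H⁻¹ * H) * R⁻¹)) * H := by
          simp only [mul_assoc]
      _ = 1 := by
          rw [nonsing_inv_mul _ uH, one_mul, mul_nonsing_inv _ uR, mul_one, nonsing_inv_mul _ uH]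
  have key : ∀ v c, qq B c + qq H (v - c) = qq T (T⁻¹ *ᵥ (H *ᵥ v) - c) + qq G v := by
    intro v c
    have h1 := sq_lin hTp c (H *ᵥ v)
    have h2 : qq T⁻¹ (H *ᵥ v) = qq R v := by
      rw [← qq_conj, tH, hTi]
      congr 1
      calc H * (H⁻¹ * R * H⁻¹) * H = (H * H⁻¹) * R * (H⁻¹ * H) := by simp only [mul_assoc]
        _ = R := by rw [mul_nonsing_inv _ uH, nonsing_inv_mul _ uH, one_mul, mul_one]
    have h3 : qq H v = qq R v + qq G v := by rw [← qq_add_mat, ← hHR]
    have h4 : qq T c = qq H c + qq B c := by rw [← qq_add_mat]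
    have h5 : qq T (T⁻¹ *ᵥ (H *ᵥ v) - c) = qq T (c - T⁻¹ *ᵥ (H *ᵥ v)) := by
      rw [← qq_neg, neg_sub]
    have h6 : bb H v c = c ⬝ᵥ (H *ᵥ v) := by rw [bb_comm hH.1]; rfl
    rw [qq_sub hH.1, h5, h6]
    linarith
  have hdet : vol B * vol H = vol G * vol T := by
    unfold vol
    rw [← mul_inv, ← mul_inv, ← Real.sqrt_mul hBp.det_pos.le, ← Real.sqrt_mul hG.det_pos.le, hB1,
      hT1]
    simp only [det_mul]
    congr 2; ring
  have vG := vol_pos hG
  have vH := vol_pos hH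
  have vT := vol_pos hTp
  have vB := vol_pos hBp
  refine ⟨fun c => gs B c / vol B, fun c => div_nonneg (gs_pos _ _).le vB.le,
    (continuous_gs B).div_const _, (integrable_gs hBp).div_const _, ?_, fun v => ?_⟩
  · rw [integral_div, integral_gs_real hBp, div_self vB.ne']
  · have h1 : (fun c => gs B c / vol B * ng H (v - c)) =
        fun c => (ng G v / vol T) * gs T (T⁻¹ *ᵥ (H *ᵥ v) - c) := by
      funext c
      unfold ng
      rw [div_mul_div_comm, gs_mul_of_qq (key v c), hdet]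
      unfold gs
      field_simp
    rw [h1]
    refine ⟨(integrable_gs_sub hTp _).const_mul _, ?_⟩
    rw [integral_const_mul, integral_gs_sub hTp, div_mul_cancel₀ _ vT.ne']

/-- the weighted sums for a wide Gram matrix are mixtures of those for a narrow one -/
theorem Ex_mix_eq {G H : Matrix L L ℝ} (hG : G.PosDef) (hR : (H - G).PosDef) :
    ∃ ν : (L → ℝ) → ℝ, (∀ c, 0 ≤ ν c) ∧ Integrable ν ∧ ∫ c, ν c = 1 ∧
      ∀ (lv : L → ℕ) (p : (L → ℤ) → L → ℝ) (f : (L → ℤ) → ℂ) (C : ℝ), Tri lv p →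
        (∀ z, ‖f z‖ ≤ C) → Integrable (fun c => (ν c : ℂ) * Ex H (fun z => p z + c) f) ∧
          ∫ c, (ν c : ℂ) * Ex H (fun z => p z + c) f = Ex G p f := by
  obtain ⟨ν, h0, hc, hi, h1, hv⟩ := ng_mix hG hR
  have hH : H.PosDef := by
    have : H = (H - G) + G := by abel
    exact this ▸ hR.add hG
  refine ⟨ν, h0, hi, h1, fun lv p f C hp hf => ?_⟩
  obtain ⟨B, hB⟩ := ms_bdd hH
  set F : (L → ℤ) → (L → ℝ) → ℂ := fun z c => ((ν c * ng H (toR z - p z - c) : ℝ) : ℂ) * f z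
    with hF
  have hFc : ∀ z, Continuous (F z) := fun z => by
    refine (Complex.continuous_ofReal.comp (hc.mul ?_)).mul continuous_const
    exact ((continuous_gs H).comp (continuous_const.sub continuous_id)).div_const _
  have hFs : ∀ c, HasSum (fun z => F z c) ((ν c : ℂ) * Ex H (fun z => p z + c) f) := fun c => by
    refine ((summable_Ex (tri_add hp c) hH hf).hasSum.mul_left (ν c : ℂ)).congr_fun fun z => ?_
    simp only [hF, ← sub_sub]; push_cast; ring
  have hFi : ∀ z, Integrable (F z) := fun z => (hv (toR z - p z)).1.ofReal.mul_const _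
  have hFn : ∀ z, ∫ c, ‖F z c‖ = ng G (toR z - p z) * ‖f z‖ := fun z => by
    rw [← (hv (toR z - p z)).2, ← integral_mul_const]
    refine integral_congr_ae (Eventually.of_forall fun c => ?_)
    simp only [hF]
    rw [norm_mul, Complex.norm_real, Real.norm_of_nonneg (mul_nonneg (h0 c) (ng_nonneg _ _))]
  have hm : AEStronglyMeasurable (fun c => (ν c : ℂ) * Ex H (fun z => p z + c) f) volume :=
    aestronglyMeasurable_of_tendsto_ae (atTop : Filter (Finset (L → ℤ)))
      (f := fun s c => ∑ z ∈ s, F z c)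
      (fun s => (continuous_finsetSum s fun z _ => hFc z).aestronglyMeasurable)
      (Eventually.of_forall fun c => hFs c)
  refine ⟨(hi.mul_const (|C| * B)).mono' hm (Eventually.of_forall fun c => ?_), ?_⟩
  · rw [norm_mul, Complex.norm_real, Real.norm_of_nonneg (h0 c)]
    refine mul_le_mul_of_nonneg_left ?_ (h0 c)
    refine (norm_Ex_le (tri_add hp c) hH fun z => (hf z).trans (le_abs_self C)).trans ?_
    exact mul_le_mul_of_nonneg_left (hB lv _ (tri_add hp c)) (abs_nonneg C)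
  · have hs : Summable fun z => ∫ c, ‖F z c‖ := by
      simp_rw [hFn]
      exact summable_mul_real (summable_ng hp hG) (fun _ => ng_nonneg _ _) (C := C)
        fun z => by rw [abs_norm]; exact hf z
    have h2 := integral_tsum_of_summable_integral_norm hFi hs
    simp_rw [fun c => (hFs c).tsum_eq] at h2
    rw [← h2]
    refine tsum_congr fun z => ?_
    simp only [hF]
    rw [integral_mul_const, integral_complex_ofReal, (hv _).2]

/-- a bound for all centres of the narrow system gives the bound for the wide one -/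
theorem Ex_mix {lv : L → ℕ} {p : (L → ℤ) → L → ℝ} (hp : Tri lv p) {G H : Matrix L L ℝ}
    (hG : G.PosDef) (hR : (H - G).PosDef) {f : (L → ℤ) → ℂ} {C : ℝ} (hf : ∀ z, ‖f z‖ ≤ C)
    {a : ℂ} {η : ℝ} (h : ∀ c, ‖Ex H (fun z => p z + c) f - a‖ ≤ η) : ‖Ex G p f - a‖ ≤ η := by
  obtain ⟨ν, h0, hi, h1, hv⟩ := Ex_mix_eq hG hR
  obtain ⟨h2, h3⟩ := hv lv p f C hp hf
  have h4 : ∫ c, (ν c : ℂ) * a = a := by
    rw [integral_mul_const, integral_complex_ofReal, h1]; simp
  have h5 : Integrable fun c => (ν c : ℂ) * a := hi.ofReal.mul_const a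
  rw [← h3, ← h4, ← integral_sub h2 h5]
  refine (norm_integral_le_of_norm_le (hi.mul_const η) (Eventually.of_forall fun c => ?_)).trans ?_
  · rw [← mul_sub, norm_mul, Complex.norm_real, Real.norm_of_nonneg (h0 c)]
    exact mul_le_mul_of_nonneg_left (h c) (h0 c)
  · rw [integral_mul_const, h1, one_mul]

omit [DecidableEq L] in
/-- the gap needed for a mixture -/
theorem posDef_gap {G H : Matrix L L ℝ} (hG : G.PosDef) (hH : H.PosDef)
    (h : ∀ v, qq G v ≤ qq H v) : ((2 : ℝ) • H - G).PosDef := by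
  refine PosDef.of_dotProduct_mulVec_pos ((hH.1.smul (by simp [IsSelfAdjoint])).sub hG.1)
    fun x hx => ?_
  have h1 := hH.dotProduct_mulVec_pos hx
  have h2 := h x
  simp only [qq, star_trivial, sub_mulVec, smul_mulVec, dotProduct_sub, dotProduct_smul,
    smul_eq_mul] at h1 h2 ⊢
  linarith

theorem ms_mix {lv : L → ℕ} {p : (L → ℤ) → L → ℝ} (hp : Tri lv p) {G H : Matrix L L ℝ}
    (hG : G.PosDef) (hR : (H - G).PosDef) {a η : ℝ}
    (h : ∀ c, |ms H (fun z => p z + c) - a| ≤ η) : |ms G p - a| ≤ η := by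
  have := Ex_mix hp hG hR (f := fun _ => 1) (C := 1) (by simp) (a := a) (η := η) fun c => by
    rw [Ex_one, ← Complex.ofReal_sub, Complex.norm_real]; exact h c
  rwa [Ex_one, ← Complex.ofReal_sub, Complex.norm_real] at this

end

end Vale.Agent.P057PC
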