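import Vale.Agent.P057PC.Defs

/-!
Basic facts on configurations: supports, triangularity, the Gram matrix, subsystems.
-/

set_option linter.unusedSectionVars false

open Matrix Finset
open scoped Pointwise
open Vale.Agent.P267.H775 Vale.Agent.P057G

namespace Vale.Agent.P057PC

noncomputable section

variable {ι Δ M V L : Type} [AddCommMonoid M]

/-- all monomials of `u` satisfy `P` -/
def Sup (P : M → Prop) (u : Alg M) : Prop := ∀ m, u.coeff m ≠ 0 → P m

theorem Sup.zero (P : M → Prop) : Sup P 0 := fun _ h => (h rfl).elim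

theorem Sup.add {P : M → Prop} {u v : Alg M} (hu : Sup P u) (hv : Sup P v) : Sup P (u + v) := by
  intro m h
  by_contra hm
  have h1 : u.coeff m = 0 := by by_contra h1; exact hm (hu m h1)
  have h2 : v.coeff m = 0 := by by_contra h2; exact hm (hv m h2)
  exact h (by simp [h1, h2])

theorem Sup.neg {P : M → Prop} {u : Alg M} (hu : Sup P u) : Sup P (-u) :=
  fun m h => hu m (by simpa using h)

theorem Sup.sum {P : M → Prop} {κ : Type*} (s : Finset κ) {u : κ → Alg M}
    (hu : ∀ i ∈ s, Sup P (u i)) : Sup P (∑ i ∈ s, u i) :=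
  sum_induction u (Sup P) (fun _ _ => Sup.add) (Sup.zero P) hu

theorem Sup.single {P : M → Prop} {m : M} (h : P m) (r : ℝ) :
    Sup P (AddMonoidAlgebra.single m r) := by
  classical
  intro m' h'
  rw [AddMonoidAlgebra.coeff_single, Finsupp.single_apply] at h'
  split_ifs at h' with h1
  · exact h1 ▸ h
  · exact (h' rfl).elim

theorem Sup.mul {P P' Q : M → Prop} {u v : Alg M} (hu : Sup P u) (hv : Sup P' v)
    (h : ∀ m m', P m → P' m' → Q (m + m')) : Sup Q (u * v) := by
  classical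
  intro m hm
  obtain ⟨a, ha, b, hb, rfl⟩ := Finset.mem_add.1
    (AddMonoidAlgebra.support_coeff_mul_subset u v (Finsupp.mem_support_iff.2 hm))
  exact h a b (hu a (Finsupp.mem_support_iff.1 ha)) (hv b (Finsupp.mem_support_iff.1 hb))

theorem Sup.coeff {P : M → Prop} {u : Alg M} (hu : Sup P u) {m : M} (hm : ¬ P m) :
    u.coeff m = 0 := by
  by_contra h; exact hm (hu m h)

/-- evaluation respects congruences modulo an ideal of monomials -/
theorem Sup.eval_sub {I : M → Prop} (hI : ∀ m m', I m → I (m + m')) {x x' : ι → Alg M}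
    (h : ∀ a, Sup I (x a - x' a)) (Q : MvPolynomial ι (Alg M)) :
    Sup I (MvPolynomial.eval x Q - MvPolynomial.eval x' Q) := by
  induction Q using MvPolynomial.induction_on with
  | C a => simpa using Sup.zero I
  | add p q hp hq =>
    have := hp.add hq
    rw [map_add, map_add]
    convert this using 1; ring
  | mul_X p a hp =>
    have h1 := hp.mul (P' := fun _ => True) (v := x a) (fun _ _ => trivial) fun m m' h _ => hI m m' h
    have h2 := (h a).mul (P' := fun _ => True) (v := MvPolynomial.eval x' p) (fun _ _ => trivial)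
      fun m m' h _ => hI m m' h
    simp only [map_mul, MvPolynomial.eval_X]
    convert h1.add h2 using 1; ring

/-- evaluation of a polynomial whose coefficients lie in a module over a submonoid -/
theorem Sup.eval {P Q : M → Prop} (h0 : P 0) (hP : ∀ m m', P m → P m' → P (m + m'))
    (hQ : ∀ m m', Q m → P m' → Q (m + m')) {x : ι → Alg M} (hx : ∀ a, Sup P (x a))
    {R : MvPolynomial ι (Alg M)} (hR : ∀ β, Sup Q (R.coeff β)) :
    Sup Q (MvPolynomial.eval x R) := by
  rw [MvPolynomial.eval_eq]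
  refine Sup.sum _ fun β _ => (hR β).mul ?_ hQ
  refine prod_induction _ (Sup P) (fun a b ha hb => ha.mul hb hP) (Sup.single h0 1) fun a _ => ?_
  induction β a with
  | zero => exact Sup.single h0 1
  | succ n ih => rw [pow_succ]; exact ih.mul (hx a) hP

/-- the pairing with a function on the monomials -/
def pa (κ : M → ℝ) : Alg M →ₗ[ℝ] ℝ :=
  Finsupp.linearCombination ℝ κ ∘ₗ (AddMonoidAlgebra.coeffLinearEquiv ℝ).toLinearMap

theorem pa_single (κ : M → ℝ) (m : M) (r : ℝ) : pa κ (AddMonoidAlgebra.single m r) = r * κ m := by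
  simp [pa]

theorem pa_eq {κ : M → ℝ} {μ : M} (h : ∀ m, κ m ≠ 0 → m = μ) (u : Alg M) :
    pa κ u = κ μ * u.coeff μ := by
  classical
  induction u using AddMonoidAlgebra.induction_linear with
  | zero => simp
  | add u v hu hv => rw [map_add, hu, hv]; simp [mul_add]
  | single m r =>
    rw [pa_single, AddMonoidAlgebra.coeff_single, Finsupp.single_apply]
    split_ifs with h1
    · rw [h1, mul_comm]
    · have : κ m = 0 := by by_contra h2; exact h1 (h m h2)
      simp [this]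

namespace Cf

variable {T : Tw ι Δ} {C : Cf ι Δ M V L}

theorem ys_zero (C : Cf ι Δ M V L) : C.ys 0 = 0 := rfl

theorem ys_add (C : Cf ι Δ M V L) (s t : Multiset V) : C.ys (s + t) = C.ys s + C.ys t := by
  simp [ys]

theorem ys_cons (C : Cf ι Δ M V L) (v : V) (s : Multiset V) : C.ys (v ::ₘ s) = C.y v + C.ys s := by
  simp [ys]

theorem Dv.add {v : V} {m : M} (h : C.Dv v m) (m' : M) : C.Dv v (m + m') := by
  obtain ⟨a, rfl⟩ := h
  exact ⟨a + m', add_assoc _ _ _⟩

theorem dv_ys {v : V} {s : Multiset V} (h : v ∈ s) : C.Dv v (C.ys s) := by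
  obtain ⟨t, rfl⟩ := Multiset.exists_cons_of_mem h
  exact ⟨_, C.ys_cons v t⟩

theorem Ok.dg_ys (h : C.Ok T) (s : Multiset V) : C.dg (C.ys s) = Multiset.card s := by
  induction s using Multiset.induction_on with
  | empty => simp [ys]
  | cons v s ih => rw [ys_cons, map_add, ih, h.dy, Multiset.card_cons, add_comm]

theorem Ok.dg_mo (h : C.Ok T) (hT : T.Ok) (l : L) : C.dg (C.mo l) = T.lv (C.cd l) := by
  obtain ⟨s, hs⟩ := h.gen l
  rw [← hT.alc _ _ (h.lab1 l s hs), hs, h.dg_ys, Multiset.card_map]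

theorem Ok.dv (h : C.Ok T) {v : V} {m : M} (hv : C.Dv v m) : ∃ s, m = C.y v + C.ys s := by
  obtain ⟨a, rfl⟩ := hv
  exact h.abs a v

theorem Ok.cen (h : C.Ok T) (c : L → ℝ) : (C.cen c).Ok T :=
  ⟨h.dy, h.abs, h.inj, h.gen, h.lab1, h.lab2, h.Rlow, h.Rpos⟩

theorem Ok.sub (h : C.Ok T) {Q : L → Prop} (hQ : ∀ l l' m, Q l → C.mo l = C.mo l' + m → Q l') :
    (C.sub Q).Ok T := by
  refine ⟨h.dy, h.abs, fun l l' h1 h2 => Subtype.ext (h.inj _ _ h1 h2), fun l => h.gen l,
    fun l => h.lab1 l, fun l s m a h1 h2 => ?_, h.Rlow, h.Rpos⟩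
  obtain ⟨l', h3, h4⟩ := h.lab2 l s m a h1 h2
  exact ⟨⟨l', hQ l l' m l.2 (by rw [h4]; exact h1)⟩, h3, h4⟩

theorem Gam_apply (T : Tw ι Δ) (C : Cf ι Δ M V L) (l l' : L) [Decidable (C.mo l = C.mo l')] :
    C.Gam T l l' = if C.mo l = C.mo l' then T.G (C.cd l) (C.cd l') else 0 := by
  unfold Gam; simp only [of_apply]; congr

theorem Gam_ne (T : Tw ι Δ) (C : Cf ι Δ M V L) {l l' : L} (h : C.mo l ≠ C.mo l') :
    C.Gam T l l' = 0 := by
  classical rw [Gam_apply, if_neg h]

theorem Gam_eq (T : Tw ι Δ) (C : Cf ι Δ M V L) {l l' : L} (h : C.mo l = C.mo l') :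
    C.Gam T l l' = T.G (C.cd l) (C.cd l') := by
  classical rw [Gam_apply, if_pos h]

theorem Gam_cen (T : Tw ι Δ) (C : Cf ι Δ M V L) (c : L → ℝ) : (C.cen c).Gam T = C.Gam T := rfl

theorem Gam_sub (T : Tw ι Δ) (C : Cf ι Δ M V L) (Q : L → Prop) :
    (C.sub Q).Gam T = bk (C.Gam T) Q := rfl

theorem ort_Gam (T : Tw ι Δ) (C : Cf ι Δ M V L) (c : ℝ) {P : L → Prop}
    (h : ∀ l l', C.mo l = C.mo l' → P l → P l') : Ort (c • C.Gam T) P := fun i j hi hj => by
  rw [Matrix.smul_apply, C.Gam_ne T fun h1 => hj (h i j h1 hi), smul_zero]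

variable [Fintype L]

theorem coeff_pt [DecidableEq ι] [DecidableEq M] (C : Cf ι Δ M V L) (x : L → ℝ) (a : ι) (m : M) :
    (C.pt x a).coeff m = ∑ l, if C.cd l = a ∧ C.mo l = m then x l else 0 := by
  unfold pt
  rw [AddMonoidAlgebra.coeff_sum, Finsupp.finsetSum_apply]
  refine sum_congr rfl fun l _ => ?_
  by_cases h : C.cd l = a <;> simp [h, Finsupp.single_apply]

theorem Ok.coeff_pt (h : C.Ok T) (x : L → ℝ) (l : L) :
    (C.pt x (C.cd l)).coeff (C.mo l) = x l := by
  classical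
  rw [Cf.coeff_pt, sum_eq_single l (fun b _ hb => if_neg fun h2 => hb (h.inj _ _ h2.1 h2.2))
    (fun h => (h (mem_univ l)).elim), if_pos ⟨rfl, rfl⟩]

theorem sup_pt (C : Cf ι Δ M V L) {P : M → Prop} {x : L → ℝ} (h : ∀ l, x l ≠ 0 → P (C.mo l))
    (a : ι) : Sup P (C.pt x a) := by
  refine Sup.sum _ fun l _ => ?_
  split_ifs
  · by_cases hx : x l = 0
    · rw [hx, AddMonoidAlgebra.single_zero]; exact Sup.zero P
    · exact Sup.single (h l hx) _
  · exact Sup.zero P

theorem pt_diff (C : Cf ι Δ M V L) (x x' : L → ℝ) (a : ι) :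
    C.pt x a - C.pt x' a = C.pt (x - x') a := by
  unfold pt
  rw [← sum_sub_distrib]
  refine sum_congr rfl fun l _ => ?_
  split_ifs
  · rw [Pi.sub_apply, AddMonoidAlgebra.single_sub]
  · exact sub_zero 0

theorem qq_Gam [Fintype ι] [DecidableEq M] (T : Tw ι Δ) (C : Cf ι Δ M V L)
    (x : L → ℝ) : qq (C.Gam T) x = ∑ m ∈ univ.image C.mo, qq T.G fun a => (C.pt x a).coeff m := by
  classical
  have h1 : ∀ m, (qq T.G fun a => (C.pt x a).coeff m) =
      ∑ l, ∑ l', if C.mo l = m ∧ C.mo l' = m then x l * (T.G (C.cd l) (C.cd l') * x l') else 0 := by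
    intro m
    have h2 : ∀ w : ι → ℝ, ∑ a, (C.pt x a).coeff m * w a =
        ∑ l, if C.mo l = m then x l * w (C.cd l) else 0 := fun w => by
      simp only [coeff_pt, sum_mul]
      rw [sum_comm]
      refine sum_congr rfl fun l _ => ?_
      by_cases h : C.mo l = m <;> simp [h]
    simp only [qq, dotProduct, mulVec]
    rw [h2]
    refine sum_congr rfl fun l _ => ?_
    simp only [mul_comm (T.G _ _)]
    rw [h2]
    by_cases h : C.mo l = m <;> simp [h, mul_sum]
  simp only [h1]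
  rw [sum_comm]
  simp only [qq, dotProduct, mulVec, mul_sum]
  refine sum_congr rfl fun l _ => ?_
  rw [sum_comm]
  refine sum_congr rfl fun l' _ => ?_
  rw [sum_eq_single (C.mo l) (fun b _ hb => if_neg fun h => hb h.1.symm)
    fun h => (h (mem_image_of_mem _ (mem_univ l))).elim, Gam_apply]
  by_cases h : C.mo l = C.mo l' <;> simp [h, eq_comm]

theorem Ok.posDef [Fintype ι] (h : C.Ok T) (hT : T.Ok) : (C.Gam T).PosDef := by
  classical
  refine PosDef.of_dotProduct_mulVec_pos ?_ fun x hx => ?_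
  · ext l l'
    have := hT.pd.1.apply (C.cd l) (C.cd l')
    simp only [conjTranspose_apply, star_trivial, Gam_apply] at this ⊢
    by_cases h1 : C.mo l = C.mo l'
    · rw [if_pos h1, if_pos h1.symm, this]
    · rw [if_neg h1, if_neg (Ne.symm h1)]
  · change 0 < qq _ x
    rw [qq_Gam]
    obtain ⟨l, hl⟩ := Function.ne_iff.1 hx
    refine sum_pos' (fun m _ => qq_nonneg hT.pd.posSemidef _)
      ⟨C.mo l, mem_image_of_mem _ (mem_univ l), hT.pd.dotProduct_mulVec_pos fun h0 => hl ?_⟩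
    exact (h.coeff_pt x l).symm.trans (congrFun h0 (C.cd l))

theorem val_eq (T : Tw ι Δ) (C : Cf ι Δ M V L) (x : L → ℝ) (a : ι) : C.val T x a =
    MvPolynomial.eval (C.pt x) (MvPolynomial.map (algebraMap ℝ (Alg M)) (T.q a) + C.R a) := by
  rw [val, map_add, MvPolynomial.eval_map, MvPolynomial.aeval_def]

theorem pt_congr (C : Cf ι Δ M V L) {x x' : L → ℝ} {a : ι} (h : ∀ l, C.cd l = a → x l = x' l) :
    C.pt x a = C.pt x' a := by
  refine sum_congr rfl fun l _ => ?_
  split_ifs with h1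
  · rw [h l h1]
  · rfl

theorem Ok.val_congr (h : C.Ok T) (hT : T.Ok) {x x' : L → ℝ} {a : ι}
    (hx : ∀ l, T.lv (C.cd l) < T.lv a → x l = x' l) : C.val T x a = C.val T x' a := by
  unfold val
  congr 1
  · exact MvPolynomial.eval₂Hom_congr' rfl
      (fun j hj _ => C.pt_congr fun l hl => hx l (hl ▸ hT.low a j hj)) rfl
  · exact MvPolynomial.eval₂Hom_congr' rfl
      (fun j hj _ => C.pt_congr fun l hl => hx l (hl ▸ h.Rlow a j hj)) rfl

theorem Ok.tri (h : C.Ok T) (hT : T.Ok) : Tri (fun l => T.lv (C.cd l)) (C.p T) := by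
  intro l z z' hz
  simp only [p, pr]
  rw [h.val_congr hT (x' := toR z') fun j hj => by rw [toR_apply, toR_apply, hz j hj]]

theorem p_cen (T : Tw ι Δ) (C : Cf ι Δ M V L) (c : L → ℝ) :
    (C.cen c).p T = fun z => C.p T z + c := by
  funext z l
  exact (add_assoc _ _ _).symm

theorem pt_sub (C : Cf ι Δ M V L) (Q : L → Prop) [DecidablePred Q] [Fintype {l // Q l}]
    (x : L → ℝ) (a : ι) :
    (C.sub Q).pt (rs Q x) a = C.pt (fun l => if Q l then x l else 0) a := by
  classical
  unfold pt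
  refine (sum_subtype (univ.filter Q) (by simp) fun l =>
    if C.cd l = a then AddMonoidAlgebra.single (C.mo l) (x l) else 0).symm.trans ?_
  rw [sum_filter]
  refine sum_congr rfl fun l _ => ?_
  by_cases h : Q l <;> simp [h]

theorem val_sub (T : Tw ι Δ) (C : Cf ι Δ M V L) (Q : L → Prop) [DecidablePred Q]
    [Fintype {l // Q l}] (x : L → ℝ) (a : ι) :
    (C.sub Q).val T (rs Q x) a = C.val T (fun l => if Q l then x l else 0) a := by
  unfold val
  rw [funext (C.pt_sub Q x)]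
  rfl

/-- outside an ideal of monomials the values depend only on the labels outside it -/
theorem val_ideal (T : Tw ι Δ) (C : Cf ι Δ M V L) {I : M → Prop}
    (hI : ∀ m m', I m → I (m + m')) {x x' : L → ℝ} (h : ∀ l, ¬ I (C.mo l) → x l = x' l) (a : ι)
    {m : M} (hm : ¬ I m) : (C.val T x a).coeff m = (C.val T x' a).coeff m := by
  have h1 := (Sup.eval_sub hI (x := C.pt x) (x' := C.pt x') (fun a => by
    rw [pt_diff]
    exact C.sup_pt (fun l hl => by_contra fun h2 => hl (sub_eq_zero.2 (h l h2))) a)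
    (MvPolynomial.map (algebraMap ℝ (Alg M)) (T.q a) + C.R a)).coeff hm
  rw [← val_eq, ← val_eq, AddMonoidAlgebra.coeff_sub, Finsupp.sub_apply] at h1
  exact sub_eq_zero.1 h1

theorem val_kill (T : Tw ι Δ) (C : Cf ι Δ M V L) {I : M → Prop} [DecidablePred I]
    (hI : ∀ m m', I m → I (m + m')) (x : L → ℝ) (a : ι) {m : M} (hm : ¬ I m) :
    (C.val T x a).coeff m = ((C.sub fun l => ¬ I (C.mo l)).val T (rs _ x) a).coeff m := by
  rw [val_sub]
  exact C.val_ideal T hI (fun l hl => (if_pos hl).symm) a hm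

theorem spl_kill (T : Tw ι Δ) (C : Cf ι Δ M V L) {I : M → Prop} [DecidablePred I]
    (hI : ∀ m m', I m → I (m + m')) :
    Spl (fun l => I (C.mo l)) (C.p T) ((C.sub fun l => ¬ I (C.mo l)).p T) := fun z l => by
  simp only [p, pr]
  rw [C.val_kill T hI _ _ l.2]
  rfl

theorem Ok.kill (h : C.Ok T) {I : M → Prop} (hI : ∀ m m', I m → I (m + m')) :
    (C.sub fun l => ¬ I (C.mo l)).Ok T :=
  h.sub fun _ _ m h1 h2 h3 => h1 (h2 ▸ hI _ m h3)

theorem Ok.val_low (h : C.Ok T) (hT : T.Ok) (D : ℕ) (x : L → ℝ) {a : ι} (ha : T.lv a ≤ D) :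
    C.val T x a = (C.sub fun l => ¬ T.lv (C.cd l) = D).val T (rs _ x) a := by
  rw [val_sub]
  exact h.val_congr hT fun l hl => (if_pos (by omega)).symm

theorem Ok.spl_low (h : C.Ok T) (hT : T.Ok) {D : ℕ} (hD : ∀ l, T.lv (C.cd l) ≤ D) :
    Spl (fun l => T.lv (C.cd l) = D) (C.p T) ((C.sub fun l => ¬ T.lv (C.cd l) = D).p T) :=
  fun z l => by
    simp only [p, pr]
    rw [h.val_low hT D _ (hD l)]
    rfl

theorem Ok.low (h : C.Ok T) (hT : T.Ok) {D : ℕ} (hD : ∀ l, T.lv (C.cd l) ≤ D) :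
    (C.sub fun l => ¬ T.lv (C.cd l) = D).Ok T :=
  h.sub fun l l' m h1 h2 h3 => by
    have h4 := congrArg C.dg h2
    rw [map_add, h.dg_mo hT, h.dg_mo hT] at h4
    have := hD l
    omega

end Cf

end

end Vale.Agent.P057PC
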