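import Vale.Agent.P057PC.Dom

/-!
The cube monoid: its algebra is the graded ring of functions on the subsets of `X`.
-/

set_option linter.unusedSectionVars false

open Matrix Finset

namespace Vale.Agent.P057PC

noncomputable section

section hom

variable {M ι : Type} [AddCommMonoid M]

theorem Sup.mono {P Q : M → Prop} {u : Alg M} (hu : Sup P u) (h : ∀ m, P m → Q m) : Sup Q u :=
  fun m hm => h m (hu m hm)

theorem Sup.sub {P : M → Prop} {u v : Alg M} (hu : Sup P u) (hv : Sup P v) : Sup P (u - v) :=
  sub_eq_add_neg u v ▸ hu.add hv.neg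

/-- homogeneous polynomials at homogeneous points -/
theorem Sup.eval_hom (dg : M →+ ℕ) {w : ι → ℕ} {x : ι → Alg M}
    (hx : ∀ a, Sup (fun m => dg m = w a) (x a)) {n : ℕ} {R : MvPolynomial ι (Alg M)}
    (hR : ∀ β, Sup (fun m => dg m + Finsupp.weight w β = n) (R.coeff β)) :
    Sup (fun m => dg m = n) (MvPolynomial.eval x R) := by
  classical
  rw [MvPolynomial.eval_eq]
  refine Sup.sum _ fun β _ => (hR β).mul (P' := fun m => dg m = Finsupp.weight w β) ?_
    fun m m' h1 h2 => by rw [map_add, h2, h1]
  rw [Finsupp.weight_apply, Finsupp.sum]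
  induction β.support using Finset.induction_on with
  | empty => exact Sup.single (P := fun m => dg m = 0) (map_zero dg) 1
  | insert a s ha ih =>
    rw [prod_insert ha, sum_insert ha]
    refine Sup.mul (P := fun m => dg m = β a • w a) ?_ ih fun m m' h1 h2 => by rw [map_add, h1, h2]
    induction β a with
    | zero => exact Sup.single (by simp) 1
    | succ k ih => rw [pow_succ]; exact ih.mul (hx a) fun m m' h1 h2 => by
                     rw [map_add, h1, h2, succ_nsmul]

theorem Sup.aeval_hom (dg : M →+ ℕ) {x : ι → Alg M} (hx : ∀ a, Sup (fun m => dg m = 1) (x a))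
    {P : ℕ → Prop} {R : MvPolynomial ι ℝ} (hR : ∀ μ, R.coeff μ ≠ 0 → P (Finsupp.degree μ)) :
    Sup (fun m => P (dg m)) (MvPolynomial.aeval x R) := by
  rw [R.as_sum, map_sum]
  refine Sup.sum _ fun μ hμ => ?_
  rw [MvPolynomial.aeval_def, ← MvPolynomial.eval_map]
  refine (Sup.eval_hom dg hx (n := Finsupp.degree μ) fun β => ?_).mono
    fun m hm => hm ▸ hR μ (MvPolynomial.mem_support_iff.1 hμ)
  classical
  rw [MvPolynomial.map_monomial, MvPolynomial.coeff_monomial]
  split_ifs with h
  · exact Sup.single (P := fun m => dg m + Finsupp.weight (fun _ => 1) β = Finsupp.degree μ)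
      (by rw [map_zero, zero_add, h, Finsupp.degree_eq_weight_one]) _
  · exact Sup.zero _

theorem Sup.aeval_pos (dg : M →+ ℕ) {x : ι → Alg M} (hx : ∀ a, Sup (fun m => dg m = 1) (x a))
    (R : MvPolynomial ι ℝ) : Sup (fun m => 0 < dg m)
      (MvPolynomial.aeval x R - algebraMap ℝ _ (MvPolynomial.constantCoeff R)) := by
  have := Sup.aeval_hom dg hx (P := fun n => 0 < n)
    (R := R - MvPolynomial.C (MvPolynomial.constantCoeff R)) fun μ hμ => by
      classical
      refine Nat.pos_of_ne_zero fun h => hμ ?_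
      rw [(Finsupp.degree_eq_zero_iff μ).1 h]
      simp [MvPolynomial.constantCoeff_eq]
  rwa [map_sub, MvPolynomial.aeval_C] at this

end hom

theorem sum_alt {X : Type*} [DecidableEq X] (A F : Finset X) :
    ∑ B ∈ A.powerset, (-1 : ℝ) ^ (A.card - B.card) * (if F ⊆ B then 1 else 0) =
      if F = A then 1 else 0 := by
  by_cases h : F ⊆ A
  · have h1 := sum_powerset_neg_one_pow_card (x := A \ F)
    have h2 : ∑ B ∈ (A \ F).powerset, (-1 : ℝ) ^ B.card = if F = A then 1 else 0 := by
      have := congrArg (Int.cast : ℤ → ℝ) h1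
      push_cast at this
      rw [this]
      exact if_congr ⟨fun h3 => h.antisymm (sdiff_eq_empty_iff_subset.1 h3),
        fun h3 => by simp [h3]⟩ rfl rfl
    rw [← h2]
    simp only [mul_ite, mul_one, mul_zero]
    rw [← sum_filter]
    refine sum_nbij' (fun B => A \ B) (fun B => A \ B) (fun B hB => ?_) (fun B hB => ?_)
      (fun B hB => ?_) (fun B hB => ?_) fun B hB => ?_
    · exact mem_powerset.2 (sdiff_subset_sdiff subset_rfl (mem_filter.1 hB).2)
    · refine mem_filter.2 ⟨mem_powerset.2 sdiff_subset, fun x hx => mem_sdiff.2 ⟨h hx, fun h3 => ?_⟩⟩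
      exact (mem_sdiff.1 (mem_powerset.1 hB h3)).2 hx
    · exact Finset.sdiff_sdiff_eq_self (mem_powerset.1 (mem_filter.1 hB).1)
    · exact Finset.sdiff_sdiff_eq_self ((mem_powerset.1 hB).trans sdiff_subset)
    · rw [card_sdiff_of_subset (mem_powerset.1 (mem_filter.1 hB).1)]
  · rw [if_neg fun h1 : F = A => h h1.subset]
    exact sum_eq_zero fun B hB => by
      rw [if_neg fun h1 : F ⊆ B => h (h1.trans (mem_powerset.1 hB)), mul_zero]

/-- the cube monoid -/
@[ext] structure CM (X : Type) where
  d : ℕ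
  F : Finset X
  h : F.card ≤ d

namespace CM

variable {X : Type} [DecidableEq X]

instance : Zero (CM X) := ⟨⟨0, ∅, le_rfl⟩⟩

instance : Add (CM X) :=
  ⟨fun a b => ⟨a.d + b.d, a.F ∪ b.F, (card_union_le _ _).trans (add_le_add a.h b.h)⟩⟩

@[simp] theorem add_d (a b : CM X) : (a + b).d = a.d + b.d := rfl
@[simp] theorem add_F (a b : CM X) : (a + b).F = a.F ∪ b.F := rfl
@[simp] theorem zero_d : (0 : CM X).d = 0 := rfl
@[simp] theorem zero_F : (0 : CM X).F = ∅ := rfl

instance : AddCommMonoid (CM X) where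
  add_assoc a b c := CM.ext (add_assoc _ _ _) (union_assoc _ _ _)
  zero_add a := CM.ext (zero_add _) (empty_union _)
  add_zero a := CM.ext (add_zero _) (union_empty _)
  add_comm a b := CM.ext (add_comm _ _) (union_comm _ _)
  nsmul := nsmulRec

/-- the degree -/
def dg (X : Type) [DecidableEq X] : CM X →+ ℕ where
  toFun := CM.d
  map_zero' := rfl
  map_add' _ _ := rfl

/-- the generator of a vertex -/
def gen (x : X) : CM X := ⟨1, {x}, by simp⟩

/-- the base point -/
def base : CM X := ⟨1, ∅, by simp⟩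

theorem sum_gen (s : Multiset X) :
    (s.map gen).sum.d = Multiset.card s ∧ (s.map gen).sum.F = s.toFinset := by
  induction s using Multiset.induction_on with
  | empty => simp
  | cons x s ih => simp [ih.1, ih.2, gen, add_comm]

theorem eq_sum_gen (a : CM X) {x : X} (hx : x ∈ a.F ∨ a.F.card = a.d) :
    a = ((a.F.val + Multiset.replicate (a.d - a.F.card) x).map gen).sum := by
  refine CM.ext ?_ ?_
  · rw [(sum_gen _).1, Multiset.card_add, Multiset.card_replicate, card_val, Nat.add_sub_cancel' a.h]
  · rw [(sum_gen _).2]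
    ext y
    simp only [Multiset.mem_toFinset, Multiset.mem_add, mem_val, Multiset.mem_replicate]
    refine ⟨Or.inl, fun h => h.elim id fun h => ?_⟩
    exact hx.elim (h.2 ▸ id) fun h1 => (h.1 (by omega)).elim

/-- the value at the point `B` -/
def ev (B : Finset X) : Alg (CM X) →ₐ[ℝ] ℝ :=
  AddMonoidAlgebra.lift ℝ ℝ (CM X)
    { toFun a := if a.toAdd.F ⊆ B then 1 else 0
      map_one' := if_pos (empty_subset B)
      map_mul' a b := by
        simp only [toAdd_mul, add_F, union_subset_iff]
        by_cases h1 : a.toAdd.F ⊆ B <;> by_cases h2 : b.toAdd.F ⊆ B <;> simp [h1, h2] }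

theorem ev_single (B : Finset X) (a : CM X) (r : ℝ) :
    ev B (AddMonoidAlgebra.single a r) = if a.F ⊆ B then r else 0 := by
  rw [ev, AddMonoidAlgebra.lift_single]
  change r • (if a.F ⊆ B then (1 : ℝ) else 0) = _
  split_ifs <;> simp

end CM

end

end Vale.Agent.P057PC
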