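import Vale.Agent.P057PC.Alg

/-!
Doubling a generator: the fibre product of a configuration with itself over the quotient.
-/

set_option linter.unusedSectionVars false

open Matrix Finset
open Vale.Agent.P267.H775 Vale.Agent.P057G

namespace Vale.Agent.P057PC

noncomputable section

variable {ι Δ M V L : Type} [AddCommMonoid M]

/-- monomials of the doubled ring: diagonal ones, and flagged multiples of `u` -/
@[ext] structure DM (u : M) where
  m : M
  f : Bool
  h : f = true → ∃ m', m = u + m'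

namespace DM

variable {u : M}

instance : Zero (DM u) := ⟨⟨0, false, fun h => by cases h⟩⟩

instance : Add (DM u) := ⟨fun a b => ⟨a.m + b.m, a.f || b.f, fun h => by
  rcases Bool.or_eq_true_iff.1 h with h | h
  · obtain ⟨c, hc⟩ := a.h h
    exact ⟨c + b.m, by rw [hc, add_assoc]⟩
  · obtain ⟨c, hc⟩ := b.h h
    exact ⟨c + a.m, by rw [hc, add_comm, add_assoc]⟩⟩⟩

@[simp] theorem add_m (a b : DM u) : (a + b).m = a.m + b.m := rfl
@[simp] theorem add_f (a b : DM u) : (a + b).f = (a.f || b.f) := rfl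
@[simp] theorem zero_m : (0 : DM u).m = 0 := rfl
@[simp] theorem zero_f : (0 : DM u).f = false := rfl

instance : AddCommMonoid (DM u) where
  add_assoc a b c := DM.ext (add_assoc _ _ _) (Bool.or_assoc _ _ _)
  zero_add a := DM.ext (zero_add _) (Bool.false_or _)
  add_zero a := DM.ext (add_zero _) (Bool.or_false _)
  add_comm a b := DM.ext (add_comm _ _) (Bool.or_comm _ _)
  nsmul := nsmulRec

/-- diagonal monomials -/
def diag (u : M) : M →+ DM u where
  toFun m := ⟨m, false, fun h => by cases h⟩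
  map_zero' := rfl
  map_add' _ _ := rfl

/-- the underlying monomial -/
def fst (u : M) : DM u →+ M where
  toFun := DM.m
  map_zero' := rfl
  map_add' _ _ := rfl

/-- flagged monomials -/
def flag (m : M) (h : ∃ m', m = u + m') : DM u := ⟨m, true, fun _ => h⟩

@[simp] theorem diag_m (m : M) : (diag u m).m = m := rfl
@[simp] theorem diag_f (m : M) : (diag u m).f = false := rfl
@[simp] theorem flag_m (m : M) (h) : (flag (u := u) m h).m = m := rfl
@[simp] theorem flag_f (m : M) (h) : (flag (u := u) m h).f = true := rfl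
@[simp] theorem fst_apply (a : DM u) : fst u a = a.m := rfl

/-- the first projection -/
def p1 (u : M) : Alg (DM u) →ₐ[ℝ] Alg M :=
  AddMonoidAlgebra.lift ℝ (Alg M) (DM u)
    { toFun a := if a.toAdd.f then 0 else AddMonoidAlgebra.single a.toAdd.m 1
      map_one' := rfl
      map_mul' a b := by
        simp only [toAdd_mul, add_f, add_m]
        cases a.toAdd.f <;> cases b.toAdd.f <;> simp [AddMonoidAlgebra.single_mul_single] }

/-- the second projection -/
def p2 (u : M) : Alg (DM u) →ₐ[ℝ] Alg M := AddMonoidAlgebra.mapDomainAlgHom ℝ ℝ (fst u)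

/-- the diagonal embedding -/
def dg (u : M) : Alg M →ₐ[ℝ] Alg (DM u) := AddMonoidAlgebra.mapDomainAlgHom ℝ ℝ (diag u)

theorem p1_single (a : DM u) (r : ℝ) : p1 u (AddMonoidAlgebra.single a r) =
    if a.f then 0 else AddMonoidAlgebra.single a.m r := by
  rw [p1, AddMonoidAlgebra.lift_single]
  change r • (if a.f then 0 else AddMonoidAlgebra.single a.m 1 : Alg M) = _
  split_ifs <;> simp

theorem p2_single (a : DM u) (r : ℝ) :
    p2 u (AddMonoidAlgebra.single a r) = AddMonoidAlgebra.single a.m r := by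
  simp [p2]

theorem dg_single (m : M) (r : ℝ) :
    dg u (AddMonoidAlgebra.single m r) = AddMonoidAlgebra.single (diag u m) r := by
  simp [dg]

theorem p1_dg (w : Alg M) : p1 u (dg u w) = w := by
  induction w using AddMonoidAlgebra.induction_linear with
  | zero => simp
  | add a b ha hb => rw [map_add, map_add, ha, hb]
  | single m r => rw [dg_single, p1_single]; rfl

theorem p2_dg (w : Alg M) : p2 u (dg u w) = w := by
  induction w using AddMonoidAlgebra.induction_linear with
  | zero => simp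
  | add a b ha hb => rw [map_add, map_add, ha, hb]
  | single m r => rw [dg_single, p2_single]; rfl

theorem coeff_diag (w : Alg (DM u)) (m : M) : w.coeff (diag u m) = (p1 u w).coeff m := by
  classical
  induction w using AddMonoidAlgebra.induction_linear with
  | zero => simp
  | add a b ha hb => simp [ha, hb]
  | single a r =>
    rw [p1_single]
    obtain ⟨m', f, h⟩ := a
    cases f <;> simp [Finsupp.single_apply, DM.ext_iff]

theorem pa_flag (κ : M → ℝ) (w : Alg (DM u)) :
    pa (fun a : DM u => if a.f then κ a.m else 0) w = pa κ (p2 u w) - pa κ (p1 u w) := by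
  induction w using AddMonoidAlgebra.induction_linear with
  | zero => simp
  | add a b ha hb => simp only [map_add, ha, hb]; ring
  | single a r =>
    rw [p1_single, p2_single, pa_single, pa_single]
    split_ifs
    · simp
    · rw [pa_single]; simp

theorem coeff_flag (w : Alg (DM u)) (m : M) (h) :
    w.coeff (flag m h) = (p2 u w).coeff m - (p1 u w).coeff m := by
  classical
  induction w using AddMonoidAlgebra.induction_linear with
  | zero => simp
  | add a b ha hb =>
    simp only [map_add, AddMonoidAlgebra.coeff_add, Finsupp.add_apply, ha, hb]; ring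
  | single a r =>
    rw [p1_single, p2_single]
    obtain ⟨m', f, h⟩ := a
    cases f <;> simp [Finsupp.single_apply, DM.ext_iff]

theorem sup_dg {P : M → Prop} {w : Alg M} (hw : Sup P w) :
    Sup (fun a : DM u => a.f = false ∧ P a.m) (dg u w) := by
  rintro ⟨m, f, h⟩ ha
  cases f
  · refine ⟨rfl, hw m ?_⟩
    have := coeff_diag (dg u w) m
    rw [p1_dg] at this
    exact this ▸ ha
  · have := coeff_flag (dg u w) m (h rfl)
    rw [p1_dg, p2_dg, sub_self] at this
    exact (ha this).elim

end DM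

theorem hom_eval {A B : Type*} [CommRing A] [CommRing B] [Algebra ℝ A] [Algebra ℝ B]
    (φ : A →ₐ[ℝ] B) (ψ : B →+* A) (h : ∀ b, φ (ψ b) = b) (x : ι → A) (R : MvPolynomial ι B) :
    φ (MvPolynomial.eval x (MvPolynomial.map ψ R)) = MvPolynomial.eval (fun a => φ (x a)) R := by
  induction R using MvPolynomial.induction_on with
  | C a => simp [h]
  | add p q hp hq => simp only [map_add, hp, hq]
  | mul_X p a hp => simp only [map_mul, hp, MvPolynomial.map_X, MvPolynomial.eval_X]

namespace Cf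

variable {T : Tw ι Δ} {C : Cf ι Δ M V L}

/-- the configuration with the generator `v` doubled, in difference coordinates -/
def dbl (C : Cf ι Δ M V L) (v : V) :
    Cf ι Δ (DM (C.y v)) (Option V) (L ⊕ {l // C.Dv v (C.mo l)}) where
  dg := C.dg.comp (DM.fst _)
  y w := w.elim (DM.flag (C.y v) ⟨0, (add_zero _).symm⟩) fun w => DM.diag _ (C.y w)
  cl w := w.elim (C.cl v) C.cl
  cd := Sum.elim C.cd fun l => C.cd l
  mo := Sum.elim (fun l => DM.diag _ (C.mo l)) fun l => DM.flag (C.mo l) l.2
  R a := MvPolynomial.map (DM.dg _).toRingHom (C.R a)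
  ce := Sum.elim C.ce 0

theorem dbl_y_m (v : V) (w : Option V) : ((C.dbl v).y w).m = C.y (w.getD v) := by
  cases w <;> rfl

theorem dbl_cl (v : V) (w : Option V) : (C.dbl v).cl w = C.cl (w.getD v) := by
  cases w <;> rfl

theorem dbl_ys_m (v : V) (s : Multiset (Option V)) :
    ((C.dbl v).ys s).m = C.ys (s.map fun w => w.getD v) := by
  induction s using Multiset.induction_on with
  | empty => rfl
  | cons w s ih => rw [ys_cons, DM.add_m, ih, Multiset.map_cons, ys_cons, dbl_y_m]

theorem dbl_ys_f (v : V) (s : Multiset (Option V)) :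
    ((C.dbl v).ys s).f = true ↔ none ∈ s := by
  induction s using Multiset.induction_on with
  | empty => simp [ys]
  | cons w s ih =>
    rw [ys_cons, DM.add_f, Bool.or_eq_true, ih, Multiset.mem_cons]
    cases w <;> simp [dbl]

theorem dbl_ys_some (v : V) (s : Multiset V) :
    (C.dbl v).ys (s.map some) = DM.diag _ (C.ys s) := by
  refine DM.ext ?_ ?_
  · rw [dbl_ys_m, Multiset.map_map]; simp
  · rw [DM.diag_f, ← Bool.not_eq_true, dbl_ys_f]; simp

theorem dbl_ys_none (v : V) (s : Multiset V) {m : M} (h : m = C.y v + C.ys s) (h') :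
    (C.dbl v).ys (none ::ₘ s.map some) = DM.flag m h' := by
  rw [ys_cons, dbl_ys_some]
  exact DM.ext h.symm rfl

theorem Ok.dbl (h : C.Ok T) (v : V) : (C.dbl v).Ok T := by
  refine ⟨fun w => ?_, fun m w => ?_, ?_, ?_, fun l s hs => ?_, fun l s m a hs ha => ?_,
    fun a j hj => h.Rlow a j (MvPolynomial.vars_map _ _ hj), fun a β m hm => ?_⟩
  · change C.dg ((C.dbl v).y w).m = 1
    rw [dbl_y_m, h.dy]
  · obtain ⟨m, f, hf⟩ := m
    cases f
    · obtain ⟨s, hs⟩ := h.abs m (w.getD v)
      refine ⟨s.map some, DM.ext ?_ ?_⟩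
      · rw [DM.add_m, DM.add_m, dbl_ys_some, dbl_y_m]; exact hs
      · rw [dbl_ys_some]; rfl
    · obtain ⟨s, hs⟩ := h.dv (hf rfl)
      exact ⟨none ::ₘ s.map some, by rw [dbl_ys_none v s hs (hf rfl)]; rfl⟩
  · rintro (l | l) (l' | l') h1 h2
    · rw [h.inj l l' h1 (congrArg DM.m h2)]
    · cases congrArg DM.f h2
    · cases congrArg DM.f h2
    · rw [Subtype.ext (h.inj l l' h1 (congrArg DM.m h2))]
  · rintro (l | l)
    · obtain ⟨s, hs⟩ := h.gen l
      exact ⟨s.map some, by rw [dbl_ys_some, ← hs]; rfl⟩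
    · obtain ⟨s, hs⟩ := h.dv l.2
      exact ⟨none ::ₘ s.map some, (dbl_ys_none v s hs l.2).symm⟩
  · have h1 := congrArg DM.m hs
    rw [dbl_ys_m] at h1
    have h2 : s.map (C.dbl v).cl = (s.map fun w => w.getD v).map C.cl := by
      rw [Multiset.map_map]; exact Multiset.map_congr rfl fun w _ => dbl_cl v w
    rw [h2]
    rcases l with l | l
    exacts [h.lab1 l _ h1, h.lab1 l _ h1]
  · have h1 := congrArg DM.m hs
    rw [DM.add_m, dbl_ys_m] at h1
    have h2 : s.map (C.dbl v).cl = (s.map fun w => w.getD v).map C.cl := by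
      rw [Multiset.map_map]; exact Multiset.map_congr rfl fun w _ => dbl_cl v w
    rw [h2] at ha
    obtain ⟨l', h3, h4⟩ : ∃ l', C.cd l' = a ∧ C.mo l' = C.ys (s.map fun w => w.getD v) := by
      rcases l with l | l
      exacts [h.lab2 l _ _ a h1 ha, h.lab2 l _ _ a h1 ha]
    by_cases hn : none ∈ s
    · refine ⟨Sum.inr ⟨l', h4 ▸ dv_ys (Multiset.mem_map_of_mem (fun w => w.getD v) hn)⟩, h3,
        DM.ext (h4.trans (dbl_ys_m v s).symm) ((dbl_ys_f v s).2 hn).symm⟩
    · refine ⟨Sum.inl l', h3, DM.ext (h4.trans (dbl_ys_m v s).symm) ?_⟩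
      exact (Bool.eq_false_iff.2 fun h5 => hn ((dbl_ys_f v s).1 h5)).symm
  · change ((MvPolynomial.map (DM.dg _).toRingHom (C.R a)).coeff β).coeff m ≠ 0 at hm
    rw [MvPolynomial.coeff_map] at hm
    exact (DM.sup_dg (h.Rpos a β) m hm).2

theorem Gam_dbl (T : Tw ι Δ) (C : Cf ι Δ M V L) (v : V) : (C.dbl v).Gam T =
    fromBlocks (C.Gam T) 0 0 (bk (C.Gam T) fun l => C.Dv v (C.mo l)) := by
  classical
  ext (l | l) (l' | l')
  · rw [Gam_apply, fromBlocks_apply₁₁, Gam_apply]
    exact if_congr ⟨fun h => congrArg DM.m h, fun h => congrArg (DM.diag _) h⟩ rfl rfl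
  · exact Gam_ne T _ fun h => by cases congrArg DM.f h
  · exact Gam_ne T _ fun h => by cases congrArg DM.f h
  · rw [Gam_apply, fromBlocks_apply₂₂, bk, submatrix_apply, Gam_apply]
    exact if_congr ⟨fun h => congrArg DM.m h, fun h => DM.ext h rfl⟩ rfl rfl

variable [Fintype L]

theorem p1_pt (C : Cf ι Δ M V L) (v : V) [DecidablePred fun l => C.Dv v (C.mo l)]
    (z : L ⊕ {l // C.Dv v (C.mo l)} → ℤ) (a : ι) :
    DM.p1 _ ((C.dbl v).pt (toR z) a) = C.pt (toR (z1 _ z)) a := by
  unfold pt
  rw [map_sum, Fintype.sum_sum_type, sum_eq_zero (s := (univ : Finset {l // C.Dv v (C.mo l)})),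
    add_zero]
  · refine sum_congr rfl fun l _ => ?_
    rw [apply_ite (DM.p1 _), map_zero, DM.p1_single]; rfl
  · intro l _
    rw [apply_ite (DM.p1 _), map_zero, DM.p1_single]; exact ite_self _

theorem p2_pt (C : Cf ι Δ M V L) (v : V) [DecidablePred fun l => C.Dv v (C.mo l)]
    (z : L ⊕ {l // C.Dv v (C.mo l)} → ℤ) (a : ι) :
    DM.p2 _ ((C.dbl v).pt (toR z) a) = C.pt (toR (z2 _ z)) a := by
  classical
  have h1 := C.pt_sub (fun l => C.Dv v (C.mo l))
    (fun l => if h : C.Dv v (C.mo l) then (z (Sum.inr ⟨l, h⟩) : ℝ) else 0) a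
  have h2 := C.pt_diff (toR (z2 _ z)) (toR (z1 _ z)) a
  have h3 : toR (z2 _ z) - toR (z1 _ z) = fun l => if C.Dv v (C.mo l) then
      (if h : C.Dv v (C.mo l) then (z (Sum.inr ⟨l, h⟩) : ℝ) else 0) else 0 := by
    funext l
    simp only [Pi.sub_apply, toR_apply, z1, z2]
    split_ifs <;> simp
  rw [h3, ← h1, sub_eq_iff_eq_add'] at h2
  rw [h2]
  unfold pt
  rw [map_sum, Fintype.sum_sum_type]
  congr 1
  · refine sum_congr rfl fun l _ => ?_
    rw [apply_ite (DM.p2 _), map_zero, DM.p2_single]; rfl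
  · refine sum_congr rfl fun l _ => ?_
    rw [apply_ite (DM.p2 _), map_zero, DM.p2_single]
    simp only [rs, dif_pos l.2]; rfl

theorem p1_val (T : Tw ι Δ) (C : Cf ι Δ M V L) (v : V) [DecidablePred fun l => C.Dv v (C.mo l)]
    (z : L ⊕ {l // C.Dv v (C.mo l)} → ℤ) (a : ι) :
    DM.p1 _ ((C.dbl v).val T (toR z) a) = C.val T (toR (z1 _ z)) a := by
  unfold val
  have h := hom_eval (DM.p1 (C.y v)) (DM.dg (C.y v)).toRingHom DM.p1_dg
    ((C.dbl v).pt (toR z)) (C.R a)
  rw [funext (C.p1_pt v z)] at h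
  rw [map_add, MvPolynomial.comp_aeval_apply, funext (C.p1_pt v z), ← h]
  rfl

theorem p2_val (T : Tw ι Δ) (C : Cf ι Δ M V L) (v : V) [DecidablePred fun l => C.Dv v (C.mo l)]
    (z : L ⊕ {l // C.Dv v (C.mo l)} → ℤ) (a : ι) :
    DM.p2 _ ((C.dbl v).val T (toR z) a) = C.val T (toR (z2 _ z)) a := by
  unfold val
  have h := hom_eval (DM.p2 (C.y v)) (DM.dg (C.y v)).toRingHom DM.p2_dg
    ((C.dbl v).pt (toR z)) (C.R a)
  rw [funext (C.p2_pt v z)] at h
  rw [map_add, MvPolynomial.comp_aeval_apply, funext (C.p2_pt v z), ← h]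
  rfl

theorem p_dbl (T : Tw ι Δ) (C : Cf ι Δ M V L) (v : V) [DecidablePred fun l => C.Dv v (C.mo l)] :
    (C.dbl v).p T = pd (fun l => C.Dv v (C.mo l)) (C.p T) := by
  funext z l
  rcases l with l | l
  · change ((C.dbl v).val T (toR z) (C.cd l)).coeff (DM.diag _ (C.mo l)) + C.ce l = _
    rw [DM.coeff_diag, p1_val]; rfl
  · change ((C.dbl v).val T (toR z) (C.cd l)).coeff (DM.flag (C.mo l) l.2) + 0 = _
    rw [DM.coeff_flag _ (C.mo l) l.2, p1_val, p2_val]
    simp only [pd, Sum.elim_inr, p, pr]; ring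

end Cf

end

end Vale.Agent.P057PC
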