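import Vale.Agent.P057PC.Top
import Mathlib.Algebra.MvPolynomial.Variables
import Mathlib.Algebra.MvPolynomial.CommRing
import Mathlib.Algebra.MonoidAlgebra.Support
import Mathlib.Algebra.MonoidAlgebra.Module

/-!
Polynomial towers and their configurations over a monoid of monomials.
-/

open Matrix Finset
open Vale.Agent.P267.H775 Vale.Agent.P057G

namespace Vale.Agent.P057PC

noncomputable section

/-- the algebra spanned by the monomials -/
abbrev Alg (M : Type) := AddMonoidAlgebra ℝ M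

/-- a tower: levels, polynomials, Gram matrix, allowed patterns of classes -/
structure Tw (ι Δ : Type) where
  lv : ι → ℕ
  q : ι → MvPolynomial ι ℝ
  G : Matrix ι ι ℝ
  al : ι → Multiset Δ → Prop

structure Tw.Ok {ι Δ : Type} (T : Tw ι Δ) : Prop where
  pos : ∀ a, 0 < T.lv a
  low : ∀ a, ∀ j ∈ (T.q a).vars, T.lv j < T.lv a
  pd : T.G.PosDef
  alc : ∀ a s, T.al a s → Multiset.card s = T.lv a

/-- a configuration: monomials `M` with a degree, generators `V` with classes, labels `L` (a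
coordinate of the tower and a monomial), lower order terms `R`, centres `ce` -/
structure Cf (ι Δ M V L : Type) [AddCommMonoid M] where
  dg : M →+ ℕ
  y : V → M
  cl : V → Δ
  cd : L → ι
  mo : L → M
  R : ι → MvPolynomial ι (Alg M)
  ce : L → ℝ

variable {ι Δ M V L : Type} [AddCommMonoid M]

namespace Cf

/-- a product of generators -/
def ys (C : Cf ι Δ M V L) (s : Multiset V) : M := (s.map C.y).sum

/-- the generator `v` divides `m` -/
def Dv (C : Cf ι Δ M V L) (v : V) (m : M) : Prop := ∃ m', m = C.y v + m'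

structure Ok (T : Tw ι Δ) (C : Cf ι Δ M V L) : Prop where
  dy : ∀ v, C.dg (C.y v) = 1
  abs : ∀ m v, ∃ s, C.y v + m = C.y v + C.ys s
  inj : ∀ l l', C.cd l = C.cd l' → C.mo l = C.mo l' → l = l'
  gen : ∀ l, ∃ s, C.mo l = C.ys s
  lab1 : ∀ l s, C.mo l = C.ys s → T.al (C.cd l) (s.map C.cl)
  lab2 : ∀ l s m a, C.mo l = C.ys s + m → T.al a (s.map C.cl) →
    ∃ l', C.cd l' = a ∧ C.mo l' = C.ys s
  Rlow : ∀ a, ∀ j ∈ (C.R a).vars, T.lv j < T.lv a
  Rpos : ∀ a β m, ((C.R a).coeff β).coeff m ≠ 0 → 0 < C.dg m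

open Classical in
/-- the Gram matrix: one block of the tower for each monomial -/
def Gam (T : Tw ι Δ) (C : Cf ι Δ M V L) : Matrix L L ℝ :=
  Matrix.of fun l l' => if C.mo l = C.mo l' then T.G (C.cd l) (C.cd l') else 0

/-- the same configuration with other centres -/
def cen (C : Cf ι Δ M V L) (c : L → ℝ) : Cf ι Δ M V L := { C with ce := C.ce + c }

/-- the labels in `Q` -/
def sub (C : Cf ι Δ M V L) (Q : L → Prop) : Cf ι Δ M V {l // Q l} where
  dg := C.dg
  y := C.y
  cl := C.cl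
  cd l := C.cd l
  mo l := C.mo l
  R := C.R
  ce l := C.ce l

variable [Fintype L]

open Classical in
/-- the point of the tower with coefficients `x` -/
def pt (C : Cf ι Δ M V L) (x : L → ℝ) (a : ι) : Alg M :=
  ∑ l, if C.cd l = a then AddMonoidAlgebra.single (C.mo l) (x l) else 0

/-- the value of the polynomial of the coordinate `a` -/
def val (T : Tw ι Δ) (C : Cf ι Δ M V L) (x : L → ℝ) (a : ι) : Alg M :=
  MvPolynomial.aeval (C.pt x) (T.q a) + MvPolynomial.eval (C.pt x) (C.R a)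

/-- the centres of the Gaussians, real arguments -/
def pr (T : Tw ι Δ) (C : Cf ι Δ M V L) (x : L → ℝ) (l : L) : ℝ :=
  (C.val T x (C.cd l)).coeff (C.mo l) + C.ce l

/-- the centres of the Gaussians -/
def p (T : Tw ι Δ) (C : Cf ι Δ M V L) (z : L → ℤ) : L → ℝ := C.pr T (toR z)

end Cf

/-- labels of the cube system with the pattern `σ`: proper faces -/
abbrev EL (T : Tw ι Δ) {D : ℕ} (σ : Fin D → Δ) : Type :=
  {x : ι × Finset (Fin D) // x.2 ≠ univ ∧ T.al x.1 (x.2.val.map σ)}

/-- the multilinear cube system, without its top face -/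
def cube (T : Tw ι Δ) {D : ℕ} (σ : Fin D → Δ) (c : EL T σ → ℝ) :
    Cf ι Δ (Multiset (Fin D)) (Fin D) (EL T σ) where
  dg := Multiset.cardHom
  y t := {t}
  cl := σ
  cd x := x.1.1
  mo x := x.1.2.val
  R _ := 0
  ce := c

instance (T : Tw ι Δ) [Finite ι] {D : ℕ} (σ : Fin D → Δ) : Fintype (EL T σ) := Fintype.ofFinite _

variable [Fintype ι]

/-- the frequency `k` lives on the pattern `s` and has dual norm squared at most `H` -/
def Tw.Sm (T : Tw ι Δ) (s : Multiset Δ) (H : ℝ) (k : ι → ℤ) : Prop :=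
  (∀ a, k a ≠ 0 → T.al a s) ∧
    ∀ x : ι → ℝ, (∀ a, x a ≠ 0 → T.al a s) → (toR k ⬝ᵥ x) ^ 2 ≤ H * qq T.G x

/-- the phase on the top face of the cube system -/
def topPh (T : Tw ι Δ) {D : ℕ} (σ : Fin D → Δ) (k : ι → ℤ) (x : EL T σ → ℝ) : ℝ :=
  ∑ a, k a * ((cube T σ 0).val T x a).coeff univ.val

variable [DecidableEq ι]

/-- regularity at level `D`: no short frequency is biased on the cube system -/
def Tw.Reg (T : Tw ι Δ) (D : ℕ) (Λ H δ : ℝ) : Prop :=
  ∀ (σ : Fin D → Δ) (c : EL T σ → ℝ) (k : ι → ℤ), k ≠ 0 → T.Sm (univ.val.map σ) H k →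
    ‖Ex (Λ • (cube T σ c).Gam T) ((cube T σ c).p T) fun z => ee (topPh T σ k (toR z))‖ ≤ δ

open Classical in
/-- a bound for the dual theta values at level `D` -/
def Tw.Th (T : Tw ι Δ) (D : ℕ) (Λ B : ℝ) : Prop :=
  ∀ s : Multiset Δ, Multiset.card s = D → ms (Λ • bk T.G fun a => T.al a s) (fun _ => 0) ≤ B

/-- all configurations with levels at most `d` and at most `N` generators have mass one, for all
Gram matrices below `Λ` times the standard one -/
def Tw.LF (T : Tw ι Δ) (d N : ℕ) (Λ η : ℝ) : Prop :=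
  ∀ (M V L : Type) [AddCommMonoid M] [Fintype V] [Fintype L] [DecidableEq L] (C : Cf ι Δ M V L),
    C.Ok T → Fintype.card V ≤ N → (∀ l, T.lv (C.cd l) ≤ d) → ∀ A : Matrix L L ℝ, A.PosDef →
      (∀ v, qq A v ≤ Λ * qq (C.Gam T) v) → |ms A (C.p T) - 1| ≤ η

end

end Vale.Agent.P057PC
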