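import Vale.Agent.P057PC.Blow
import Vale.Agent.P057RH.Br

/-!
Local systems dominated by a configuration: all their blow-ups have mass one.
-/

set_option linter.unusedSectionVars false

open Matrix Finset Real
open Vale.Agent.P267.H775 Vale.Agent.P057G Vale.Agent.P057ST Vale.Agent.P057MA Vale.Agent.P057RH

namespace Vale.Agent.P057PC

noncomputable section

section fine

variable {L K : Type} [Fintype L] [DecidableEq L] [Fintype K] [DecidableEq K]

/-- mass one for all Gram matrices below `Γ` and all centres -/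
def Fine (Γ : Matrix L L ℝ) (p : (L → ℤ) → L → ℝ) (η : ℝ) : Prop :=
  ∀ (A : Matrix L L ℝ) (c : L → ℝ), A.PosDef → (∀ v, qq A v ≤ qq Γ v) →
    |ms A (fun z => p z + c) - 1| ≤ η

variable {lv : L → ℕ} {p : (L → ℤ) → L → ℝ} {Γ : Matrix L L ℝ} {η : ℝ}

theorem Fine.mono {Γ' : Matrix L L ℝ} (h : Fine Γ p η) (hΓ : ∀ v, qq Γ' v ≤ qq Γ v) :
    Fine Γ' p η := fun A c hA hle => h A c hA fun v => (hle v).trans (hΓ v)

theorem Fine.self (h : Fine Γ p η) {A : Matrix L L ℝ} (hA : A.PosDef)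
    (hle : ∀ v, qq A v ≤ qq Γ v) : |ms A p - 1| ≤ η := by
  simpa using h A 0 hA hle

theorem sec_inj {e : K → L} {S : Matrix K L ℤ} (hS : ∀ k k', S k (e k') = (1 : Matrix K K ℤ) k k') :
    Function.Injective e := fun k k' h => by
  by_contra h1
  have := hS k k'
  rw [← h, hS, one_apply_eq, one_apply_ne h1] at this
  exact one_ne_zero this

theorem sec_extend {e : K → L} {S : Matrix K L ℤ}
    (hS : ∀ k k', S k (e k') = (1 : Matrix K K ℤ) k k') {R : Type} [CommRing R] (c : K → R) :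
    S.map (Int.cast : ℤ → R) *ᵥ Function.extend e c 0 = c := by
  funext k
  rw [mulVec, dotProduct, ← sum_subset (subset_univ (univ.image e)) fun l _ hl => ?_,
    sum_image fun _ _ _ _ h => sec_inj hS h]
  · simp [(sec_inj hS).extend_apply, hS, one_apply]
  · rw [Function.extend_apply' _ _ _ (by simpa using hl)]; simp

theorem tri_transfer (hp : Tri lv p) {e : K → L} {S : Matrix K L ℤ}
    (hS : ∀ k k', S k (e k') = (1 : Matrix K K ℤ) k k')
    (hlv : ∀ k l, S k l ≠ 0 → lv l ≤ lv (e k)) {p' : (K → ℤ) → K → ℝ}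
    (hp' : ∀ z, p' (S *ᵥ z) = mR S *ᵥ p z) : Tri (fun k => lv (e k)) p' := fun k w w' h => by
  have h1 : ∀ w : K → ℤ, S *ᵥ Function.extend e w 0 = w := fun w => by
    have := sec_extend hS w
    rwa [show S.map (Int.cast : ℤ → ℤ) = S from rfl] at this
  rw [← h1 w, ← h1 w', hp', hp']
  refine sum_congr rfl fun l _ => ?_
  by_cases h2 : S k l = 0
  · simp [mR, h2]
  · congr 1
    refine hp l _ _ fun j hj => ?_
    by_cases h3 : ∃ i, e i = j
    · obtain ⟨i, rfl⟩ := h3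
      rw [(sec_inj hS).extend_apply, (sec_inj hS).extend_apply]
      exact h i (hj.trans_le (hlv k l h2))
    · rw [Function.extend_apply' _ _ _ h3, Function.extend_apply' _ _ _ h3]

theorem Fine.transfer' (H : Fine Γ p η) (hp : Tri lv p) (hΓ : Γ.PosDef) (e : K → L)
    (S : Matrix K L ℤ) (hS : ∀ k k', S k (e k') = (1 : Matrix K K ℤ) k k')
    (hlv : ∀ k l, S k l ≠ 0 → lv l ≤ lv (e k)) {p' : (K → ℤ) → K → ℝ}
    (hp' : ∀ z, p' (S *ᵥ z) = mR S *ᵥ p z) {Γ' : Matrix K K ℝ} {θ : ℝ} (hθ : 1 < θ)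
    (h : ∀ v, θ * qq Γ' (mR S *ᵥ v) ≤ qq Γ v) : Fine Γ' p' η := fun A c hA hle =>
  ms_transfer (tri_add hp (Function.extend e c 0)) hΓ e S hS hlv
    (fun z => by rw [hp', mulVec_add, mR, sec_extend hS]) hA hθ
    (fun v => (mul_le_mul_of_nonneg_left (hle _) (by linarith)).trans (h v))
    fun B hB hle => H B _ hB hle

theorem Fine.transfer (H : Fine Γ p η) (hp : Tri lv p) (hΓ : Γ.PosDef) (e : K → L)
    (S : Matrix K L ℤ) (hS : ∀ k k', S k (e k') = (1 : Matrix K K ℤ) k k')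
    (hlv : ∀ k l, S k l ≠ 0 → lv l ≤ lv (e k)) {p' : (K → ℤ) → K → ℝ}
    (hp' : ∀ z, p' (S *ᵥ z) = mR S *ᵥ p z) {Γ' : Matrix K K ℝ}
    (h : ∀ v, 2 * qq Γ' (mR S *ᵥ v) ≤ qq Γ v) : Fine Γ' p' η :=
  H.transfer' hp hΓ e S hS hlv hp' one_lt_two h

theorem Fine.add (H : Fine Γ p η) (c : L → ℝ) : Fine Γ (fun z => p z + c) η :=
  fun A c' hA hle => by simpa only [add_assoc] using H A (c + c') hA hle

/-- closed sets of labels -/
theorem Fine.sub (H : Fine Γ p η) (hp : Tri lv p) (hΓ : Γ.PosDef) (P : L → Prop)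
    [Fintype {l // P l}]
    {p' : ({l // P l} → ℤ) → {l // P l} → ℝ} (hp' : ∀ z (l : {l // P l}), p z l = p' (rs P z) l)
    {Γ' : Matrix {l // P l} {l // P l} ℝ} (h : ∀ v, 2 * qq Γ' (rs P v) ≤ qq Γ v) :
    Fine Γ' p' η := by
  let S : Matrix {l // P l} L ℤ := (1 : Matrix L L ℤ).submatrix Subtype.val id
  have h1 : ∀ z : L → ℤ, S *ᵥ z = rs P z := fun z => by
    funext k; simp [S, rs, mulVec, dotProduct, one_apply]
  have h2 : ∀ z : L → ℝ, mR S *ᵥ z = rs P z := fun z => by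
    funext k; simp [S, rs, mR, mulVec, dotProduct, one_apply]
  refine H.transfer hp hΓ Subtype.val S (fun k k' => by simp [S, one_apply, Subtype.ext_iff])
    (fun k l h3 => ?_) (fun z => by rw [h1, h2]; exact funext fun l => (hp' z l).symm)
    fun v => by rw [h2]; exact h v
  have : k.1 = l := by
    by_contra h4
    exact h3 (one_apply_ne h4)
  rw [this]

theorem mass_eq_ms {V : Type*} (S : MS V L) (r : Finset L) :
    S.mass r = ms (blk S.G r) fun y i => S.p (toR (put r y 0)) i := by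
  have hi : Function.Injective fun y : r → ℤ => put r y 0 := fun y y' h => funext fun i => by
    simpa only [put_coe] using congrFun h i
  unfold MS.mass ms ng
  rw [tsum_div_const, ← hi.tsum_eq fun z hz => ?_]
  · congr 1
    refine tsum_congr fun y => ?_
    have h0 : ∀ i ∉ r, put r y 0 i = (0 : ℤ) := fun i hi => put_neg y 0 hi
    rw [MS.wt, if_pos h0, gs_msk]
    congr 1
    funext i
    simp only [MS.ps, Pi.sub_apply, toR_apply, put_coe]
  · refine ⟨fun i => z i, funext fun i => ?_⟩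
    by_cases h : i ∈ r
    · exact put_pos _ _ h
    · refine (put_neg _ _ h).trans ?_
      by_contra h1
      exact hz (if_neg fun h2 => h1 (h2 i h).symm)

theorem summable_wt {V : Type*} {S : MS V L} (hG : S.G.PosDef) (hp : Tri lv fun z => S.p (toR z))
    (q : Finset L) : Summable (S.wt q) := by
  have ht : Tri lv fun z => msk q (S.p (toR z)) := fun i z z' hz => by
    simp only [msk, hp i z z' hz]
  refine (ht.summable hG).of_nonneg_of_le (MS.wt_nonneg q) fun z => ?_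
  unfold MS.wt
  split_ifs with hz
  · refine le_of_eq ?_
    congr 1; funext i
    by_cases hi : i ∈ q
    · rw [msk_pos _ hi, Pi.sub_apply, msk_pos _ hi]; rfl
    · rw [msk_neg _ hi, Pi.sub_apply, msk_neg _ hi, toR_apply, hz i hi]; simp
  · exact (gs_pos _ _).le

/-- closed subsystems -/
theorem Fine.blk {V : Type*} {S : MS V L} {Λ : ℝ} (hΛ : 0 < Λ) (hG : S.G.PosDef)
    (H : Fine ((2 * Λ) • S.G) (fun z => S.p (toR z)) η) (hp : Tri lv fun z => S.p (toR z))
    {r : Finset L} (hr : Sat S.G r)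
    (hc : ∀ i ∈ r, ∀ z z', (∀ j ∈ r, z j = z' j) → S.p z i = S.p z' i) :
    Fine (Λ • blk S.G r) (fun y i => S.p (toR (put r y 0)) i) η := by
  have h0 : 0 < 2 * Λ := by linarith
  refine H.sub hp (hG.smul h0) (· ∈ r) (p' := fun y i => S.p (toR (put r y 0)) i)
    (fun z l => hc l l.2 _ _ fun j hj => by rw [toR_apply, toR_apply, put_pos _ _ hj]; rfl)
    fun v => ?_
  have h1 := qq_split hG.1 (P := (· ∈ r)) hr v
  have h2 := qq_nonneg (posDef_bk hG fun l => ¬ l ∈ r).posSemidef (rs _ v)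
  rw [qq_smul_mat, qq_smul_mat, h1]
  refine le_trans (le_of_eq ?_) (mul_le_mul_of_nonneg_left (le_add_of_nonneg_right h2) h0.le)
  rw [mul_assoc]
  congr 3
  exact Subsingleton.elim _ _

end fine

variable {ι Δ M V L κ N : Type} [AddCommMonoid M] [Fintype ι] [DecidableEq ι] [Fintype V]
  [DecidableEq V] [Fintype L] [DecidableEq L] [Fintype κ] [DecidableEq κ] [Fintype N]
  [DecidableEq N] {T : Tw ι Δ} {C : Cf ι Δ M V L}

theorem Tw.LF.fine {d n : ℕ} {Λ η : ℝ} (h : T.LF d n Λ η) (hC : C.Ok T)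
    (hn : Fintype.card V ≤ n) (hd : ∀ l, T.lv (C.cd l) ≤ d) : Fine (Λ • C.Gam T) (C.p T) η :=
  fun A c hA hle => by
    rw [← Cf.p_cen]
    exact h M V L (C.cen c) (hC.cen c) hn hd A hA fun v => (hle v).trans (qq_smul_mat _ _ _).le

/-- the local system `S` is the image of the configuration `C` under a local integer map `U` with
the section `e` -/
structure Dom (T : Tw ι Δ) (C : Cf ι Δ M V L) (S : MS V κ) (e : κ → L) (U : Matrix κ L ℤ)
    (c : ℝ) : Prop where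
  lk : Lk S
  div : ∀ k, ∃ m, C.mo (e k) = ∑ v ∈ S.fc k, C.y v + m
  sup : ∀ k l v, U k l ≠ 0 → C.Dv v (C.mo l) → v ∈ S.fc k
  sec : ∀ k k', U k (e k') = (1 : Matrix κ κ ℤ) k k'
  lv : ∀ k l, U k l ≠ 0 → T.lv (C.cd l) ≤ T.lv (C.cd (e k))
  p : ∀ z, S.p (toR (U *ᵥ z)) = mR U *ᵥ C.p T z
  G : ∀ x, qq S.G (mR U *ᵥ x) ≤ c * qq (C.Gam T) x

/-- the vertices of a transversal -/
def tv (χ : V → N) : Finset (V × N) := univ.filter fun x => χ x.1 = x.2

theorem card_tv (χ : V → N) : (tv χ).card ≤ Fintype.card V :=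
  card_le_card_of_injOn Prod.fst (fun _ _ => mem_univ _) fun x hx y hy h =>
    Prod.ext h (by rw [← (mem_filter.1 hx).2, ← (mem_filter.1 hy).2, h])

variable {S : MS V κ} {e : κ → L} {U : Matrix κ L ℤ} {c : ℝ}

theorem qq_blow (hS : Lk S) (c0 : N) (w : BI S.fc c0 → ℝ) :
    qq (blow S c0).G w ≤ ∑ χ, qq S.G (w ∘ cp S.fc c0 χ) := by
  have h1 : ∀ χ : V → N, ∑ a : BI S.fc c0, ∑ b : BI S.fc c0,
      (if a.1.2 = χ ∧ b.1.2 = χ then w a * (S.G a.1.1 b.1.1 * w b) else 0) ≤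
        qq S.G (w ∘ cp S.fc c0 χ) := fun χ => by
    let q : Finset κ := univ.filter fun k => ∀ v, v ∉ S.fc k → χ v = c0
    have hq : Sat S.G q := fun i j hi hj => by
      by_contra h
      exact hj (mem_filter.2 ⟨mem_univ _, hS.orth i j h ▸ (mem_filter.1 hi).2⟩)
    have h2 := qq_msk_split hS.pd.1 hq univ (w ∘ cp S.fc c0 χ)
    rw [show msk univ (w ∘ cp S.fc c0 χ) = w ∘ cp S.fc c0 χ from funext fun i =>
      msk_pos _ (mem_univ i), univ_inter] at h2
    rw [h2]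
    refine le_add_of_le_of_nonneg (le_of_eq ?_) (qq_nonneg hS.pd.posSemidef _)
    have h3 : ∀ f : BI S.fc c0 → ℝ, ∑ a, (if a.1.2 = χ then f a else 0) =
        ∑ k ∈ q, f (cp S.fc c0 χ k) := fun f => by
      rw [← sum_filter, ← sum_image fun _ _ _ _ h => cp_inj S.fc c0 χ h]
      refine sum_congr ?_ fun _ _ => rfl
      ext a
      simp only [mem_filter, mem_univ, true_and, mem_image, q]
      refine ⟨fun h => ⟨a.1.1, h ▸ a.2, h ▸ cp_self a⟩, ?_⟩
      rintro ⟨k, hk, rfl⟩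
      funext v
      by_cases hv : v ∈ S.fc k
      · exact cp_snd χ hv
      · exact (if_neg hv).trans (hk v hv).symm
    simp only [ite_and, ← ite_sum_zero, h3, qq_msk_sum, mul_sum]
    rfl
  refine le_trans (le_of_eq ?_) (sum_le_sum fun χ _ => h1 χ)
  rw [sum_comm]
  simp only [qq, dotProduct, mulVec, mul_sum]
  refine sum_congr rfl fun a _ => ?_
  rw [sum_comm]
  refine sum_congr rfl fun b _ => ?_
  rw [sum_eq_single a.1.2 (fun χ _ h => if_neg fun h2 => h h2.1.symm) (by simp)]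
  by_cases h : a.1.2 = b.1.2
  · simp [blow, h]
  · simp [blow, h, Ne.symm h]

/-- the matrix of the blow-up -/
def bU (C : Cf ι Δ M V L) (S : MS V κ) (U : Matrix κ L ℤ) (c0 : N) :
    Matrix (BI S.fc c0) (C.BL (Prod.fst : V × N → V)) ℤ :=
  Matrix.of fun a l => if l.1.2 ⊆ tv a.1.2 then U a.1.1 l.1.1 else 0

theorem Dom.mem (h : Dom T C S e U c) {k : κ} {l : C.BL (Prod.fst : V × N → V)}
    (hU : U k l.1.1 ≠ 0) {x : V × N} (hx : x ∈ l.1.2) : x.1 ∈ S.fc k := by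
  obtain ⟨m, hm⟩ := l.2
  exact h.sup k _ _ hU ⟨_, by rw [hm, ← add_sum_erase _ _ hx, add_assoc]⟩

theorem Dom.bU_cp (h : Dom T C S e U c) (c0 : N) (χ : V → N) (k : κ) (l) :
    bU C S U c0 (cp S.fc c0 χ k) l = (U * C.vw Prod.fst (tv χ)) k l := by
  have h1 : (U * C.vw Prod.fst (tv χ)) k l = if l.1.2 ⊆ tv χ then U k l.1.1 else 0 := by
    simp [mul_apply, Cf.vw, ite_and]
  rw [h1]
  by_cases hU : U k l.1.1 = 0
  · exact (ite_eq_right_iff.2 fun _ => hU).trans (ite_eq_right_iff.2 fun _ => hU).symm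
  · refine if_congr (forall_congr' fun x => forall_congr' fun hx => ?_) rfl rfl
    simp only [tv, mem_filter, mem_univ, true_and, cp_snd χ (h.mem hU hx)]

/-- the section of the blow-up -/
def Dom.be (h : Dom T C S e U c) (c0 : N) (a : BI S.fc c0) : C.BL (Prod.fst : V × N → V) :=
  ⟨(e a.1.1, (S.fc a.1.1).image fun v => (v, a.1.2 v)), by
    rw [sum_image fun _ _ _ _ h => congrArg Prod.fst h]; exact h.div _⟩

theorem Dom.bsec (h : Dom T C S e U c) (c0 : N) (a b : BI S.fc c0) :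
    bU C S U c0 a (h.be c0 b) = (1 : Matrix _ _ ℤ) a b := by
  simp only [bU, Dom.be, of_apply, h.sec, one_apply, ← ite_and]
  refine if_congr ⟨fun h1 => Subtype.ext (Prod.ext h1.2 (funext fun v => ?_)), ?_⟩ rfl rfl
  · by_cases hv : v ∈ S.fc b.1.1
    · exact (mem_filter.1 (h1.1 (mem_image_of_mem _ hv))).2
    · rw [b.2 v hv, a.2 v (h1.2 ▸ hv)]
  · rintro rfl
    exact ⟨fun x hx => by
      obtain ⟨v, -, rfl⟩ := mem_image.1 hx
      exact mem_filter.2 ⟨mem_univ _, rfl⟩, rfl⟩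

theorem Dom.bp (h : Dom T C S e U c) (c0 : N) (z) :
    (blow S c0).p (toR (bU C S U c0 *ᵥ z)) = mR (bU C S U c0) *ᵥ (C.blow Prod.fst).p T z := by
  funext a
  have h1 : toR (bU C S U c0 *ᵥ z) ∘ cp S.fc c0 a.1.2 =
      toR (U *ᵥ (C.vw Prod.fst (tv a.1.2) *ᵥ z)) := by
    funext k
    rw [mulVec_mulVec]
    simp only [Function.comp, toR_apply, mulVec, dotProduct, h.bU_cp]
  change S.p _ a.1.1 = _
  rw [h1, h.p, ← Cf.vw_p, mulVec_mulVec, ← mR_mul]
  conv_rhs => rw [← cp_self a]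
  simp only [mR, mulVec, dotProduct, map_apply, h.bU_cp]

theorem Dom.tri_blow (h : Dom T C S e U c) (hC : C.Ok T) (hT : T.Ok) (c0 : N) :
    Tri (fun a : BI S.fc c0 => T.lv (C.cd (e a.1.1))) fun z => (blow S c0).p (toR z) :=
  tri_transfer ((hC.blow (Prod.fst : V × N → V)).tri hT) (h.bsec c0)
    (fun a l h1 => h.lv _ _ fun h2 => h1 (by simp [bU, h2])) (h.bp c0)

/-- the blow-up of a dominated system has mass one for all smaller Gram matrices and all centres -/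
theorem Dom.fine (h : Dom T C S e U c) (hC : C.Ok T) (hT : T.Ok) {d n : ℕ} {Λ Λ' η : ℝ}
    (hLF : T.LF d n Λ η) (hd : ∀ l, T.lv (C.cd l) ≤ d)
    (hn : Fintype.card V * (Fintype.card N + 1) ≤ n) (hc : 0 ≤ c) (h0 : 0 ≤ Λ') (hΛ0 : 0 < Λ)
    (hΛ : 2 * c * (2 * Fintype.card N) ^ Fintype.card V * Λ' ≤ Λ) (c0 : N) :
    Fine (Λ' • (blow S c0).G) (fun z => (blow S c0).p (toR z)) η := by
  have hB := hC.blow (Prod.fst : V × N → V)
  have hG := (hB.posDef hT).posSemidef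
  refine (hLF.fine hB (by simpa [mul_add, add_comm] using hn) fun l => hd _).transfer (hB.tri hT)
    ((hB.posDef hT).smul hΛ0) (h.be c0) _ (h.bsec c0)
    (fun a l h1 => h.lv _ _ fun h2 => h1 (by simp [bU, h2])) (h.bp c0) fun v => ?_
  have h1 : ∀ χ : V → N, qq S.G ((mR (bU C S U c0) *ᵥ v) ∘ cp S.fc c0 χ) ≤
      c * 2 ^ Fintype.card V * qq ((C.blow Prod.fst).Gam T) v := fun χ => by
    have h2 : (mR (bU C S U c0) *ᵥ v) ∘ cp S.fc c0 χ =
        mR U *ᵥ (mR (C.vw Prod.fst (tv χ)) *ᵥ v) := by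
      funext k
      rw [mulVec_mulVec, ← mR_mul]
      simp only [Function.comp, mR, mulVec, dotProduct, map_apply, h.bU_cp]
    rw [h2, mul_assoc]
    refine (h.G _).trans (mul_le_mul_of_nonneg_left ((Cf.qq_vw hC hT _ _ _).trans ?_) hc)
    exact mul_le_mul_of_nonneg_right (pow_le_pow_right₀ one_le_two (card_tv χ)) (qq_nonneg hG _)
  have h2 := (qq_blow h.lk c0 _).trans (sum_le_card_nsmul _ _ _ fun χ _ => h1 χ)
  rw [card_univ, Fintype.card_fun, nsmul_eq_mul, Nat.cast_pow] at h2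
  rw [qq_smul_mat, qq_smul_mat]
  refine le_trans ?_ (mul_le_mul_of_nonneg_right hΛ (qq_nonneg hG v))
  have h3 := mul_le_mul_of_nonneg_left h2 h0
  rw [mul_pow]
  linarith

theorem Dom.fine_qk (h : Dom T C S e U c) (hC : C.Ok T) (hT : T.Ok) {d n : ℕ} {Λ Λ' η : ℝ}
    (hLF : T.LF d n Λ η) (hd : ∀ l, T.lv (C.cd l) ≤ d)
    (hn : Fintype.card V * (Fintype.card N + 1) ≤ n) (hc : 0 ≤ c) (h0 : 0 < Λ') (hΛ0 : 0 < Λ)
    (hΛ : 4 * c * (2 * Fintype.card N) ^ Fintype.card V * Λ' ≤ Λ) (c0 : N) {q : Finset κ}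
    (hq : Sat S.G q) (hq' : ∀ i ∈ q, ∀ z z', (∀ j ∈ q, S.fc j ⊆ S.fc i → z j = z' j) →
      S.p z i = S.p z' i) {K : Fc V N → Prop} (hK : DC K) :
    Fine (Λ' • blk (blow S c0).G (qk S.fc c0 q K))
      (fun y i => (blow S c0).p (toR (put (qk S.fc c0 q K) y 0)) i) η := by
  refine Fine.blk h0 (h.lk.pd_blow c0)
    (h.fine hC hT hLF hd hn hc (by linarith) hΛ0 (by linarith) c0) (h.tri_blow hC hT c0)
    (fun a b ha hb => ?_) fun a ha z z' hz => hq' _ (mem_qk.1 ha).1 _ _ fun j hj hs => hz _ ?_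
  · by_contra h1
    refine hb (mem_qk.2 ⟨?_, h.lk.orth_blow a b h1 ▸ (mem_qk.1 ha).2⟩)
    by_contra h2
    exact h1 (by simp [blow, hq _ _ (mem_qk.1 ha).1 h2])
  · refine mem_qk.2 ⟨hj, ?_⟩
    rw [← cp_fa a hs, fa_cp _ (by rwa [sp_fa])]
    exact hK _ (mem_qk.1 ha).2 _

/-- all complexes over a dominated system have mass one -/
theorem Dom.lft (h : Dom T C S e U c) (hC : C.Ok T) (hT : T.Ok) {d n : ℕ} {Λ η : ℝ}
    (hLF : T.LF d n Λ η) (hd : ∀ l, T.lv (C.cd l) ≤ d)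
    (hn : Fintype.card V * (Fintype.card N + 1) ≤ n) (hc : 0 ≤ c) (hΛ0 : 0 < Λ)
    (hΛ : 4 * c * (2 * Fintype.card N) ^ Fintype.card V ≤ Λ) (c0 : N) {q : Finset κ}
    (hq : Sat S.G q) (hq' : ∀ i ∈ q, ∀ z z', (∀ j ∈ q, S.fc j ⊆ S.fc i → z j = z' j) →
      S.p z i = S.p z' i) : LFt N (nu S q) 0 η :=
  h.lk.lft c0 (summable_wt (h.lk.pd_blow c0) (h.tri_blow hC hT c0)) fun K hK => by
    rw [mass_eq_ms]
    exact (h.fine_qk hC hT hLF hd hn hc one_pos hΛ0 (by linarith) c0 hq hq' hK).self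
      (posDef_blk (h.lk.pd_blow c0) _) fun v => by rw [one_smul]

end

end Vale.Agent.P057PC
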