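import Vale.Agent.P057PC.Dbl

/-!
Marked configurations: bookkeeping of the doubled generators, and the identification with the cube
system when only doubled generators are left.
-/

set_option linter.unusedSectionVars false

open Matrix Finset
open Vale.Agent.P267.H775 Vale.Agent.P057G

namespace Vale.Agent.P057PC

noncomputable section

variable {ι Δ M V L : Type} [AddCommMonoid M]

namespace Cf

/-- the generators `h i`, `i ∈ S`, have been doubled, and `κ` is the current frequency -/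
structure Mk (T : Tw ι Δ) (C : Cf ι Δ M V L) {D : ℕ} (σ : Fin D → Δ) (k : ι → ℤ)
    (S : Finset (Fin D)) (h : Fin D → V) (fl : M → Finset (Fin D)) (κ : ι → M → ℝ) : Prop where
  fl0 : fl 0 = ∅
  fla : ∀ m m', fl (m + m') = fl m ∪ fl m'
  fly : ∀ v i, i ∈ fl (C.y v) ↔ i ∈ S ∧ h i = v
  inj : ∀ i ∈ S, ∀ j, h i = h j → i = j
  sq : ∀ i ∈ S, ∃ v, (∀ j ∈ S, h j ≠ v) ∧ C.Dv v (C.y (h i) + C.y (h i))
  flR : ∀ a β m, ((C.R a).coeff β).coeff m ≠ 0 → fl m = ∅
  sup : ∀ a m, κ a m ≠ 0 → S ⊆ fl m ∧ C.dg m = D ∧ ∃ s, m = C.ys s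
  top : ∀ a, κ a (C.ys (univ.val.map h)) = k a
  cls : ∀ i, C.cl (h i) = σ i
  clo : ∀ (F : Finset (Fin D)) a, F ≠ univ → T.al a (F.val.map σ) →
    ∃ l, C.cd l = a ∧ C.mo l = C.ys (F.val.map h)

variable {T : Tw ι Δ} {C : Cf ι Δ M V L} {D : ℕ} {σ : Fin D → Δ} {k : ι → ℤ}
  {S : Finset (Fin D)} {h : Fin D → V} {fl : M → Finset (Fin D)} {κ : ι → M → ℝ}

theorem Mk.cen (hm : C.Mk T σ k S h fl κ) (c : L → ℝ) : (C.cen c).Mk T σ k S h fl κ :=
  ⟨hm.fl0, hm.fla, hm.fly, hm.inj, hm.sq, hm.flR, hm.sup, hm.top, hm.cls, hm.clo⟩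

theorem Mk.dbl (hm : C.Mk T σ k S h fl κ) (hC : C.Ok T) {j : Fin D} (hj : j ∉ S) :
    (C.dbl (h j)).Mk T σ k (insert j S) (fun i => if i = j then none else some (h i))
      (fun a => fl a.m ∪ if a.f then {j} else ∅) fun a m => if m.f then κ a m.m else 0 := by
  have hys : ∀ F : Finset (Fin D),
      ((C.dbl (h j)).ys (F.val.map fun i => if i = j then none else some (h i))).m =
        C.ys (F.val.map h) := fun F => by
    rw [dbl_ys_m, Multiset.map_map]
    congr 1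
    refine Multiset.map_congr rfl fun i _ => ?_
    by_cases hi : i = j <;> simp [hi]
  have hyf : ∀ F : Finset (Fin D),
      ((C.dbl (h j)).ys (F.val.map fun i => if i = j then none else some (h i))).f = true ↔
        j ∈ F := fun F => by
    rw [dbl_ys_f]; simp
  refine ⟨by simp [hm.fl0], fun m m' => ?_, fun v i => ?_, fun i hi i' => ?_, fun i hi => ?_,
    fun a β m h1 => ?_, fun a m h1 => ?_, fun a => ?_, fun i => ?_, fun F a hF ha => ?_⟩
  · rw [DM.add_m, DM.add_f, hm.fla]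
    cases m.f <;> cases m'.f <;> ext i <;> simp
  · rcases v with _ | v
    · have : ¬ (i ∈ S ∧ h i = h j) := fun h1 => hj (hm.inj i h1.1 j h1.2 ▸ h1.1)
      by_cases hi : i = j <;> simp [Cf.dbl, hm.fly, hi, this]
    · by_cases hi : i = j
      · subst hi; simp [Cf.dbl, hm.fly, hj]
      · simp [Cf.dbl, hm.fly, hi]
  · by_cases h1 : i = j <;> by_cases h2 : i' = j <;> simp [h1, h2]
    exact hm.inj i ((mem_insert.1 hi).resolve_left h1) i'
  · by_cases h1 : i = j
    · refine ⟨some (h j), fun i' hi' => ?_, DM.flag (C.y (h j)) ⟨0, (add_zero _).symm⟩, ?_⟩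
      · by_cases h2 : i' = j <;> simp [h2]
        exact fun h3 => h2 (hm.inj i' ((mem_insert.1 hi').resolve_left h2) j h3)
      · rw [if_pos h1]; rfl
    · obtain ⟨v, hv, m, hm'⟩ := hm.sq i ((mem_insert.1 hi).resolve_left h1)
      refine ⟨some v, fun i' hi' => ?_, DM.diag _ m, ?_⟩
      · by_cases h2 : i' = j <;> simp [h2]
        exact hv i' ((mem_insert.1 hi').resolve_left h2)
      · rw [if_neg h1]; exact DM.ext hm' rfl
  · change ((MvPolynomial.map (DM.dg _).toRingHom (C.R a)).coeff β).coeff m ≠ 0 at h1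
    rw [MvPolynomial.coeff_map] at h1
    have := DM.sup_dg (hm.flR a β) m h1
    simp [this.1, this.2]
  · obtain ⟨m, f, hf⟩ := m
    cases f
    · exact (h1 rfl).elim
    · obtain ⟨h2, h3, -⟩ := hm.sup a m h1
      obtain ⟨s, hs⟩ := hC.dv (hf rfl)
      refine ⟨fun i hi => ?_, h3, _, (dbl_ys_none (h j) s hs (hf rfl)).symm⟩
      rcases mem_insert.1 hi with hi | hi
      · simp [hi]
      · exact mem_union_left _ (h2 hi)
  · simp only [(hyf univ).2 (mem_univ j), if_true, hys, hm.top]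
  · by_cases h1 : i = j
    · rw [if_pos h1, h1]; exact hm.cls j
    · rw [if_neg h1]; exact hm.cls i
  · obtain ⟨l, h1, h2⟩ := hm.clo F a hF ha
    by_cases hjF : j ∈ F
    · exact ⟨Sum.inr ⟨l, h2 ▸ dv_ys (Multiset.mem_map_of_mem h hjF)⟩, h1,
        DM.ext (h2.trans (hys F).symm) ((hyf F).2 hjF).symm⟩
    · exact ⟨Sum.inl l, h1, DM.ext (h2.trans (hys F).symm)
        (Bool.eq_false_iff.2 fun h5 => hjF ((hyf F).1 h5)).symm⟩

theorem Mk.mem_fl (hm : C.Mk T σ k S h fl κ) (s : Multiset V) (i : Fin D) :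
    i ∈ fl (C.ys s) ↔ i ∈ S ∧ h i ∈ s := by
  induction s using Multiset.induction_on with
  | empty => simp [ys_zero, hm.fl0]
  | cons v s ih => rw [ys_cons, hm.fla, mem_union, ih, hm.fly, Multiset.mem_cons]; tauto

theorem Mk.card_fl (hm : C.Mk T σ k S h fl κ) (s : Multiset V) :
    (fl (C.ys s)).card ≤ Multiset.card s := by
  classical
  refine le_trans ?_ (Multiset.toFinset_card_le s)
  refine card_le_card_of_injOn h (fun i hi => ?_) fun i hi j _ hij => ?_
  · exact Multiset.mem_toFinset.2 ((hm.mem_fl s i).1 hi).2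
  · exact hm.inj i ((hm.mem_fl s i).1 hi).1 j hij

theorem Mk.fl_map (hm : C.Mk T σ k univ h fl κ) (s : Multiset (Fin D)) :
    fl (C.ys (s.map h)) = s.toFinset := by
  ext i
  rw [hm.mem_fl, Multiset.mem_toFinset, Multiset.mem_map_of_injective
    fun i j hij => hm.inj i (mem_univ i) j hij]
  simp

theorem Mk.eq_face (hm : C.Mk T σ k univ h fl κ) (hC : C.Ok T) {s : Multiset (Fin D)}
    {F : Finset (Fin D)} (hs : C.ys (s.map h) = C.ys (F.val.map h)) : s = F.val := by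
  have h1 := congrArg fl hs
  have h2 := congrArg C.dg hs
  rw [hm.fl_map, hm.fl_map, val_toFinset] at h1
  rw [hC.dg_ys, hC.dg_ys, Multiset.card_map, Multiset.card_map] at h2
  refine (Multiset.eq_of_le_of_card_le ?_ h2.le).symm
  rw [← h1]; exact Multiset.dedup_le s

theorem Mk.not_dv (hm : C.Mk T σ k univ h fl κ) (hC : C.Ok T) (F : Finset (Fin D)) {v : V}
    (hv : ∀ i, h i ≠ v) : ¬ C.Dv v (C.ys (F.val.map h)) := fun h1 => by
  obtain ⟨s, hs⟩ := hC.dv h1
  have h2 := congrArg C.dg hs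
  have h3 := hm.card_fl (v ::ₘ s)
  have h4 : fl (C.ys (v ::ₘ s)) = fl (C.ys s) := by
    ext i; simp [hm.mem_fl, hv i]
  have h5 := hm.card_fl s
  rw [map_add, hC.dy, hC.dg_ys, hC.dg_ys, Multiset.card_map] at h2
  rw [← h4, ys_cons, ← hs, hm.fl_map, val_toFinset] at h5
  change F.card = _ at h2
  omega

theorem Mk.sup_top (hm : C.Mk T σ k univ h fl κ) (hC : C.Ok T) (a : ι) (m : M) (h1 : κ a m ≠ 0) :
    m = C.ys (univ.val.map h) := by
  obtain ⟨h2, h3, s, rfl⟩ := hm.sup a m h1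
  congr 1
  refine (Multiset.eq_of_le_of_card_le ?_ ?_).symm
  · refine (Multiset.le_iff_subset
      (univ.nodup.map fun i j hij => hm.inj i (mem_univ i) j hij)).2 fun v hv => ?_
    obtain ⟨i, -, rfl⟩ := Multiset.mem_map.1 hv
    exact ((hm.mem_fl s i).1 (h2 (mem_univ i))).2
  · rw [hC.dg_ys] at h3
    simp [h3]

theorem Mk.kill (hm : C.Mk T σ k univ h fl κ) (hC : C.Ok T) {v : V} (hv : ∀ i, h i ≠ v) :
    (C.sub fun l => ¬ C.Dv v (C.mo l)).Mk T σ k univ h fl κ := by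
  refine ⟨hm.fl0, hm.fla, hm.fly, hm.inj, hm.sq, hm.flR, hm.sup, hm.top, hm.cls,
    fun F a hF ha => ?_⟩
  obtain ⟨l, h1, h2⟩ := hm.clo F a hF ha
  exact ⟨⟨l, h2 ▸ hm.not_dv hC F hv⟩, h1, h2⟩

theorem Mk.face (hm : C.Mk T σ k univ h fl κ) (hC : C.Ok T) {l : L}
    (hl : ∀ v, (∀ i, h i ≠ v) → ¬ C.Dv v (C.mo l)) :
    ∃ F : Finset (Fin D), C.mo l = C.ys (F.val.map h) := by
  classical
  obtain ⟨s, hs⟩ := hC.gen l
  have h1 : ∀ v ∈ s, ∃ i, h i = v := fun v hv => by
    by_contra h2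
    exact hl v (not_exists.1 h2) (hs ▸ dv_ys hv)
  have h2 : s.Nodup := Multiset.nodup_iff_ne_cons_cons.2 fun v t ht => by
    obtain ⟨i, rfl⟩ := h1 v (by simp [ht])
    obtain ⟨w, hw, h3⟩ := hm.sq i (mem_univ i)
    refine hl w (fun j => hw j (mem_univ j)) ?_
    rw [hs, ht, ys_cons, ys_cons, ← add_assoc]
    exact h3.add _
  refine ⟨univ.filter fun i => h i ∈ s, hs.trans (congrArg C.ys ?_)⟩
  refine (Multiset.Nodup.ext h2
    ((Finset.nodup _).map fun i j hij => hm.inj i (mem_univ i) j hij)).2 fun v => ?_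
  simp only [Multiset.mem_map, mem_val, mem_filter, mem_univ, true_and]
  refine ⟨fun hv => ?_, fun ⟨i, hi, h3⟩ => h3 ▸ hi⟩
  obtain ⟨i, rfl⟩ := h1 v hv
  exact ⟨i, hv, rfl⟩

variable [Fintype L] [Fintype ι]

/-- the phase with frequency `κ` -/
def ph (T : Tw ι Δ) (C : Cf ι Δ M V L) (κ : ι → M → ℝ) (x : L → ℝ) : ℝ :=
  ∑ a, pa (κ a) (C.val T x a)

theorem ph_dbl (T : Tw ι Δ) (C : Cf ι Δ M V L) (κ : ι → M → ℝ) (v : V)
    [DecidablePred fun l => C.Dv v (C.mo l)] (z : L ⊕ {l // C.Dv v (C.mo l)} → ℤ) :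
    (C.dbl v).ph T (fun a m => if m.f then κ a m.m else 0) (toR z) =
      C.ph T κ (toR (z2 _ z)) - C.ph T κ (toR (z1 _ z)) := by
  simp only [ph, DM.pa_flag, p1_val, p2_val, sum_sub_distrib]

theorem Mk.ph_eq (hm : C.Mk T σ k univ h fl κ) (hC : C.Ok T) (x : L → ℝ) :
    C.ph T κ x = ∑ a, k a * (C.val T x a).coeff (C.ys (univ.val.map h)) :=
  sum_congr rfl fun a _ => by rw [pa_eq (hm.sup_top hC a), hm.top]

theorem Mk.ph_kill (hm : C.Mk T σ k univ h fl κ) (hC : C.Ok T) {v : V} (hv : ∀ i, h i ≠ v)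
    [DecidablePred (C.Dv v)] (x : L → ℝ) :
    C.ph T κ x = (C.sub fun l => ¬ C.Dv v (C.mo l)).ph T κ (rs _ x) := by
  rw [hm.ph_eq hC, (hm.kill hC hv).ph_eq (hC.kill fun _ m h => h.add m)]
  exact sum_congr rfl fun a _ => by
    rw [C.val_kill T (fun _ m h => h.add m) x a (hm.not_dv hC univ hv)]; rfl

theorem Mk.coeff_val (hm : C.Mk T σ k univ h fl κ) (hC : C.Ok T) (e : EL T σ ≃ L)
    (he : ∀ x, C.cd (e x) = x.1.1 ∧ C.mo (e x) = C.ys (x.1.2.val.map h)) (c : EL T σ → ℝ)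
    (x : L → ℝ) (a : ι) (F : Finset (Fin D)) :
    (C.val T x a).coeff (C.ys (F.val.map h)) = ((cube T σ c).val T (x ∘ e) a).coeff F.val := by
  classical
  let φ : Multiset (Fin D) →+ M :=
    { toFun s := C.ys (s.map h)
      map_zero' := rfl
      map_add' s t := by rw [Multiset.map_add, ys_add] }
  let ψ := AddMonoidAlgebra.mapDomainAlgHom ℝ ℝ φ
  have hψ : ∀ s r, ψ (AddMonoidAlgebra.single s r) = AddMonoidAlgebra.single (φ s) r := by
    intro s r; simp [ψ]
  have h1 : ∀ b, ψ ((cube T σ c).pt (x ∘ e) b) = C.pt x b := fun b => by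
    unfold pt
    rw [map_sum, ← e.sum_comp]
    refine sum_congr rfl fun y _ => ?_
    rw [apply_ite ψ, map_zero, hψ, (he y).1, (he y).2]; rfl
  have h2 : ∀ u, (ψ u).coeff (φ F.val) = u.coeff F.val := fun u => by
    induction u using AddMonoidAlgebra.induction_linear with
    | zero => simp
    | add u v hu hv => simp only [map_add, AddMonoidAlgebra.coeff_add, Finsupp.add_apply, hu, hv]
    | single s r =>
      rw [hψ, AddMonoidAlgebra.coeff_single, AddMonoidAlgebra.coeff_single, Finsupp.single_apply,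
        Finsupp.single_apply]
      exact if_congr ⟨fun h3 => hm.eq_face hC h3, fun h3 => h3 ▸ rfl⟩ rfl rfl
  have h3 : (MvPolynomial.eval (C.pt x) (C.R a)).coeff (C.ys (F.val.map h)) = 0 := by
    refine (Sup.eval (P := fun m => (fl m).card ≤ C.dg m) (Q := fun m => (fl m).card < C.dg m)
      (by simp [hm.fl0]) (fun m m' h1 h2 => ?_) (fun m m' h1 h2 => ?_)
      (C.sup_pt fun l _ => ?_) fun β m h4 => ?_).coeff ?_
    · rw [hm.fla, map_add]; exact (card_union_le _ _).trans (add_le_add h1 h2)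
    · rw [hm.fla, map_add]; exact (card_union_le _ _).trans_lt (add_lt_add_of_lt_of_le h1 h2)
    · obtain ⟨s, hs⟩ := hC.gen l
      rw [hs, hC.dg_ys]; exact hm.card_fl s
    · beta_reduce
      rw [hm.flR a β m h4]; exact hC.Rpos a β m h4
    · rw [hm.fl_map, val_toFinset, hC.dg_ys, Multiset.card_map]; exact lt_irrefl _
  unfold val
  rw [AddMonoidAlgebra.coeff_add, Finsupp.add_apply, h3, ← funext h1,
    ← MvPolynomial.comp_aeval_apply, add_zero]
  refine (h2 _).trans ?_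
  simp [cube]

/-- only doubled generators are left: the system is the cube system -/
theorem Mk.Ex_cube [DecidableEq L] [DecidableEq ι] (hm : C.Mk T σ k univ h fl κ) (hC : C.Ok T)
    (hT : T.Ok) (hlv : ∀ l, T.lv (C.cd l) < D)
    (hl : ∀ l v, (∀ i, h i ≠ v) → ¬ C.Dv v (C.mo l)) (Λ : ℝ) :
    ∃ c, Ex (Λ • C.Gam T) (C.p T) (fun z => ee (C.ph T κ (toR z))) =
      Ex (Λ • (cube T σ c).Gam T) ((cube T σ c).p T) fun z => ee (topPh T σ k (toR z)) := by
  classical
  choose g hg1 hg2 using fun x : EL T σ => hm.clo x.1.2 x.1.1 x.2.1 x.2.2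
  have hb : Function.Bijective g := by
    refine ⟨fun x y hxy => Subtype.ext (Prod.ext ?_ (Finset.val_injective (hm.eq_face hC ?_))),
      fun l => ?_⟩
    · rw [← hg1, ← hg1, hxy]
    · rw [← hg2, ← hg2, hxy]
    · obtain ⟨F, hF⟩ := hm.face hC (hl l)
      have h1 := hC.lab1 l _ hF
      rw [Multiset.map_map, show C.cl ∘ h = σ from funext hm.cls] at h1
      refine ⟨⟨(C.cd l, F), fun h2 => ?_, h1⟩, hC.inj _ _ (hg1 _) ((hg2 _).trans hF.symm)⟩
      have h3 := hT.alc _ _ h1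
      have h4 := hlv l
      change F = univ at h2
      simp [h2] at h3
      omega
  let e := Equiv.ofBijective g hb
  have he : ∀ x, C.cd (e x) = x.1.1 ∧ C.mo (e x) = C.ys (x.1.2.val.map h) :=
    fun x => ⟨hg1 x, hg2 x⟩
  refine ⟨C.ce ∘ e, (Ex_equiv e (fun x y => ?_) (fun z x => ?_) fun z => ?_).symm⟩
  · rw [Matrix.smul_apply, Matrix.smul_apply, Gam_apply, Gam_apply, (he x).1, (he y).1, (he x).2,
      (he y).2]
    congr 1
    exact if_congr ⟨fun h1 => congrArg (fun s => C.ys (s.map h)) h1, fun h1 => hm.eq_face hC h1⟩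
      rfl rfl
  · simp only [p, pr]
    rw [(he x).1, (he x).2, hm.coeff_val hC e he (C.ce ∘ e)]
    rfl
  · rw [hm.ph_eq hC, topPh]
    simp only [hm.coeff_val hC e he 0]
    rfl

end Cf

end

end Vale.Agent.P057PC
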