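import Vale.Agent.P057PC.Ex

/-!
Splitting a triangular Gaussian system along a set of labels: fibres, doubling, Cauchy-Schwarz,
fibre masses, Poisson summation in a top block.
-/

open Matrix Finset Filter
open scoped Real Topology
open Vale.Agent.P267.H775 Vale.Agent.P057G

namespace Vale.Agent.P057PC

noncomputable section

variable {L K : Type*}

/-- the diagonal block on `P` -/
def bk (G : Matrix L L ℝ) (P : L → Prop) : Matrix {l // P l} {l // P l} ℝ :=
  G.submatrix Subtype.val Subtype.val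

/-- `P` is orthogonal to its complement -/
def Ort (G : Matrix L L ℝ) (P : L → Prop) : Prop := ∀ i j, P i → ¬ P j → G i j = 0

/-- restriction to `P` -/
def rs {α : Type*} (P : L → Prop) (z : L → α) : {l // P l} → α := fun l => z l

/-- outside `P` the centres depend only on the labels outside `P` -/
def Spl (P : L → Prop) (p : (L → ℤ) → L → ℝ)
    (pb : ({l // ¬ P l} → ℤ) → {l // ¬ P l} → ℝ) : Prop :=
  ∀ z (l : {l // ¬ P l}), p z l = pb (rs (fun l => ¬ P l) z) l

/-- the centres of the fibre -/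
def pf (P : L → Prop) [DecidablePred P] (p : (L → ℤ) → L → ℝ) (y : {l // ¬ P l} → ℤ) :
    ({l // P l} → ℤ) → {l // P l} → ℝ := fun x l => p (glue P x y) l

theorem rs_glue_pos {α : Type*} (P : L → Prop) [DecidablePred P] (x : {l // P l} → α)
    (y : {l // ¬ P l} → α) : rs P (glue (X := fun _ => α) P x y) = x := by
  funext l; exact glue_pos (X := fun _ => α) x y l.2

theorem rs_glue_neg {α : Type*} (P : L → Prop) [DecidablePred P] (x : {l // P l} → α)
    (y : {l // ¬ P l} → α) : rs (fun l => ¬ P l) (glue (X := fun _ => α) P x y) = y := by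
  funext l; exact glue_neg (X := fun _ => α) x y l.2

theorem glue_rs {α : Type*} (P : L → Prop) [DecidablePred P] (z : L → α) :
    glue (X := fun _ => α) P (rs P z) (rs (fun l => ¬ P l) z) = z := by
  funext l; unfold glue rs; split_ifs <;> rfl

theorem posDef_bk {G : Matrix L L ℝ} (hG : G.PosDef) (P : L → Prop) : (bk G P).PosDef :=
  hG.submatrix Subtype.val_injective

theorem tri_pf {lv : L → ℕ} {p : (L → ℤ) → L → ℝ} (hp : Tri lv p) (P : L → Prop)
    [DecidablePred P] (y : {l // ¬ P l} → ℤ) : Tri (fun l => lv l.1) (pf P p y) := by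
  intro i z z' h
  refine hp i _ _ fun j hj => ?_
  by_cases hP : P j
  · rw [glue_pos _ _ hP, glue_pos _ _ hP]; exact h ⟨j, hP⟩ hj
  · rw [glue_neg _ _ hP, glue_neg _ _ hP]

theorem Spl.tri {lv : L → ℕ} {p : (L → ℤ) → L → ℝ} (hp : Tri lv p) {P : L → Prop}
    [DecidablePred P] {pb : ({l // ¬ P l} → ℤ) → {l // ¬ P l} → ℝ} (h : Spl P p pb) :
    Tri (fun l => lv l.1) pb := by
  intro i z z' hz
  rw [← rs_glue_neg P 0 z, ← rs_glue_neg P 0 z', ← h, ← h]
  refine hp i _ _ fun j hj => ?_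
  by_cases hP : P j
  · rw [glue_pos _ _ hP, glue_pos _ _ hP]
  · rw [glue_neg _ _ hP, glue_neg _ _ hP]; exact hz ⟨j, hP⟩ hj

theorem Spl.add {p : (L → ℤ) → L → ℝ} {P : L → Prop}
    {pb : ({l // ¬ P l} → ℤ) → {l // ¬ P l} → ℝ} (h : Spl P p pb) (c : L → ℝ) :
    Spl P (fun z => p z + c) fun y => pb y + rs _ c := fun z l => by
  simp only [Pi.add_apply, h z l]; rfl

variable [Fintype L] [Fintype K]

theorem qq_blocks (A : Matrix L L ℝ) (B : Matrix K K ℝ) (v : L ⊕ K → ℝ) :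
    qq (fromBlocks A 0 0 B) v = qq A (v ∘ Sum.inl) + qq B (v ∘ Sum.inr) := by
  unfold qq
  conv_lhs => rw [← Sum.elim_comp_inl_inr v, fromBlocks_mulVec, sumElim_dotProduct_sumElim]
  simp

theorem qq_split {G : Matrix L L ℝ} (hG : G.IsHermitian) {P : L → Prop} [DecidablePred P]
    (h : Ort G P) (v : L → ℝ) :
    qq G v = qq (bk G P) (rs P v) + qq (bk G fun l => ¬ P l) (rs _ v) := by
  have h1 : G.submatrix (Equiv.sumCompl P) (Equiv.sumCompl P) =
      fromBlocks (bk G P) 0 0 (bk G fun l => ¬ P l) := by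
    ext (i | i) (j | j)
    · rfl
    · exact h i j i.2 j.2
    · have := hG.apply j i
      rw [h j i j.2 i.2] at this
      simpa using this
    · rfl
  rw [← qq_submatrix G (Equiv.sumCompl P), h1, qq_blocks]
  rfl

theorem posDef_blocks {A : Matrix L L ℝ} {B : Matrix K K ℝ} (hA : A.PosDef) (hB : B.PosDef) :
    (fromBlocks A 0 0 B).PosDef := by
  refine PosDef.of_dotProduct_mulVec_pos (hA.1.fromBlocks (by simp) hB.1) fun x hx => ?_
  have h1 := qq_blocks A B x
  have h2 := qq_nonneg hA.posSemidef (x ∘ Sum.inl)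
  have h3 := qq_nonneg hB.posSemidef (x ∘ Sum.inr)
  change 0 < qq _ x
  by_cases h : x ∘ Sum.inl = 0
  · have h4 : x ∘ Sum.inr ≠ 0 := fun h4 => hx (by rw [← Sum.elim_comp_inl_inr x, h, h4]; simp)
    have : 0 < qq B (x ∘ Sum.inr) := hB.dotProduct_mulVec_pos h4
    linarith
  · have : 0 < qq A (x ∘ Sum.inl) := hA.dotProduct_mulVec_pos h
    linarith

variable [DecidableEq L] [DecidableEq K]

theorem ng_blocks {A : Matrix L L ℝ} {B : Matrix K K ℝ} (hA : A.PosDef) (v : L ⊕ K → ℝ) :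
    ng (fromBlocks A 0 0 B) v = ng A (v ∘ Sum.inl) * ng B (v ∘ Sum.inr) := by
  unfold ng gs vol
  rw [qq_blocks, det_fromBlocks_zero₂₁, Real.sqrt_mul hA.det_pos.le, div_mul_div_comm,
    ← Real.exp_add, mul_inv]
  congr 2; ring

theorem ng_split {G : Matrix L L ℝ} (hG : G.PosDef) {P : L → Prop} [DecidablePred P]
    (h : Ort G P) (v : L → ℝ) :
    ng G v = ng (bk G fun l => ¬ P l) (rs _ v) * ng (bk G P) (rs P v) := by
  have h1 : G.det = (bk G P).det * (bk G fun l => ¬ P l).det :=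
    twoBlockTriangular_det' G P fun i hi j hj => h i j hi hj
  unfold ng gs vol
  rw [qq_split hG.1 h, h1, Real.sqrt_mul (posDef_bk hG P).det_pos.le, div_mul_div_comm,
    ← Real.exp_add, mul_inv, mul_comm (√_)⁻¹]
  congr 2; ring

theorem ng_conj {U : Matrix L L ℝ} (hU : U.det = 1) (G : Matrix L L ℝ) (v : L → ℝ) :
    ng (Uᵀ * G * U) v = ng G (U *ᵥ v) := by
  unfold ng
  rw [vol_conj hU, gs_conj]

/-- the weighted sum over one fibre -/
def Fx (G : Matrix L L ℝ) (P : L → Prop) [DecidablePred P] (p : (L → ℤ) → L → ℝ)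
    (f : (L → ℤ) → ℂ) (y : {l // ¬ P l} → ℤ) : ℂ :=
  Ex (bk G P) (pf P p y) fun x => f (glue P x y)

variable {lv : L → ℕ} {p : (L → ℤ) → L → ℝ} {G : Matrix L L ℝ} {P : L → Prop} [DecidablePred P]
  {pb : ({l // ¬ P l} → ℤ) → {l // ¬ P l} → ℝ}

theorem Fx_bdd (hp : Tri lv p) (hG : G.PosDef) (P : L → Prop) [DecidablePred P]
    {f : (L → ℤ) → ℂ} {C : ℝ} (hf : ∀ z, ‖f z‖ ≤ C) : ∃ B, ∀ y, ‖Fx G P p f y‖ ≤ B := by
  obtain ⟨B, hB⟩ := ms_bdd (posDef_bk hG P)
  refine ⟨|C| * B, fun y => ?_⟩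
  refine (norm_Ex_le (tri_pf hp P y) (posDef_bk hG P)
    fun x => (hf _).trans (le_abs_self C)).trans ?_
  exact mul_le_mul_of_nonneg_left (hB _ _ (tri_pf hp P y)) (abs_nonneg C)

theorem Fx_one (G : Matrix L L ℝ) (y : {l // ¬ P l} → ℤ) :
    Fx G P p (fun _ => 1) y = ms (bk G P) (pf P p y) := Ex_one _ _

theorem Fx_base (G : Matrix L L ℝ) (f : (L → ℤ) → ℂ) (g : ({l // ¬ P l} → ℤ) → ℂ)
    (y : {l // ¬ P l} → ℤ) : Fx G P p (fun z => f z * g (rs _ z)) y = Fx G P p f y * g y := by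
  unfold Fx
  simp only [rs_glue_neg, mul_comm _ (g y), Ex_mul_const]

/-- summation over the fibres first -/
theorem Ex_split (hp : Tri lv p) (hG : G.PosDef) (ho : Ort G P) (hs : Spl P p pb)
    {f : (L → ℤ) → ℂ} {C : ℝ} (hf : ∀ z, ‖f z‖ ≤ C) :
    Ex G p f = Ex (bk G fun l => ¬ P l) pb (Fx G P p f) := by
  obtain ⟨-, h2⟩ := hasSum_glue (X := fun _ => ℤ) P (summable_Ex hp hG hf)
  rw [Ex, ← h2.tsum_eq]
  refine tsum_congr fun y => ?_
  rw [Fx, Ex, ← tsum_mul_left]
  refine tsum_congr fun x => ?_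
  rw [ng_split hG ho, ← mul_assoc, ← Complex.ofReal_mul]
  congr 4
  · funext l
    simp only [rs, Pi.sub_apply, toR_apply, hs _ l, rs_glue_neg, glue_neg (X := fun _ => ℤ) x y l.2]
  · funext l
    simp only [rs, Pi.sub_apply, toR_apply, pf, glue_pos (X := fun _ => ℤ) x y l.2]

/-- the first point of a doubled configuration -/
def z1 (P : L → Prop) (z : L ⊕ {l // P l} → ℤ) : L → ℤ := fun l => z (Sum.inl l)

/-- the second point of a doubled configuration -/
def z2 (P : L → Prop) [DecidablePred P] (z : L ⊕ {l // P l} → ℤ) : L → ℤ :=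
  fun l => z (Sum.inl l) + if h : P l then z (Sum.inr ⟨l, h⟩) else 0

/-- the centres of the doubled system, in difference coordinates -/
def pd (P : L → Prop) [DecidablePred P] (p : (L → ℤ) → L → ℝ) (z : L ⊕ {l // P l} → ℤ) :
    L ⊕ {l // P l} → ℝ :=
  Sum.elim (p (z1 P z)) fun l => p (z2 P z) l - p (z1 P z) l

/-- the shear from difference coordinates to copies -/
def sh (P : L → Prop) : Matrix (L ⊕ {l // P l}) (L ⊕ {l // P l}) ℝ :=
  fromBlocks 1 0 (Matrix.of fun l l' => if l' = l.1 then 1 else 0) 1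

/-- the Gram matrix of the doubled system -/
def Gd (G : Matrix L L ℝ) (P : L → Prop) [DecidablePred P] :
    Matrix (L ⊕ {l // P l}) (L ⊕ {l // P l}) ℝ :=
  (sh P)ᵀ * fromBlocks G 0 0 (bk G P) * sh P

omit [Fintype L] [DecidableEq L] in
theorem tri_pd (hp : Tri lv p) (P : L → Prop) [DecidablePred P] :
    Tri (Sum.elim lv fun l : {l // P l} => lv l) (pd P p) := by
  have h1 : ∀ (i : L) (z z' : L ⊕ {l // P l} → ℤ),
      (∀ j, Sum.elim lv (fun l : {l // P l} => lv l) j < lv i → z j = z' j) →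
      p (z1 P z) i = p (z1 P z') i ∧ p (z2 P z) i = p (z2 P z') i := fun i z z' h =>
    ⟨hp i _ _ fun j hj => h (Sum.inl j) hj, hp i _ _ fun j hj => by
      unfold z2
      rw [h (Sum.inl j) hj]
      split_ifs with hP
      · rw [h (Sum.inr ⟨j, hP⟩) hj]
      · rfl⟩
  rintro (i | i) z z' h
  · exact (h1 i z z' h).1
  · simp only [pd, Sum.elim_inr, (h1 i z z' h).1, (h1 i z z' h).2]

theorem det_sh : (sh P).det = 1 := by
  unfold sh
  rw [det_fromBlocks_zero₁₂, det_one, det_one, one_mul]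

theorem sh_mulVec (v : L ⊕ {l // P l} → ℝ) :
    sh P *ᵥ v = Sum.elim (v ∘ Sum.inl) fun l => v (Sum.inl l.1) + v (Sum.inr l) := by
  unfold sh
  rw [fromBlocks_mulVec]
  funext i
  rcases i with i | i
  · simp
  · simp [mulVec, dotProduct]

theorem posDef_Gd (hG : G.PosDef) : (Gd G P).PosDef := by
  refine posDef_conj (posDef_blocks hG (posDef_bk hG P)) _ (mulVec_injective_iff_isUnit.2 ?_)
  rw [isUnit_iff_isUnit_det, det_sh]; exact isUnit_one

theorem qq_Gd (hG : G.PosDef) (ho : Ort G P) (v : L ⊕ {l // P l} → ℝ) :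
    qq (Gd G P) v ≤ 3 * qq (fromBlocks G 0 0 (bk G P)) v := by
  unfold Gd
  rw [qq_conj, sh_mulVec, qq_blocks, qq_blocks]
  have h1 := qq_split hG.1 ho (v ∘ Sum.inl)
  have h2 := qq_nonneg (posDef_bk hG fun l => ¬ P l).posSemidef (rs _ (v ∘ Sum.inl))
  have h3 := qq_add (posDef_bk hG P).1 (rs P (v ∘ Sum.inl)) (v ∘ Sum.inr)
  have h4 := qq_sub (posDef_bk hG P).1 (rs P (v ∘ Sum.inl)) (v ∘ Sum.inr)
  have h5 := qq_nonneg (posDef_bk hG P).posSemidef (rs P (v ∘ Sum.inl) - v ∘ Sum.inr)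
  have h6 := qq_nonneg (posDef_bk hG P).posSemidef (v ∘ Sum.inr)
  change qq G (v ∘ Sum.inl) + qq (bk G P) (rs P (v ∘ Sum.inl) + v ∘ Sum.inr) ≤ _
  linarith

/-- the doubled system is the fibre product over the base -/
theorem Ex_dbl (hp : Tri lv p) (hG : G.PosDef) (ho : Ort G P) (hs : Spl P p pb)
    {f g : (L → ℤ) → ℂ} {C D : ℝ} (hf : ∀ z, ‖f z‖ ≤ C) (hg : ∀ z, ‖g z‖ ≤ D) :
    Ex (Gd G P) (pd P p) (fun z => f (z1 P z) * g (z2 P z)) =
      Ex (bk G fun l => ¬ P l) pb fun y => Fx G P p f y * Fx G P p g y := by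
  obtain ⟨B, hB⟩ := Fx_bdd hp hG P hg
  have hC : 0 ≤ C := (norm_nonneg _).trans (hf 0)
  have hb : ∀ z, ‖f z * Fx G P p g (rs _ z)‖ ≤ C * B := fun z => by
    rw [norm_mul]; exact mul_le_mul (hf z) (hB _) (norm_nonneg _) hC
  simp_rw [← Fx_base]
  rw [← Ex_split hp hG ho hs hb]
  have hb2 : ∀ z, ‖f (z1 P z) * g (z2 P z)‖ ≤ C * D := fun z => by
    rw [norm_mul]; exact mul_le_mul (hf _) (hg _) (norm_nonneg _) hC
  have h1 := summable_Ex (tri_pd hp P) (posDef_Gd hG) hb2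
  let e := (Equiv.sumArrowEquivProdArrow L {l // P l} ℤ).symm
  have h2 := e.summable_iff.2 h1
  rw [Ex, ← e.tsum_eq]
  refine h2.tsum_prod.trans ?_
  refine tsum_congr fun z => ?_
  beta_reduce
  rw [Fx, Ex, ← tsum_mul_left, ← tsum_mul_left]
  refine Eq.trans (tsum_congr fun x => ?_) ((Equiv.addLeft (rs P z)).tsum_eq _)
  have e1 : z1 P (e (z, x)) = z := rfl
  have e2 : z2 P (e (z, x)) = glue P (rs P z + x) (rs _ z) := by
    funext l
    unfold z2 glue
    split_ifs <;> simp [e, rs]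
  simp only [Equiv.coe_addLeft, Function.comp]
  rw [Gd, ng_conj det_sh, ng_blocks hG, sh_mulVec, e1, e2, Complex.ofReal_mul]
  have e3 : (Sum.elim ((toR (e (z, x)) - pd P p (e (z, x))) ∘ Sum.inl) fun l =>
      (toR (e (z, x)) - pd P p (e (z, x))) (Sum.inl l.1) +
        (toR (e (z, x)) - pd P p (e (z, x))) (Sum.inr l)) ∘ Sum.inr =
      toR (rs P z + x) - pf P p (rs _ z) (rs P z + x) := by
    funext l
    simp only [Function.comp, Sum.elim_inr, Pi.sub_apply, toR_apply, pd, Sum.elim_inl, e1, e2, pf]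
    simp [e, rs]
    ring
  rw [e3]
  have e4 : (Sum.elim ((toR (e (z, x)) - pd P p (e (z, x))) ∘ Sum.inl) fun l =>
      (toR (e (z, x)) - pd P p (e (z, x))) (Sum.inl l.1) +
        (toR (e (z, x)) - pd P p (e (z, x))) (Sum.inr l)) ∘ Sum.inl = toR z - p z := rfl
  rw [e4]; ring

/-- Cauchy-Schwarz over the base -/
theorem Ex_cs (hp : Tri lv p) (hG : G.PosDef) (ho : Ort G P) (hs : Spl P p pb)
    {f : (L → ℤ) → ℂ} {C : ℝ} (hf : ∀ z, ‖f z‖ ≤ C) :
    ‖Ex G p f‖ ^ 2 ≤ ms (bk G fun l => ¬ P l) pb *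
      ‖Ex (Gd G P) (pd P p) fun z => (starRingEnd ℂ) (f (z1 P z)) * f (z2 P z)‖ := by
  obtain ⟨B, hB⟩ := Fx_bdd hp hG P hf
  rw [Ex_dbl hp hG ho hs (f := fun z => (starRingEnd ℂ) (f z)) (C := C) (by simpa using hf) hf,
    Ex_split hp hG ho hs hf]
  have h1 : ∀ y, Fx G P p (fun z => (starRingEnd ℂ) (f z)) y * Fx G P p f y =
      ((‖Fx G P p f y‖ ^ 2 : ℝ) : ℂ) := fun y => by
    rw [← Complex.normSq_eq_norm_sq, Complex.normSq_eq_conj_mul_self]
    congr 1
    simp only [Fx, Ex, Complex.conj_tsum, map_mul, Complex.conj_ofReal]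
  simp_rw [h1]
  rw [Ex_real, Complex.norm_real]
  have hw := summable_ng (hs.tri hp) (posDef_bk hG fun l => ¬ P l)
  have h2 := norm_tsum_sq_le hw (fun _ => ng_nonneg _ _) (f := Fx G P p f)
    (summable_mul_real hw (fun _ => ng_nonneg _ _) (C := B ^ 2) fun y => by
      rw [abs_of_nonneg (sq_nonneg _)]; exact pow_le_pow_left₀ (norm_nonneg _) (hB y) 2)
  simp only [Complex.real_smul] at h2
  exact h2.trans (mul_le_mul_of_nonneg_left (le_abs_self _) (ms_nonneg _ _))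

/-- the masses of the fibres are close to one in the mean -/
theorem fib_l1 (hp : Tri lv p) (hG : G.PosDef) (ho : Ort G P) (hs : Spl P p pb) {η : ℝ}
    (hη : η ≤ 1) (h0 : |ms (bk G fun l => ¬ P l) pb - 1| ≤ η) (h1 : |ms G p - 1| ≤ η)
    (h2 : |ms (Gd G P) (pd P p) - 1| ≤ η) :
    ∑' y, ng (bk G fun l => ¬ P l) (toR y - pb y) * |ms (bk G P) (pf P p y) - 1| ≤ 3 * √η := by
  have hη0 : 0 ≤ η := (abs_nonneg _).trans h0
  obtain ⟨B, hB⟩ := ms_bdd (posDef_bk hG P)
  have hB' : ∀ y, |ms (bk G P) (pf P p y)| ≤ B := fun y => by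
    rw [abs_of_nonneg (ms_nonneg _ _)]; exact hB _ _ (tri_pf hp P y)
  set w := fun y => ng (bk G fun l => ¬ P l) (toR y - pb y)
  set M := fun y => ms (bk G P) (pf P p y)
  have hw : Summable w := summable_ng (hs.tri hp) (posDef_bk hG fun l => ¬ P l)
  have hw0 : ∀ y, 0 ≤ w y := fun _ => ng_nonneg _ _
  have s1 := summable_mul_real hw hw0 hB'
  have s2 := summable_mul_real hw hw0 (f := fun y => M y * M y) (C := B * B) fun y => by
    rw [abs_mul]; exact mul_le_mul (hB' y) (hB' y) (abs_nonneg _) ((abs_nonneg _).trans (hB' y))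
  have e1 : ms G p = ∑' y, w y * M y := by
    have := Ex_split hp hG ho hs (f := fun _ => 1) (C := 1) (by simp)
    rw [Ex_one, funext (Fx_one G), Ex_real] at this
    exact_mod_cast this
  have e2 : ms (Gd G P) (pd P p) = ∑' y, w y * (M y * M y) := by
    have := Ex_dbl hp hG ho hs (f := fun _ => 1) (g := fun _ => 1) (C := 1) (D := 1) (by simp)
      (by simp)
    simp only [mul_one, Fx_one, ← Complex.ofReal_mul] at this
    rw [Ex_one, Ex_real] at this
    exact_mod_cast this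
  have s3 : HasSum (fun y => w y * (M y - 1) ^ 2)
      (ms (Gd G P) (pd P p) - 2 * ms G p + ms (bk G fun l => ¬ P l) pb) := by
    rw [e1, e2]
    refine ((s2.hasSum.sub (s1.hasSum.mul_left 2)).add hw.hasSum).congr_fun fun y => ?_
    ring
  have h3 := (tsum_cs (c := fun y => w y * |M y - 1|) hw s3.summable hw0
    (fun y => mul_nonneg (hw0 y) (sq_nonneg _)) (fun y => mul_nonneg (hw0 y) (abs_nonneg _))
    fun y => le_of_eq (by rw [mul_pow, sq_abs]; ring)).2
  rw [s3.tsum_eq] at h3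
  change _ ≤ ms (bk G fun l => ¬ P l) pb * _ at h3
  rw [abs_le] at h0 h1 h2
  refine le_of_sq_le_sq ?_ (by positivity)
  rw [mul_pow, Real.sq_sqrt hη0]
  refine h3.trans ?_
  refine (mul_le_mul (b := 2) (d := 4 * η) (by linarith) (by linarith)
    (s3.nonneg fun y => mul_nonneg (hw0 y) (sq_nonneg _)) (by norm_num)).trans ?_
  linarith

/-- summing out the labels in `P` -/
theorem Ex_push (hp : Tri lv p) (hG : G.PosDef) (ho : Ort G P) (hs : Spl P p pb) {η : ℝ}
    (hη : η ≤ 1) (h0 : |ms (bk G fun l => ¬ P l) pb - 1| ≤ η) (h1 : |ms G p - 1| ≤ η)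
    (h2 : |ms (Gd G P) (pd P p) - 1| ≤ η) {f : ({l // ¬ P l} → ℤ) → ℂ} {C : ℝ}
    (hf : ∀ y, ‖f y‖ ≤ C) :
    ‖Ex G p (fun z => f (rs _ z)) - Ex (bk G fun l => ¬ P l) pb f‖ ≤ 3 * √η * C := by
  have hC : 0 ≤ C := (norm_nonneg _).trans (hf 0)
  obtain ⟨B, hB⟩ := ms_bdd (posDef_bk hG P)
  have e1 : Fx G P p (fun z => f (rs _ z)) = fun y => (ms (bk G P) (pf P p y) : ℂ) * f y := by
    funext y
    rw [← Fx_one, ← Fx_base]; simp only [one_mul]
  have hb : ∀ y, ‖(ms (bk G P) (pf P p y) : ℂ) * f y‖ ≤ B * C := fun y => by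
    rw [norm_mul, Complex.norm_real, Real.norm_of_nonneg (ms_nonneg _ _)]
    exact mul_le_mul (hB _ _ (tri_pf hp P y)) (hf y) (norm_nonneg _)
      ((ms_nonneg _ _).trans (hB _ _ (tri_pf hp P y)))
  rw [Ex_split hp hG ho hs fun z => hf _, e1,
    ← Ex_sub (hs.tri hp) (posDef_bk hG fun l => ¬ P l) hb hf]
  have hw := summable_ng (hs.tri hp) (posDef_bk hG fun l => ¬ P l)
  have s1 := summable_mul_real hw (fun _ => ng_nonneg _ _)
    (f := fun y => |ms (bk G P) (pf P p y) - 1|) (C := B + 1) fun y => by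
      rw [abs_abs, abs_le]
      have := hB _ _ (tri_pf hp P y)
      have := ms_nonneg (bk G P) (pf P p y)
      constructor <;> linarith
  refine (tsum_of_norm_bounded (s1.hasSum.mul_right C) fun y => ?_).trans
    (mul_le_mul_of_nonneg_right (fib_l1 hp hG ho hs hη h0 h1 h2) hC)
  rw [norm_mul, Complex.norm_real, Real.norm_of_nonneg (ng_nonneg _ _), mul_assoc]
  beta_reduce
  rw [← sub_one_mul, norm_mul, ← Complex.ofReal_one, ← Complex.ofReal_sub, Complex.norm_real]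
  exact mul_le_mul_of_nonneg_left (mul_le_mul_of_nonneg_left (hf y) (abs_nonneg _))
    (ng_nonneg _ _)

end

end Vale.Agent.P057PC
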